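import Crest.Agent.R225.LB.Defs

/-!
Row 225, S0348, module F: the averaging lemma.
-/

set_option autoImplicit false

namespace Crest.Agent.R225.LB

open MeasureTheory ProbabilityTheory Finset Filter

namespace Avg

/-- the cube -/
def cube (n : ℕ) (R : ℝ) : Set (EE n) := {x | ∀ i, |x i| ≤ R}

lemma cube_eq (n : ℕ) {R : ℝ} (hR : 0 ≤ R) :
    cube n R = (MeasurableEquiv.toLp 2 (Fin n → ℝ)).symm ⁻¹' (Metric.closedBall (0 : Fin n → ℝ) R) := by
  ext x
  simp only [cube, Set.mem_setOf_eq, Set.mem_preimage, mem_closedBall_zero_iff]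
  rw [pi_norm_le_iff_of_nonneg hR]
  simp [Real.norm_eq_abs]

lemma volume_cube (n : ℕ) {R : ℝ} (hR : 0 ≤ R) :
    volume (cube n R) = ENNReal.ofReal ((2 * R) ^ n) := by
  rw [cube_eq n hR, (EuclideanSpace.volume_preserving_symm_measurableEquiv_toLp
    (Fin n)).measure_preimage_equiv, Real.volume_pi_closedBall _ hR, Fintype.card_fin]

lemma mem_cube_add {n : ℕ} {R r : ℝ} {v w x : EE n} (hv : v ∈ cube n R)
    (hx : x ∈ Metric.closedBall (v + w) r) : x ∈ cube n (R + (‖w‖ + r)) := by
  intro i
  have h1 : ‖x - (v + w)‖ ≤ r := by simpa [dist_eq_norm] using hx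
  have h2 : |x i - (v i + w i)| ≤ ‖x - (v + w)‖ := by
    have := PiLp.norm_apply_le (x - (v + w)) i
    simpa [Real.norm_eq_abs] using this
  have h3 : |w i| ≤ ‖w‖ := by
    have := PiLp.norm_apply_le w i
    simpa [Real.norm_eq_abs] using this
  have h4 := hv i
  have h5 : x i = (x i - (v i + w i)) + v i + w i := by ring
  calc |x i| = |(x i - (v i + w i)) + v i + w i| := by rw [← h5]
    _ ≤ |x i - (v i + w i)| + |v i| + |w i| := abs_add_three _ _ _
    _ ≤ R + (‖w‖ + r) := by linarith

/-- the counting function, as an `ENNReal` valued function of the translation `v` -/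
noncomputable def g {n : ℕ} (F : Finset (EE n)) {ι : Type*} (J : Finset ι) (c : ι → ℝ)
    (w : ι → EE n) (r : ι → ℝ) (v : EE n) : ENNReal :=
  ∑ j ∈ J, ENNReal.ofReal (c j) *
    ∑ x ∈ F, (Metric.closedBall (x - w j) (r j)).indicator (fun _ => (1 : ENNReal)) v

lemma measurable_g {n : ℕ} (F : Finset (EE n)) {ι : Type*} (J : Finset ι) (c : ι → ℝ)
    (w : ι → EE n) (r : ι → ℝ) : Measurable (g F J c w r) := by
  unfold g
  refine Finset.measurable_sum _ fun j _ => Measurable.const_mul ?_ _
  refine Finset.measurable_sum _ fun x _ => ?_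
  exact measurable_const.indicator Metric.isClosed_closedBall.measurableSet

lemma lintegral_g_le {n : ℕ} (F : Finset (EE n)) {ι : Type*} (J : Finset ι) (c : ι → ℝ)
    (w : ι → EE n) (r : ι → ℝ) (s : Set (EE n)) :
    ∫⁻ v in s, g F J c w r v ≤
      (F.card : ENNReal) * ∑ j ∈ J, ENNReal.ofReal (c j) * volume (Metric.closedBall (0 : EE n) (r j)) := by
  refine (setLIntegral_le_lintegral s _).trans ?_
  unfold g
  rw [lintegral_finset_sum]
  · rw [Finset.mul_sum]
    refine Finset.sum_le_sum fun j _ => ?_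
    rw [lintegral_const_mul]
    · rw [lintegral_finset_sum]
      · have : ∀ x ∈ F, ∫⁻ a, (Metric.closedBall (x - w j) (r j)).indicator
            (fun _ => (1 : ENNReal)) a = volume (Metric.closedBall (0 : EE n) (r j)) := by
          intro x _
          rw [lintegral_indicator_const Metric.isClosed_closedBall.measurableSet, one_mul,
            Measure.addHaar_closedBall_center]
        rw [Finset.sum_congr rfl this, Finset.sum_const, nsmul_eq_mul]
        exact le_of_eq (by ring)
      · intro x _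
        exact measurable_const.indicator Metric.isClosed_closedBall.measurableSet
    · refine Finset.measurable_sum _ fun x _ => ?_
      exact measurable_const.indicator Metric.isClosed_closedBall.measurableSet
  · intro j _
    refine Measurable.const_mul ?_ _
    refine Finset.measurable_sum _ fun x _ => ?_
    exact measurable_const.indicator Metric.isClosed_closedBall.measurableSet

lemma sum_indicator_eq {n : ℕ} (X : Set (EE n)) (F : Finset (EE n)) (w v : EE n) (r R : ℝ)
    (hF : (F : Set (EE n)) = X ∩ cube n R)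
    (h : ∀ x ∈ Metric.closedBall (v + w) r, x ∈ cube n R) :
    ∑ x ∈ F, (Metric.closedBall (x - w) r).indicator (fun _ => (1 : ENNReal)) v
      = ((X ∩ Metric.closedBall (v + w) r).ncard : ENNReal) := by
  classical
  have h1 : X ∩ Metric.closedBall (v + w) r =
      ((F.filter (fun x => v ∈ Metric.closedBall (x - w) r) : Finset (EE n)) : Set (EE n)) := by
    ext x
    rw [Finset.coe_filter]
    simp only [Set.mem_inter_iff, Set.mem_setOf_eq]
    have hd : (v ∈ Metric.closedBall (x - w) r) ↔ (x ∈ Metric.closedBall (v + w) r) := by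
      rw [Metric.mem_closedBall, Metric.mem_closedBall, dist_eq_norm, dist_eq_norm,
        show v - (x - w) = -(x - (v + w)) by abel, norm_neg]
    constructor
    · rintro ⟨hx, hb⟩
      refine ⟨?_, hd.mpr hb⟩
      have : x ∈ (F : Set (EE n)) := by rw [hF]; exact ⟨hx, h x hb⟩
      exact this
    · rintro ⟨hx, hb⟩
      have : x ∈ (F : Set (EE n)) := hx
      rw [hF] at this
      exact ⟨this.1, hd.mp hb⟩
  rw [h1, Set.ncard_coe_finset, Finset.card_filter, Nat.cast_sum]
  refine Finset.sum_congr rfl fun x _ => ?_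
  by_cases hx : v ∈ Metric.closedBall (x - w) r
  · rw [Set.indicator_of_mem hx, if_pos hx]; simp
  · rw [Set.indicator_of_notMem hx, if_neg hx]; simp

end Avg

open Avg in
/-- If the upper density (with respect to cubes) of the locally finite set `X` is `< ρ`, then
some translate sees at most twice the average in finitely many weighted ball counts. -/
theorem exists_translate {n : ℕ} (hn : 0 < n) (X : Set (EE n))
    (hX : ∀ R : ℝ, (X ∩ {x | ∀ i, |x i| ≤ R}).Finite) (ρ : ℝ) (hρ : 0 < ρ)
    (hlim : limsup (fun R : ℝ => ((X ∩ {x | ∀ i, |x i| ≤ R}).ncard : ENNReal) /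
              ENNReal.ofReal ((2 * R) ^ n)) atTop < ENNReal.ofReal ρ)
    {ι : Type*} (J : Finset ι) (c : ι → ℝ) (hc : ∀ j ∈ J, 0 ≤ c j) (w : ι → EE n) (r : ι → ℝ)
    (hr : ∀ j ∈ J, 0 ≤ r j) :
    ∃ v : EE n, ∑ j ∈ J, c j * ((X ∩ Metric.closedBall (v + w j) (r j)).ncard : ℝ) ≤
      2 * ρ * ∑ j ∈ J, c j * (volume (Metric.closedBall (0 : EE n) (r j))).toReal := by
  classical
  set A : ℝ := ∑ j ∈ J, (‖w j‖ + r j) with hA
  have hA0 : 0 ≤ A := Finset.sum_nonneg fun j hj => add_nonneg (norm_nonneg _) (hr j hj)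
  have hAj : ∀ j ∈ J, ‖w j‖ + r j ≤ A := fun j hj =>
    Finset.single_le_sum (f := fun j => ‖w j‖ + r j)
      (fun i hi => add_nonneg (norm_nonneg _) (hr i hi)) hj
  have h1 : ∀ᶠ R : ℝ in atTop, ((X ∩ {x | ∀ i, |x i| ≤ R}).ncard : ENNReal) /
              ENNReal.ofReal ((2 * R) ^ n) < ENNReal.ofReal ρ :=
    eventually_lt_of_limsup_lt hlim
  have h1' : ∀ᶠ R : ℝ in atTop, ((X ∩ {x | ∀ i, |x i| ≤ R + A}).ncard : ENNReal) /
              ENNReal.ofReal ((2 * (R + A)) ^ n) < ENNReal.ofReal ρ :=
    (tendsto_atTop_add_const_right atTop A tendsto_id).eventually h1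
  have h2 : ∀ᶠ R : ℝ in atTop, ((R + A) / R) ^ n ≤ 2 := by
    have ht : Tendsto (fun R : ℝ => (1 + A / R) ^ n) atTop (nhds ((1 + 0) ^ n)) := by
      refine Tendsto.pow (tendsto_const_nhds.add ?_) n
      exact tendsto_const_nhds.div_atTop tendsto_id
    have h3 : ∀ᶠ R : ℝ in atTop, (1 + A / R) ^ n < 2 :=
      ht.eventually_lt_const (by norm_num)
    filter_upwards [h3, eventually_gt_atTop 0] with R hR hR0
    have : (R + A) / R = 1 + A / R := by field_simp
    rw [this]; exact hR.le
  obtain ⟨R, hR1, hR2, hR0⟩ := (h1'.and (h2.and (eventually_gt_atTop 0))).exists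
  have hRA : 0 < R + A := by linarith
  have hfin : (X ∩ cube n (R + A)).Finite := hX (R + A)
  set F : Finset (EE n) := hfin.toFinset with hF
  have hFc : (F : Set (EE n)) = X ∩ cube n (R + A) := hfin.coe_toFinset
  have hcard : (X ∩ {x | ∀ i, |x i| ≤ R + A}).ncard = F.card := by
    rw [show X ∩ {x : EE n | ∀ i, |x i| ≤ R + A} = (F : Set (EE n)) from hFc.symm,
      Set.ncard_coe_finset]
  rw [hcard] at hR1
  have hpow : 0 < (2 * (R + A)) ^ n := by positivity
  have hcount : (F.card : ℝ) ≤ ρ * (2 * (R + A)) ^ n := by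
    have h3 : (F.card : ENNReal) ≤ ENNReal.ofReal ρ * ENNReal.ofReal ((2 * (R + A)) ^ n) := by
      rw [ENNReal.div_lt_iff (Or.inl (by positivity)) (Or.inl ENNReal.ofReal_ne_top)] at hR1
      exact hR1.le
    rw [← ENNReal.ofReal_mul hρ.le, ← ENNReal.ofReal_natCast] at h3
    exact (ENNReal.ofReal_le_ofReal_iff (by positivity)).mp h3
  -- the average
  have hvol : volume (cube n R) = ENNReal.ofReal ((2 * R) ^ n) := volume_cube n hR0.le
  have hpos : 0 < (2 * R) ^ n := by positivity
  obtain ⟨v, hv, hle⟩ := exists_le_setLAverage (μ := volume) (s := cube n R)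
    (f := g F J c w r) (by rw [hvol]; positivity) (by rw [hvol]; exact ENNReal.ofReal_ne_top)
    (measurable_g F J c w r).aemeasurable
  refine ⟨v, ?_⟩
  rw [setLAverage_eq, hvol] at hle
  have hvb : ∀ j, volume (Metric.closedBall (0 : EE n) (r j)) ≠ ⊤ := fun j =>
    (isCompact_closedBall _ _).measure_ne_top
  set S : ℝ := ∑ j ∈ J, c j * (volume (Metric.closedBall (0 : EE n) (r j))).toReal with hS
  have hS0 : 0 ≤ S := Finset.sum_nonneg fun j hj => mul_nonneg (hc j hj) ENNReal.toReal_nonneg
  have hSe : ∑ j ∈ J, ENNReal.ofReal (c j) * volume (Metric.closedBall (0 : EE n) (r j))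
      = ENNReal.ofReal S := by
    rw [hS, ENNReal.ofReal_sum_of_nonneg
      (fun j hj => mul_nonneg (hc j hj) ENNReal.toReal_nonneg)]
    refine Finset.sum_congr rfl fun j hj => ?_
    rw [ENNReal.ofReal_mul (hc j hj), ENNReal.ofReal_toReal (hvb j)]
  have hgv : g F J c w r v = ENNReal.ofReal
      (∑ j ∈ J, c j * ((X ∩ Metric.closedBall (v + w j) (r j)).ncard : ℝ)) := by
    rw [ENNReal.ofReal_sum_of_nonneg (fun j hj => mul_nonneg (hc j hj) (Nat.cast_nonneg _))]
    unfold g
    refine Finset.sum_congr rfl fun j hj => ?_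
    rw [ENNReal.ofReal_mul (hc j hj), ENNReal.ofReal_natCast,
      sum_indicator_eq X F (w j) v (r j) (R + A) hFc]
    intro x hx i
    exact (mem_cube_add hv hx i).trans (by linarith [hAj j hj])
  rw [hgv] at hle
  have hint := lintegral_g_le F J c w r (cube n R)
  rw [hSe] at hint
  have hle2 : ENNReal.ofReal
      (∑ j ∈ J, c j * ((X ∩ Metric.closedBall (v + w j) (r j)).ncard : ℝ))
      ≤ ENNReal.ofReal (2 * ρ * S) := by
    refine hle.trans ?_
    refine ENNReal.div_le_of_le_mul ?_
    refine hint.trans ?_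
    rw [← ENNReal.ofReal_natCast, ← ENNReal.ofReal_mul (Nat.cast_nonneg _),
      ← ENNReal.ofReal_mul (by positivity)]
    refine ENNReal.ofReal_le_ofReal ?_
    have h5 : (2 * (R + A)) ^ n ≤ 2 * (2 * R) ^ n := by
      have h6 : (2 * (R + A)) ^ n = ((R + A) / R) ^ n * (2 * R) ^ n := by
        rw [← mul_pow]; congr 1; field_simp
      rw [h6]
      exact mul_le_mul_of_nonneg_right hR2 hpos.le
    calc (F.card : ℝ) * S ≤ (ρ * (2 * (R + A)) ^ n) * S := mul_le_mul_of_nonneg_right hcount hS0
      _ ≤ (ρ * (2 * (2 * R) ^ n)) * S := by gcongr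
      _ = 2 * ρ * S * (2 * R) ^ n := by ring
  exact (ENNReal.ofReal_le_ofReal_iff (by positivity)).mp hle2

end Crest.Agent.R225.LB
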