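import Crest.Agent.R225.LB.Defs

set_option autoImplicit false

namespace Crest.Agent.R225.LB.B4

open MeasureTheory ProbabilityTheory Finset Filter Crest.Agent.R225.LB

lemma map_inner {n : ℕ} (v : EE n) :
    (stdGaussian (EE n)).map (fun u => inner ℝ u v) =
      gaussianReal 0 ⟨‖v‖ ^ 2, sq_nonneg _⟩ := by
  have h := IsGaussian.map_eq_gaussianReal (μ := stdGaussian (EE n)) (innerSL ℝ v)
  have h1 : (fun u : EE n => inner ℝ u v) = (innerSL ℝ v) := by
    funext u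
    simp [real_inner_comm]
  rw [h1, h, integral_strongDual_stdGaussian, variance_dual_stdGaussian]
  congr 1
  ext
  simp
  rfl

lemma mgf_inner {n : ℕ} (v : EE n) (t : ℝ) :
    mgf (fun u => inner ℝ u v) (stdGaussian (EE n)) t = Real.exp (‖v‖ ^ 2 * t ^ 2 / 2) := by
  rw [mgf_gaussianReal (map_inner v)]
  simp
  exact Or.inl rfl

lemma integrable_exp_inner {n : ℕ} (v : EE n) (t : ℝ) :
    Integrable (fun u => Real.exp (t * inner ℝ u v)) (stdGaussian (EE n)) := by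
  by_contra hcon
  have h1 := mgf_inner v t
  rw [mgf, integral_undef hcon] at h1
  exact absurd h1 (Real.exp_pos _).ne

lemma chernoff {n : ℕ} (v : EE n) (c : ℝ) :
    (stdGaussian (EE n)).real {u | c ≤ inner ℝ u v} ≤ Real.exp (-c + ‖v‖ ^ 2 / 2) := by
  have h := measure_ge_le_exp_mul_mgf (μ := stdGaussian (EE n)) (X := fun u => inner ℝ u v) (t := 1)
    c zero_le_one (integrable_exp_inner v 1)
  rw [mgf_inner, ← Real.exp_add] at h
  refine h.trans (le_of_eq ?_)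
  congr 1
  ring

lemma Q_le (s : ℝ) (hs : 0 ≤ s) : Q s ≤ Real.exp (-(s ^ 2 / 2)) := by
  have hint : Integrable (fun x => Real.exp (s * x)) (gaussianReal 0 1) := by
    by_contra hcon
    have h1 := congrFun (mgf_id_gaussianReal (μ := 0) (v := 1)) s
    rw [mgf] at h1
    simp only [id] at h1
    rw [integral_undef hcon] at h1
    exact absurd h1 (Real.exp_pos _).ne
  have h := measure_ge_le_exp_mul_mgf (μ := gaussianReal 0 1) (X := id) (t := s)
    s hs hint
  rw [mgf_id_gaussianReal, ← Real.exp_add] at h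
  have h2 : Q s = (gaussianReal 0 1).real {ω | s ≤ id ω} := rfl
  rw [h2]
  refine h.trans (le_of_eq ?_)
  congr 1
  simp
  ring

lemma Q_ge (s : ℝ) (hs : 1 ≤ s) : Real.exp (-3 - s ^ 2 / 2) / s ≤ Q s := by
  have hs0 : 0 < s := by linarith
  have h1 : (gaussianReal 0 1).real (Set.Icc s (s + 1 / s)) ≤ Q s :=
    measureReal_mono Set.Icc_subset_Ici_self
  refine le_trans ?_ h1
  rw [Measure.real, gaussianReal_apply_eq_integral _ one_ne_zero, ENNReal.toReal_ofReal
    (integral_nonneg (fun x => gaussianPDFReal_nonneg _ _ _))]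
  have h2 : ∫ x in Set.Icc s (s + 1 / s), Real.exp (-3 - s ^ 2 / 2) ≤
      ∫ x in Set.Icc s (s + 1 / s), gaussianPDFReal 0 1 x := by
    apply setIntegral_mono_on
    · simp
    · exact (integrable_gaussianPDFReal 0 1).integrableOn
    · exact measurableSet_Icc
    · intro x hx
      rw [gaussianPDFReal]
      have hx2 : x ^ 2 ≤ s ^ 2 + 3 := by
        have h3 : x ^ 2 ≤ (s + 1 / s) ^ 2 := by
          apply pow_le_pow_left₀ (by linarith [hx.1]) hx.2
        have h4 : (s + 1 / s) ^ 2 = s ^ 2 + 2 + (1 / s) ^ 2 := by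
          field_simp
          ring
        have h5 : (1 / s) ^ 2 ≤ 1 := by
          apply pow_le_one₀ (by positivity)
          rw [div_le_one hs0]; exact hs
        linarith
      have hpi : Real.sqrt (2 * Real.pi * ((1 : NNReal) : ℝ)) ≤ Real.exp 1 := by
        rw [Real.sqrt_le_left (Real.exp_pos _).le]
        have : Real.exp 1 > 2.7182818283 := Real.exp_one_gt_d9
        have : Real.pi < 3.15 := Real.pi_lt_d2
        push_cast
        nlinarith
      have hpos : 0 < Real.sqrt (2 * Real.pi * ((1 : NNReal) : ℝ)) := by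
        apply Real.sqrt_pos.mpr
        push_cast
        positivity
      have h6 : Real.exp (-1) ≤ (Real.sqrt (2 * Real.pi * ((1 : NNReal) : ℝ)))⁻¹ := by
        rw [Real.exp_neg]
        exact inv_anti₀ hpos hpi
      have h7 : Real.exp (-3 - s ^ 2 / 2) ≤
          Real.exp (-1) * Real.exp (-(x - 0) ^ 2 / (2 * ((1 : NNReal) : ℝ))) := by
        rw [← Real.exp_add]
        apply Real.exp_le_exp.mpr
        push_cast
        linarith
      refine h7.trans ?_
      exact mul_le_mul_of_nonneg_right h6 (Real.exp_pos _).le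
  refine le_trans (le_of_eq ?_) h2
  rw [setIntegral_const, Measure.real, Real.volume_Icc, ENNReal.toReal_ofReal (by
    have : 0 < 1 / s := by positivity
    linarith)]
  rw [smul_eq_mul]
  ring

lemma P_ge {n : ℕ} (v : EE n) (hv : v ≠ 0) (a : ℝ) :
    (stdGaussian (EE n)).real {u | a ≤ inner ℝ u v} = Q (a / ‖v‖) := by
  have hn : 0 < ‖v‖ := norm_pos_iff.mpr hv
  set w : EE n := (1 / ‖v‖) • v with hw
  have hw1 : ‖w‖ = 1 := by
    rw [hw, norm_smul, Real.norm_of_nonneg (by positivity)]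
    field_simp
  have h1 : {u : EE n | a ≤ inner ℝ u v} = (fun u : EE n => inner ℝ u w) ⁻¹' (Set.Ici (a / ‖v‖)) := by
    ext u
    simp only [Set.mem_ofPred_eq, Set.mem_preimage, Set.mem_Ici, hw, inner_smul_right]
    rw [div_le_iff₀ hn]
    have : 1 / ‖v‖ * inner ℝ u v * ‖v‖ = inner ℝ u v := by field_simp
    rw [this]
  have h2 : (stdGaussian (EE n)).map (fun u => inner ℝ u w) = gaussianReal 0 1 := by
    rw [map_inner]
    congr 1
    ext
    simp [hw1]
    rfl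
  rw [h1, Q, ← h2, map_measureReal_apply (by fun_prop) measurableSet_Ici]

/-- complement of the box -/
lemma box_compl {n : ℕ} (hn : 0 < n) :
    (stdGaussian (EE n)).real (box n)ᶜ ≤ 2 * n * Real.exp (-((n : ℝ) ^ 2 / 2)) := by
  have hn' : (0 : ℝ) < n := by exact_mod_cast hn
  have hsub : (box n)ᶜ ⊆ ⋃ i ∈ (Finset.univ : Finset (Fin n)),
      ({u : EE n | (n : ℝ) ^ 2 ≤ inner ℝ u (EuclideanSpace.single i (n : ℝ))} ∪
       {u : EE n | (n : ℝ) ^ 2 ≤ inner ℝ u (EuclideanSpace.single i (-(n : ℝ)))}) := by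
    intro u hu
    simp only [box, Set.mem_compl_iff, Set.mem_ofPred_eq, not_forall, not_le] at hu
    obtain ⟨i, hi⟩ := hu
    simp only [Set.mem_iUnion, Set.mem_union, Set.mem_ofPred_eq, Finset.mem_univ, exists_true_left]
    refine ⟨i, ?_⟩
    rw [EuclideanSpace.inner_single_right, EuclideanSpace.inner_single_right]
    simp only [conj_trivial]
    rcases lt_abs.mp hi with h | h
    · left; nlinarith
    · right; nlinarith
  have h1 : ∀ i : Fin n, (stdGaussian (EE n)).real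
      ({u : EE n | (n : ℝ) ^ 2 ≤ inner ℝ u (EuclideanSpace.single i (n : ℝ))} ∪
       {u : EE n | (n : ℝ) ^ 2 ≤ inner ℝ u (EuclideanSpace.single i (-(n : ℝ)))}) ≤
      2 * Real.exp (-((n : ℝ) ^ 2 / 2)) := by
    intro i
    refine (measureReal_union_le _ _).trans ?_
    have e1 := chernoff (EuclideanSpace.single i (n : ℝ)) ((n : ℝ) ^ 2)
    have e2 := chernoff (EuclideanSpace.single i (-(n : ℝ))) ((n : ℝ) ^ 2)
    have e3 : -(n : ℝ) ^ 2 + ‖(EuclideanSpace.single i (n : ℝ) : EE n)‖ ^ 2 / 2 = -((n : ℝ) ^ 2 / 2) := by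
      rw [EuclideanSpace.norm_single]; simp; ring
    have e4 : -(n : ℝ) ^ 2 + ‖(EuclideanSpace.single i (-(n : ℝ)) : EE n)‖ ^ 2 / 2
        = -((n : ℝ) ^ 2 / 2) := by
      rw [EuclideanSpace.norm_single]; simp; ring
    rw [e3] at e1
    rw [e4] at e2
    linarith
  refine (measureReal_mono hsub (measure_ne_top _ _)).trans ?_
  refine (measureReal_biUnion_finset_le _ _).trans ?_
  refine (Finset.sum_le_sum (fun i _ => h1 i)).trans ?_
  simp
  ring_nf
  rfl

/-- the depth lemma -/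
lemma depth {n : ℕ} (z : EE n) (hL : 1 ≤ Real.log n) (hn : 6 * Real.log n ≤ n)
    (hq : qw n z ≤ (n : ℝ) ^ 2) : 1 - 5 * Real.log n / n ≤ ‖z‖ := by
  classical
  by_contra hcon
  push Not at hcon
  set L := Real.log n with hLdef
  have hn0 : (0 : ℝ) < n := by linarith
  set j : ℕ := ⌊4 * L⌋₊ + 1 with hj
  have hj1 : 4 * L < j := by
    rw [hj]; push_cast; exact Nat.lt_floor_add_one _
  have hj2 : (j : ℝ) ≤ 4 * L + 1 := by
    rw [hj]; push_cast
    have := Nat.floor_le (a := 4 * L) (by linarith)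
    linarith
  have hjn : j < n := by
    have : (j : ℝ) < n := by linarith
    exact_mod_cast this
  have hη : 0 ≤ eta n := by unfold eta; positivity
  have hz : ‖z‖ ≤ 1 + eta n - j / n := by
    have : (j : ℝ) / n ≤ 5 * L / n := by
      apply div_le_div_of_nonneg_right _ hn0.le
      linarith
    linarith
  have h1 : Real.exp (j / 2) ≤ qw n z := by
    unfold qw
    refine le_trans (le_of_eq ?_) (Finset.single_le_sum
      (f := fun j : ℕ => Real.exp ((j : ℝ) / 2) *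
        (if ‖z‖ ≤ 1 + eta n - (j : ℝ) / n then (1 : ℝ) else 0)) (fun i _ => ?_) (Finset.mem_range.mpr hjn))
    · simp only [if_pos hz, mul_one]
    · positivity
  have h2 : (n : ℝ) ^ 2 = Real.exp (2 * L) := by
    rw [two_mul, Real.exp_add, hLdef, Real.exp_log hn0]; ring
  have h3 : Real.exp (2 * L) < Real.exp (j / 2) := by
    apply Real.exp_lt_exp.mpr; linarith
  linarith

/-- the two-direction Chernoff estimate, deterministic part -/
lemma exponent {n : ℕ} (A : ℝ) (hA : 0 < A) (z₀ z : EE n) (L C₁ α ρ : ℝ) (hρ : ρ = ‖z₀‖)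
    (hn : (0 : ℝ) < n) (hL : 1 ≤ L)
    (hα : α ≤ 200 * Real.sqrt n) (hα0 : 0 ≤ α)
    (hρ2 : 1 / 2 ≤ ρ ^ 2) (hz : ‖z‖ ^ 2 - ρ ^ 2 ≥ - (11 * L / n))
    (hε : ‖z - z₀‖ ^ 2 ≤ A ^ 2 * (L / n))
    (hC : C₁ = 200 * (11 + A ^ 2) + A ^ 2 + 4) :
    -(α / ρ ^ 2 * α + C₁ * L) + ‖(α / ρ ^ 2) • z₀ - Real.sqrt n • (z - z₀)‖ ^ 2 / 2 ≤
      -(α ^ 2 / (2 * ρ ^ 2)) - 4 * L := by
  have hsn : Real.sqrt n ^ 2 = n := Real.sq_sqrt hn.le
  have hρ0 : ρ ^ 2 ≠ 0 := by linarith
  set lam := α / ρ ^ 2 with hlam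
  have hlam0 : 0 ≤ lam := by positivity
  have hlam1 : lam ≤ 400 * Real.sqrt n := by
    rw [hlam, div_le_iff₀ (by linarith)]
    nlinarith [Real.sqrt_nonneg (n : ℝ)]
  have hin : ‖z‖ ^ 2 = ρ ^ 2 + 2 * inner ℝ z₀ (z - z₀) + ‖z - z₀‖ ^ 2 := by
    have := norm_add_sq_real z₀ (z - z₀)
    rw [add_sub_cancel] at this
    rw [this, hρ]
  have hexp : ‖lam • z₀ - Real.sqrt n • (z - z₀)‖ ^ 2 =
      lam ^ 2 * ρ ^ 2 - 2 * (lam * Real.sqrt n * inner ℝ z₀ (z - z₀)) + n * ‖z - z₀‖ ^ 2 := by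
    rw [norm_sub_sq_real, norm_smul, norm_smul, inner_smul_left, inner_smul_right, mul_pow, mul_pow,
      Real.norm_eq_abs, Real.norm_eq_abs, sq_abs, sq_abs, hsn, hρ]
    simp only [conj_trivial]
    ring
  rw [hexp]
  have h1 : lam ^ 2 * ρ ^ 2 = lam * α := by
    rw [hlam]; field_simp
  have h2 : α ^ 2 / (2 * ρ ^ 2) = lam * α / 2 := by
    rw [hlam]; field_simp
  rw [h1, h2]
  -- cross term
  have h3 : -(inner ℝ z₀ (z - z₀)) ≤ (11 + A ^ 2) * (L / n) / 2 := by
    have : 11 * L / n = 11 * (L / n) := by ring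
    rw [this] at hz
    linarith
  have h4 : lam * Real.sqrt n * (-(inner ℝ z₀ (z - z₀))) ≤ 200 * (11 + A ^ 2) * L := by
    have h5 : lam * Real.sqrt n ≤ 400 * n := by
      nlinarith [Real.sqrt_nonneg (n : ℝ)]
    have h6 : 0 ≤ lam * Real.sqrt n := by positivity
    calc lam * Real.sqrt n * (-(inner ℝ z₀ (z - z₀)))
        ≤ lam * Real.sqrt n * ((11 + A ^ 2) * (L / n) / 2) := mul_le_mul_of_nonneg_left h3 h6
      _ ≤ 400 * n * ((11 + A ^ 2) * (L / n) / 2) := by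
          apply mul_le_mul_of_nonneg_right h5
          positivity
      _ = 200 * (11 + A ^ 2) * L := by field_simp; ring
  have h7 : (n : ℝ) * ‖z - z₀‖ ^ 2 ≤ A ^ 2 * L := by
    calc (n : ℝ) * ‖z - z₀‖ ^ 2 ≤ n * (A ^ 2 * (L / n)) := mul_le_mul_of_nonneg_left hε hn.le
      _ = A ^ 2 * L := by field_simp
  have h8 : 0 ≤ A ^ 2 * L := by positivity
  rw [hC]
  nlinarith

set_option maxHeartbeats 2000000 in
/-- B4 with explicit largeness hypotheses -/
theorem cluster_explicit {n : ℕ} (A : ℝ) (hA : 0 < A) (C₁ : ℝ)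
    (hC : C₁ = 200 * (11 + A ^ 2) + A ^ 2 + 4)
    (hL : 1 ≤ Real.log n) (hn1 : (200000 : ℝ) ≤ n) (hn2 : C₁ * Real.log n ≤ n)
    (hn3 : 50 * Real.log n ≤ n)
    (F : Finset (EE n)) (hF : (F.card : ℝ) ≤ (n : ℝ) ^ 2)
    (hz : ∀ z ∈ F, ‖z‖ ≤ 1 + eta n ∧ 1 ≤ qw n z ∧ qw n z ≤ (n : ℝ) ^ 2)
    (hz₀ : ∃ z₀ ∈ F, ∀ z ∈ F, ‖z - z₀‖ ≤ A * Real.sqrt (Real.log n / n)) :
    Real.exp (-(321 * C₁ + 170000) * Real.log n) ≤ nu n {u | ∀ z ∈ F, u ∈ kill n z} := by
  obtain ⟨z₀, hz₀F, hclose⟩ := hz₀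
  set L := Real.log n with hLdef
  have hn0 : (0 : ℝ) < n := by linarith
  have hnN : 0 < n := by exact_mod_cast hn0
  set sn := Real.sqrt n with hsn
  have hsn2 : sn ^ 2 = n := Real.sq_sqrt hn0.le
  have hsn400 : 400 ≤ sn := by
    apply Real.le_sqrt_of_sq_le; linarith
  have hsnpos : 0 < sn := by linarith
  have hsnn : sn ≤ n := by nlinarith only [hsn2, hsn400]
  have hexpL : Real.exp L = n := Real.exp_log hn0
  have hC0 : 0 < C₁ := by rw [hC]; positivity
  set s := s0 n with hs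
  have hs' : s = 160 * sn := rfl
  set α := s + C₁ * L / sn with hα
  have hα1 : C₁ * L / sn ≤ sn := by
    rw [div_le_iff₀ hsnpos, ← sq, hsn2]; exact hn2
  have hα1' : 0 ≤ C₁ * L / sn := by positivity
  have hα161 : α ≤ 161 * sn := by rw [hα, hs']; linarith
  have hα200 : α ≤ 200 * sn := by linarith
  have hαs : s ≤ α := by rw [hα]; linarith
  have hα0 : 0 ≤ α := by rw [hs'] at hαs; linarith
  have hη : eta n = 1 / (n : ℝ) ^ 3 := rfl
  have hη0 : 0 ≤ eta n := by rw [hη]; positivity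
  have hηL : 3 * eta n ≤ L / n := by
    rw [hη, mul_one_div, div_le_div_iff₀ (by positivity) hn0]
    have : (3 : ℝ) ≤ (n : ℝ) ^ 2 := by nlinarith only [hn1]
    have h3 : 3 * (n : ℝ) ≤ (n : ℝ) ^ 2 * n := mul_le_mul_of_nonneg_right this hn0.le
    have h4 : (n : ℝ) ^ 2 * n ≤ L * (n : ℝ) ^ 3 := by
      have : (n : ℝ) ^ 2 * n = 1 * (n : ℝ) ^ 3 := by ring
      rw [this]
      exact mul_le_mul_of_nonneg_right hL (by positivity)
    linarith
  have hLn : L / n ≤ 1 / 50 := by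
    rw [div_le_div_iff₀ hn0 (by norm_num)]; linarith
  have hLn0 : 0 ≤ L / n := by positivity
  have hη1 : eta n ≤ 1 / 150 := by linarith
  have hdepth : ∀ z ∈ F, 1 - 5 * (L / n) ≤ ‖z‖ := by
    intro z hzF
    have := depth z hL (by linarith) (hz z hzF).2.2
    rw [← hLdef, mul_div_assoc] at this
    exact this
  set ρ := ‖z₀‖ with hρ
  have hρlow : 1 - 5 * (L / n) ≤ ρ := hdepth z₀ hz₀F
  have hρhigh : ρ ≤ 1 + eta n := (hz z₀ hz₀F).1
  have hρ09 : 9 / 10 ≤ ρ := by linarith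
  have hρpos : 0 < ρ := by linarith
  have hz0ne : z₀ ≠ 0 := by
    intro h; rw [h, norm_zero] at hρ; linarith
  have hρ2 : 1 / 2 ≤ ρ ^ 2 := by nlinarith only [hρ09]
  have hdiff : ∀ z ∈ F, ‖z‖ ^ 2 - ρ ^ 2 ≥ -(11 * L / n) := by
    intro z hzF
    have h1 := hdepth z hzF
    have h2 : (1 - 5 * (L / n)) ^ 2 ≤ ‖z‖ ^ 2 := by
      apply pow_le_pow_left₀ (by linarith) h1
    have h3 : ρ ^ 2 ≤ (1 + eta n) ^ 2 := pow_le_pow_left₀ hρpos.le hρhigh 2
    have h4 : 11 * L / n = 11 * (L / n) := by ring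
    rw [h4]
    have h5 : 0 ≤ (L / n) ^ 2 := sq_nonneg _
    have h6 : eta n ^ 2 ≤ eta n := by nlinarith only [hη0, hη1]
    nlinarith only [h2, h3, h5, h6, hηL]
  have hε : ∀ z ∈ F, ‖z - z₀‖ ^ 2 ≤ A ^ 2 * (L / n) := by
    intro z hzF
    have h1 := hclose z hzF
    have h2 : ‖z - z₀‖ ^ 2 ≤ (A * Real.sqrt (L / n)) ^ 2 := pow_le_pow_left₀ (norm_nonneg _) h1 2
    rw [mul_pow, Real.sq_sqrt hLn0] at h2
    exact h2
  set M := Real.exp (-(α ^ 2 / (2 * ρ ^ 2))) with hM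
  have hMpos : 0 < M := Real.exp_pos _
  set P := (stdGaussian (EE n)) with hP
  -- the error events
  have hE : ∀ z ∈ F, P.real {u | α ≤ inner ℝ u z₀ ∧ inner ℝ u z < s} ≤ M * Real.exp (-(4 * L)) := by
    intro z hzF
    have hsub : {u : EE n | α ≤ inner ℝ u z₀ ∧ inner ℝ u z < s} ⊆
        {u : EE n | α / ρ ^ 2 * α + C₁ * L ≤
          inner ℝ u ((α / ρ ^ 2) • z₀ - sn • (z - z₀))} := by
      intro u hu
      obtain ⟨hu1, hu2⟩ := hu
      change α / ρ ^ 2 * α + C₁ * L ≤ inner ℝ u ((α / ρ ^ 2) • z₀ - sn • (z - z₀))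
      rw [inner_sub_right, inner_smul_right, inner_smul_right, inner_sub_right]
      have h1 : α / ρ ^ 2 * α ≤ α / ρ ^ 2 * inner ℝ u z₀ :=
        mul_le_mul_of_nonneg_left hu1 (by positivity)
      have h2 : C₁ * L ≤ sn * (α - s) := by
        rw [hα]
        have : sn * (s + C₁ * L / sn - s) = C₁ * L := by field_simp; ring
        rw [this]
      have h3 : sn * (α - s) ≤ sn * (inner ℝ u z₀ - inner ℝ u z) :=
        mul_le_mul_of_nonneg_left (by linarith) hsnpos.le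
      linarith
    refine (measureReal_mono hsub (measure_ne_top _ _)).trans ?_
    refine (chernoff _ _).trans ?_
    rw [hM, ← Real.exp_add]
    apply Real.exp_le_exp.mpr
    have := exponent A hA z₀ z L C₁ α ρ hρ hn0 hL hα200 hα0 hρ2 (hdiff z hzF) (hε z hzF) hC
    rw [← hsn] at this
    linarith
  have hmain : P.real {u | α ≤ inner ℝ u z₀} ≤
      P.real ({u | ∀ z ∈ F, u ∈ kill n z} ∩ box n) +
      ((F.card : ℝ) * (M * Real.exp (-(4 * L))) + P.real (box n)ᶜ) := by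
    have hsub : {u : EE n | α ≤ inner ℝ u z₀} ⊆
        ({u | ∀ z ∈ F, u ∈ kill n z} ∩ box n) ∪
        ((⋃ z ∈ F, {u | α ≤ inner ℝ u z₀ ∧ inner ℝ u z < s}) ∪ (box n)ᶜ) := by
      intro u hu
      by_cases hb : u ∈ box n
      · by_cases hk : ∀ z ∈ F, u ∈ kill n z
        · left; exact ⟨hk, hb⟩
        · right; left
          push Not at hk
          obtain ⟨z, hzF, hzk⟩ := hk
          simp only [Set.mem_iUnion]
          refine ⟨z, hzF, hu, ?_⟩
          by_contra hcon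
          exact hzk (not_lt.mp hcon)
      · right; right; exact hb
    refine (measureReal_mono hsub (measure_ne_top _ _)).trans ?_
    refine (measureReal_union_le _ _).trans ?_
    gcongr
    refine (measureReal_union_le _ _).trans ?_
    gcongr
    refine (measureReal_biUnion_finset_le _ _).trans ?_
    refine (Finset.sum_le_sum hE).trans ?_
    rw [Finset.sum_const, nsmul_eq_mul]
  -- error terms
  have he4 : Real.exp (-(4 * L)) = 1 / (n : ℝ) ^ 4 := by
    rw [Real.exp_neg, ← hexpL, ← Real.exp_nat_mul, one_div]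
    norm_num
  have herr1 : (F.card : ℝ) * (M * Real.exp (-(4 * L))) ≤ M / (n : ℝ) ^ 2 := by
    rw [he4]
    calc (F.card : ℝ) * (M * (1 / (n : ℝ) ^ 4)) ≤ (n : ℝ) ^ 2 * (M * (1 / (n : ℝ) ^ 4)) := by
          apply mul_le_mul_of_nonneg_right hF
          positivity
      _ = M / (n : ℝ) ^ 2 := by field_simp
  have hαρ : α ^ 2 / (2 * ρ ^ 2) ≤ 40000 * n := by
    rw [div_le_iff₀ (by positivity)]
    have h1 : α ^ 2 ≤ (200 * sn) ^ 2 := pow_le_pow_left₀ hα0 hα200 2
    have h2 : (200 * sn) ^ 2 = 40000 * n := by rw [mul_pow, hsn2]; norm_num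
    have h3 : 40000 * (n : ℝ) ≤ 40000 * n * (2 * ρ ^ 2) := by
      have h4 : 1 ≤ 2 * ρ ^ 2 := by linarith
      have h5 : 0 ≤ 40000 * (n : ℝ) := by positivity
      exact le_mul_of_one_le_right h5 h4
    linarith
  have herr2 : P.real (box n)ᶜ ≤ M / (n : ℝ) ^ 2 := by
    refine (box_compl hnN).trans ?_
    rw [le_div_iff₀ (by positivity)]
    have h1 : 2 * (n : ℝ) * Real.exp (-((n : ℝ) ^ 2 / 2)) * (n : ℝ) ^ 2 =
        2 * ((n : ℝ) ^ 3 * Real.exp (-((n : ℝ) ^ 2 / 2))) := by ring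
    have h2 : (n : ℝ) ^ 3 = Real.exp (3 * L) := by
      rw [← hexpL, ← Real.exp_nat_mul]; norm_num
    have h3 : (2 : ℝ) ≤ Real.exp 1 := by
      have := Real.exp_one_gt_d9; linarith
    rw [h1, h2, ← Real.exp_add]
    calc 2 * Real.exp (3 * L + -((n : ℝ) ^ 2 / 2))
        ≤ Real.exp 1 * Real.exp (3 * L + -((n : ℝ) ^ 2 / 2)) :=
          mul_le_mul_of_nonneg_right h3 (Real.exp_pos _).le
      _ = Real.exp (1 + (3 * L + -((n : ℝ) ^ 2 / 2))) := by rw [← Real.exp_add]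
      _ ≤ M := by
          rw [hM]
          apply Real.exp_le_exp.mpr
          have h4 : 200000 * (n : ℝ) ≤ (n : ℝ) ^ 2 := by nlinarith only [hn1]
          linarith
  have hexp3 : Real.exp 3 ≤ 21 := by
    have h1 : Real.exp 3 = (Real.exp 1) ^ 3 := by rw [← Real.exp_nat_mul]; norm_num
    rw [h1]
    have h2 := Real.exp_one_lt_d9
    have h3 : Real.exp 1 ^ 3 ≤ 2.72 ^ 3 := pow_le_pow_left₀ (Real.exp_pos _).le (by linarith) 3
    refine h3.trans (by norm_num)
  have hlow : M * (Real.exp (-3) / (400 * sn)) ≤ P.real {u | α ≤ inner ℝ u z₀} := by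
    rw [P_ge z₀ hz0ne, ← hρ]
    have h1 : 1 ≤ α / ρ := by
      rw [le_div_iff₀ hρpos]
      have : (1 : ℝ) * ρ ≤ 2 := by linarith
      rw [hs'] at hαs
      linarith
    refine le_trans ?_ (Q_ge _ h1)
    have h2 : Real.exp (-3 - (α / ρ) ^ 2 / 2) = M * Real.exp (-3) := by
      rw [hM, ← Real.exp_add]
      congr 1
      field_simp
      ring
    rw [h2, mul_div_assoc]
    apply mul_le_mul_of_nonneg_left _ hMpos.le
    apply div_le_div_of_nonneg_left (Real.exp_pos _).le (by positivity)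
    rw [div_le_iff₀ hρpos]
    nlinarith only [hα200, hρ09, hsnpos]
  have h2n : 2 / (n : ℝ) ^ 2 ≤ Real.exp (-3) / (800 * sn) := by
    rw [Real.exp_neg, div_le_div_iff₀ (by positivity) (by positivity)]
    have h1 : 2 * (800 * sn) ≤ 1600 * n := by linarith
    have h2 : (1600 : ℝ) * n ≤ (Real.exp 3)⁻¹ * (n : ℝ) ^ 2 := by
      rw [inv_mul_eq_div, le_div_iff₀ (Real.exp_pos _)]
      nlinarith only [hexp3, hn1, Real.exp_pos 3]
    linarith
  have hcore : M * (Real.exp (-3) / (800 * sn)) ≤ P.real ({u | ∀ z ∈ F, u ∈ kill n z} ∩ box n) := by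
    have h1 : Real.exp (-3) / (400 * sn) = 2 * (Real.exp (-3) / (800 * sn)) := by
      field_simp; ring
    have h2 : M / (n : ℝ) ^ 2 + M / (n : ℝ) ^ 2 = M * (2 / (n : ℝ) ^ 2) := by ring
    have h3 : M * (2 / (n : ℝ) ^ 2) ≤ M * (Real.exp (-3) / (800 * sn)) :=
      mul_le_mul_of_nonneg_left h2n hMpos.le
    rw [h1] at hlow
    linarith
  have hs1 : 1 ≤ s := by rw [hs']; linarith
  have hQpos : 0 < Q s := lt_of_lt_of_le (by positivity) (Q_ge s hs1)
  have hQle : Q s ≤ Real.exp (-(s ^ 2 / 2)) := Q_le s (by linarith)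
  have hnu : M * (Real.exp (-3) / (800 * sn)) / Real.exp (-(s ^ 2 / 2)) ≤
      nu n {u | ∀ z ∈ F, u ∈ kill n z} := by
    unfold nu
    rw [← hP, ← hs]
    exact div_le_div₀ measureReal_nonneg hcore hQpos hQle
  refine le_trans ?_ hnu
  -- numeric
  have hinvρ : α ^ 2 / ρ ^ 2 ≤ α ^ 2 * (1 + 25 / 2 * (L / n)) := by
    rw [div_le_iff₀ (by positivity), mul_assoc]
    have h1 : 1 ≤ (1 + 25 / 2 * (L / n)) * ρ ^ 2 := by
      have h2 : (1 - 5 * (L / n)) ^ 2 ≤ ρ ^ 2 := pow_le_pow_left₀ (by linarith) hρlow 2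
      have h3 : 1 ≤ (1 + 25 / 2 * (L / n)) * (1 - 5 * (L / n)) ^ 2 := by
        have e : (1 + 25 / 2 * (L / n)) * (1 - 5 * (L / n)) ^ 2 =
            1 + (L / n) * (5 / 2 - 100 * (L / n)) + 625 / 2 * (L / n) ^ 3 := by ring
        rw [e]
        have e1 : 0 ≤ (L / n) * (5 / 2 - 100 * (L / n)) := mul_nonneg hLn0 (by linarith)
        have e2 : 0 ≤ 625 / 2 * (L / n) ^ 3 := by positivity
        linarith
      refine h3.trans ?_
      apply mul_le_mul_of_nonneg_left h2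
      positivity
    calc α ^ 2 = α ^ 2 * 1 := (mul_one _).symm
      _ ≤ α ^ 2 * ((1 + 25 / 2 * (L / n)) * ρ ^ 2) := mul_le_mul_of_nonneg_left h1 (sq_nonneg α)
  have hα2 : α ^ 2 ≤ s ^ 2 + 321 * C₁ * L := by
    rw [hα]
    have h1 : (s + C₁ * L / sn) ^ 2 = s ^ 2 + 2 * (s / sn) * (C₁ * L) + (C₁ * L) * (C₁ * L / n) := by
      rw [← hsn2]
      field_simp
      ring
    have h2 : s / sn = 160 := by rw [hs']; field_simp
    have h3 : C₁ * L / n ≤ 1 := by rw [div_le_one hn0]; exact hn2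
    have h4 : (C₁ * L) * (C₁ * L / n) ≤ (C₁ * L) * 1 := mul_le_mul_of_nonneg_left h3 (by positivity)
    rw [h1, h2]
    linarith
  have hα3 : α ^ 2 * (25 / 2 * (L / n)) ≤ 325000 * L := by
    have h1 : α ^ 2 ≤ 25921 * n := by
      have : α ^ 2 ≤ (161 * sn) ^ 2 := pow_le_pow_left₀ hα0 hα161 2
      rw [mul_pow, hsn2] at this
      linarith
    calc α ^ 2 * (25 / 2 * (L / n)) ≤ 25921 * n * (25 / 2 * (L / n)) := by
          apply mul_le_mul_of_nonneg_right h1; positivity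
      _ = 25921 * (25 / 2) * L := by field_simp
      _ ≤ 325000 * L := by linarith
  have hnum : α ^ 2 / ρ ^ 2 - s ^ 2 ≤ (321 * C₁ + 325000) * L := by
    linarith
  have h800 : Real.exp (-(7 + L)) ≤ 1 / (800 * sn) := by
    rw [Real.exp_neg, Real.exp_add, hexpL, one_div]
    apply inv_anti₀ (by positivity)
    have h1 : (800 : ℝ) ≤ Real.exp 7 := by
      have h2 : Real.exp 7 = (Real.exp 1) ^ 7 := by rw [← Real.exp_nat_mul]; norm_num
      rw [h2]
      have h3 := Real.exp_one_gt_d9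
      have h4 : (2.7 : ℝ) ^ 7 ≤ Real.exp 1 ^ 7 := pow_le_pow_left₀ (by norm_num) (by linarith) 7
      refine le_trans (by norm_num) h4
    exact mul_le_mul h1 hsnn hsnpos.le (Real.exp_pos _).le
  have hfin : Real.exp (-(321 * C₁ + 170000) * L) ≤
      M / Real.exp (-(s ^ 2 / 2)) * (Real.exp (-3) * Real.exp (-(7 + L))) := by
    rw [hM, ← Real.exp_sub, ← Real.exp_add, ← Real.exp_add]
    apply Real.exp_le_exp.mpr
    have h1 : α ^ 2 / (2 * ρ ^ 2) = (α ^ 2 / ρ ^ 2) / 2 := by field_simp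
    rw [h1]
    have h2 := mul_pos hC0 (lt_of_lt_of_le one_pos hL)
    have h3 : (321 * C₁ + 325000) * L = 321 * (C₁ * L) + 325000 * L := by ring
    have h4 : -(321 * C₁ + 170000) * L = -(321 * (C₁ * L)) - 170000 * L := by ring
    rw [h3] at hnum
    rw [h4]
    linarith
  refine hfin.trans ?_
  have h1 : M * (Real.exp (-3) / (800 * sn)) / Real.exp (-(s ^ 2 / 2)) =
      M / Real.exp (-(s ^ 2 / 2)) * (Real.exp (-3) * (1 / (800 * sn))) := by
    field_simp
  rw [h1]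
  apply mul_le_mul_of_nonneg_left _ (by positivity)
  exact mul_le_mul_of_nonneg_left h800 (Real.exp_pos _).le

end Crest.Agent.R225.LB.B4

namespace Crest.Agent.R225.LB

open MeasureTheory ProbabilityTheory Finset Filter

/-- B4: one facet kills a whole small cluster -/
theorem nu_kill_cluster_ge (A : ℝ) (hA : 0 < A) : ∃ C : ℝ, 0 < C ∧ ∀ᶠ n : ℕ in atTop,
    ∀ F : Finset (EE n), (F.card : ℝ) ≤ (n : ℝ) ^ 2 →
    (∀ z ∈ F, ‖z‖ ≤ 1 + eta n ∧ 1 ≤ qw n z ∧ qw n z ≤ (n : ℝ) ^ 2) →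
    (∃ z₀ ∈ F, ∀ z ∈ F, ‖z - z₀‖ ≤ A * Real.sqrt (Real.log n / n)) →
    Real.exp (-C * Real.log n) ≤ nu n {u | ∀ z ∈ F, u ∈ kill n z} := by
  set C₁ : ℝ := 200 * (11 + A ^ 2) + A ^ 2 + 4 with hC
  have hC0 : 0 < C₁ := by positivity
  refine ⟨321 * C₁ + 170000, by positivity, ?_⟩
  have hlo : ∀ K : ℝ, 0 < K → ∀ᶠ n : ℕ in atTop, K * Real.log n ≤ n := by
    intro K hK
    have h1 := (Real.isLittleO_log_id_atTop.def (c := 1 / K) (by positivity))
    have h2 := tendsto_natCast_atTop_atTop (R := ℝ)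
    filter_upwards [h2.eventually h1, eventually_ge_atTop 1] with n hn h1n
    have hn0 : (0 : ℝ) < n := by exact_mod_cast h1n
    have hlog : 0 ≤ Real.log n := Real.log_nonneg (by exact_mod_cast h1n)
    rw [Real.norm_of_nonneg hlog, id, Real.norm_of_nonneg hn0.le] at hn
    calc K * Real.log n ≤ K * (1 / K * n) := mul_le_mul_of_nonneg_left hn hK.le
      _ = n := by field_simp
  have hL : ∀ᶠ n : ℕ in atTop, 1 ≤ Real.log n := by
    have := (Real.tendsto_log_atTop.comp (tendsto_natCast_atTop_atTop (R := ℝ)))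
    exact this.eventually_ge_atTop 1
  filter_upwards [hlo C₁ hC0, hlo 50 (by norm_num), hL, eventually_ge_atTop 200000]
    with n h1 h2 h3 h4 F hF hz hz₀
  have h5 : (200000 : ℝ) ≤ n := by exact_mod_cast h4
  exact B4.cluster_explicit A hA C₁ hC h3 h5 h1 h2 F hF hz hz₀

end Crest.Agent.R225.LB
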