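import Crest.Agent.R225.LB.Defs

/-!
Elementary lemmas on `Ex` used in the model part (S0348-E).
-/

set_option autoImplicit false

namespace Crest.Agent.R225.LB.ExLib

open Finset Crest.Agent.R225.LB

variable {α : Type*} [DecidableEq α]

theorem weight_nonneg {p : α → ℝ} (hp0 : ∀ a, 0 ≤ p a) (hp1 : ∀ a, p a ≤ 1) (s t : Finset α) :
    0 ≤ (∏ a ∈ t, p a) * (∏ a ∈ s \ t, (1 - p a)) :=
  mul_nonneg (prod_nonneg fun a _ => hp0 a) (prod_nonneg fun a _ => by linarith [hp1 a])

theorem Ex_one (p : α → ℝ) (s : Finset α) : Ex p s (fun _ => 1) = 1 := by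
  unfold Ex
  simp only [mul_one]
  rw [← prod_add p (fun a => 1 - p a) s]
  simp

theorem Ex_const (p : α → ℝ) (s : Finset α) (c : ℝ) : Ex p s (fun _ => c) = c := by
  have h := Ex_one p s
  unfold Ex at h ⊢
  simp only [mul_one] at h
  rw [← sum_mul, h, one_mul]

theorem Ex_mono {p : α → ℝ} (hp0 : ∀ a, 0 ≤ p a) (hp1 : ∀ a, p a ≤ 1) (s : Finset α)
    {f g : Finset α → ℝ} (h : ∀ t ⊆ s, f t ≤ g t) : Ex p s f ≤ Ex p s g := by
  unfold Ex
  refine sum_le_sum fun t ht => ?_
  exact mul_le_mul_of_nonneg_left (h t (mem_powerset.1 ht)) (weight_nonneg hp0 hp1 s t)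

theorem Ex_add (p : α → ℝ) (s : Finset α) (f g : Finset α → ℝ) :
    Ex p s (fun t => f t + g t) = Ex p s f + Ex p s g := by
  unfold Ex
  rw [← sum_add_distrib]
  exact sum_congr rfl fun t _ => by ring

theorem Ex_sub (p : α → ℝ) (s : Finset α) (f g : Finset α → ℝ) :
    Ex p s (fun t => f t - g t) = Ex p s f - Ex p s g := by
  unfold Ex
  rw [← sum_sub_distrib]
  exact sum_congr rfl fun t _ => by ring

theorem Ex_mul_left (p : α → ℝ) (s : Finset α) (c : ℝ) (f : Finset α → ℝ) :
    Ex p s (fun t => c * f t) = c * Ex p s f := by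
  unfold Ex
  rw [mul_sum]
  exact sum_congr rfl fun t _ => by ring

theorem Ex_sum {ι : Type*} (p : α → ℝ) (s : Finset α) (I : Finset ι) (f : ι → Finset α → ℝ) :
    Ex p s (fun t => ∑ i ∈ I, f i t) = ∑ i ∈ I, Ex p s (f i) := by
  unfold Ex
  rw [sum_comm]
  exact sum_congr rfl fun t _ => by rw [mul_sum]

/-- `P(a ∈ t) = p a`. -/
theorem Ex_mem (p : α → ℝ) (s : Finset α) {a : α} (ha : a ∈ s) :
    Ex p s (fun t => if a ∈ t then 1 else 0) = p a := by
  classical
  have h := Ex_one p (s.erase a)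
  unfold Ex at h ⊢
  simp only [mul_one] at h
  simp only [mul_ite, mul_one, mul_zero]
  rw [← sum_filter]
  have hbij : ∑ t ∈ (s.powerset).filter (fun t => a ∈ t),
      (∏ x ∈ t, p x) * (∏ x ∈ s \ t, (1 - p x)) =
      ∑ t ∈ (s.erase a).powerset, p a * ((∏ x ∈ t, p x) * (∏ x ∈ s.erase a \ t, (1 - p x))) := by
    symm
    refine sum_bij' (fun t _ => insert a t) (fun t _ => t.erase a) ?_ ?_ ?_ ?_ ?_
    · intro t ht
      rw [mem_powerset] at ht
      rw [mem_filter, mem_powerset]
      exact ⟨insert_subset ha (ht.trans (erase_subset _ _)), mem_insert_self _ _⟩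
    · intro t ht
      rw [mem_filter, mem_powerset] at ht
      rw [mem_powerset]
      exact erase_subset_erase _ ht.1
    · intro t ht
      rw [mem_powerset] at ht
      exact erase_insert (fun h' => by simpa using ht h')
    · intro t ht
      rw [mem_filter] at ht
      exact insert_erase ht.2
    · intro t ht
      rw [mem_powerset] at ht
      have hat : a ∉ t := fun h' => by simpa using ht h'
      rw [prod_insert hat]
      have : s \ insert a t = s.erase a \ t := by
        ext x
        simp only [mem_sdiff, mem_insert, mem_erase]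
        tauto
      rw [this]
      ring
  rw [hbij, ← mul_sum, h, mul_one]

/-- union bound -/
theorem Ex_exists_mem_le {p : α → ℝ} (hp0 : ∀ a, 0 ≤ p a) (hp1 : ∀ a, p a ≤ 1) (s : Finset α)
    (q : α → Prop) [DecidablePred q] (r : Finset α → Prop) [DecidablePred r]
    (h : ∀ t ⊆ s, r t → ∃ a ∈ t, q a) :
    Ex p s (fun t => if r t then 1 else 0) ≤ ∑ a ∈ s.filter q, p a := by
  classical
  calc Ex p s (fun t => if r t then 1 else 0)
      ≤ Ex p s (fun t => ∑ a ∈ s.filter q, if a ∈ t then 1 else 0) := by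
        refine Ex_mono hp0 hp1 s fun t ht => ?_
        by_cases hr : r t
        · obtain ⟨a, hat, hqa⟩ := h t ht hr
          rw [if_pos hr]
          have hmem : a ∈ s.filter q := mem_filter.2 ⟨ht hat, hqa⟩
          calc (1 : ℝ) = if a ∈ t then 1 else 0 := by rw [if_pos hat]
            _ ≤ _ := single_le_sum (f := fun a => if a ∈ t then (1 : ℝ) else 0)
                  (fun i _ => by split_ifs <;> norm_num) hmem
        · rw [if_neg hr]
          exact sum_nonneg fun i _ => by split_ifs <;> norm_num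
    _ = ∑ a ∈ s.filter q, Ex p s (fun t => if a ∈ t then 1 else 0) := Ex_sum p s _ _
    _ = ∑ a ∈ s.filter q, p a := sum_congr rfl fun a ha => Ex_mem p s (mem_filter.1 ha).1

/-- If the expectation is larger than `c`, some realisation of positive weight has value `> c`. -/
theorem exists_of_lt_Ex {p : α → ℝ} (hp0 : ∀ a, 0 ≤ p a) (hp1 : ∀ a, p a ≤ 1) (s : Finset α)
    {f : Finset α → ℝ} {c : ℝ} (h : c < Ex p s f) :
    ∃ t ⊆ s, (∀ a ∈ t, 0 < p a) ∧ c < f t := by
  classical
  by_contra hcon
  push Not at hcon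
  have : Ex p s f ≤ Ex p s (fun _ => c) := by
    unfold Ex
    refine sum_le_sum fun t ht => ?_
    rw [mem_powerset] at ht
    by_cases hpos : ∀ a ∈ t, 0 < p a
    · exact mul_le_mul_of_nonneg_left (hcon t ht hpos) (weight_nonneg hp0 hp1 s t)
    · push Not at hpos
      obtain ⟨a, hat, ha⟩ := hpos
      have h0 : p a = 0 := le_antisymm ha (hp0 a)
      have : ∏ a ∈ t, p a = 0 := prod_eq_zero hat h0
      rw [this]; simp
  rw [Ex_const] at this
  linarith

end Crest.Agent.R225.LB.ExLib
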