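import Crest.Agent.R225.LB.Defs

/-!
The grid of mesh `n^{-4}`: rounding and counting (S0348-E).
-/

set_option autoImplicit false

namespace Crest.Agent.R225.LB.Grid

open MeasureTheory Finset Filter Crest.Agent.R225.LB

/-- the mesh `n^{-4}` -/
noncomputable def mesh (n : ℕ) : ℝ := 1 / (n : ℝ) ^ 4

/-- grid point with index `k` -/
noncomputable def gp (n : ℕ) (k : Fin n → ℤ) : EE n := WithLp.toLp 2 (fun i => mesh n * (k i : ℝ))

/-- rounding index -/
noncomputable def rdi (n : ℕ) (x : EE n) : Fin n → ℤ := fun i => ⌊x i / mesh n⌋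

/-- rounding -/
noncomputable def rd (n : ℕ) (x : EE n) : EE n := gp n (rdi n x)

open scoped Classical in
/-- the grid points in the ball of radius `r` (for `r ≤ 2`) -/
noncomputable def GB (n : ℕ) (r : ℝ) : Finset (EE n) :=
  ((Fintype.piFinset (fun _ : Fin n => Finset.Icc (-(2 * (n : ℤ) ^ 4)) (2 * (n : ℤ) ^ 4))).image
    (gp n)).filter (fun z => ‖z‖ ≤ r)

theorem mesh_pos {n : ℕ} (hn : 0 < n) : 0 < mesh n := by unfold mesh; positivity

@[simp] theorem gp_apply (n : ℕ) (k : Fin n → ℤ) (i : Fin n) : gp n k i = mesh n * (k i : ℝ) := rfl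

theorem gp_injective {n : ℕ} (hn : 0 < n) : Function.Injective (gp n) := by
  intro k k' h
  funext i
  have h1 : gp n k i = gp n k' i := by rw [h]
  simp only [gp_apply] at h1
  have h2 := mul_left_cancel₀ (mesh_pos hn).ne' h1
  exact_mod_cast h2

theorem gp_sub (n : ℕ) (k k' : Fin n → ℤ) : gp n k - gp n k' = gp n (k - k') := by
  ext i
  simp [mul_sub]

theorem gp_neg (n : ℕ) (k : Fin n → ℤ) : -gp n k = gp n (-k) := by
  ext i
  simp

theorem abs_apply_le {n : ℕ} (x : EE n) (i : Fin n) : |x i| ≤ ‖x‖ := by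
  have := PiLp.norm_apply_le x i
  simpa using this

theorem norm_le_of_abs_le {n : ℕ} {x : EE n} {c : ℝ} (hc : 0 ≤ c) (h : ∀ i, |x i| ≤ c) :
    ‖x‖ ≤ c * √n := by
  rw [EuclideanSpace.norm_eq]
  have h1 : ∑ i, ‖x i‖ ^ 2 ≤ ∑ _i : Fin n, c ^ 2 := by
    refine sum_le_sum fun i _ => ?_
    rw [Real.norm_eq_abs]
    exact pow_le_pow_left₀ (abs_nonneg _) (h i) 2
  calc √(∑ i, ‖x i‖ ^ 2) ≤ √(∑ _i : Fin n, c ^ 2) := Real.sqrt_le_sqrt h1
    _ = c * √n := by
      rw [sum_const, card_univ, Fintype.card_fin, nsmul_eq_mul, mul_comm, Real.sqrt_mul (sq_nonneg c),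
        Real.sqrt_sq hc]

theorem mem_GB {n : ℕ} {r : ℝ} (hr : r ≤ 2) {z : EE n} :
    z ∈ GB n r ↔ (∃ k, gp n k = z) ∧ ‖z‖ ≤ r := by
  classical
  unfold GB
  rw [mem_filter, mem_image]
  constructor
  · rintro ⟨⟨k, _, hk⟩, hz⟩
    exact ⟨⟨k, hk⟩, hz⟩
  · rintro ⟨⟨k, hk⟩, hz⟩
    refine ⟨⟨k, ?_, hk⟩, hz⟩
    rw [Fintype.mem_piFinset]
    intro i
    have hn : 0 < n := Fin.pos i
    have h1 : |gp n k i| ≤ 2 := by rw [hk]; exact (abs_apply_le z i).trans (hz.trans hr)
    rw [gp_apply, abs_mul, abs_of_pos (mesh_pos hn)] at h1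
    have h2 : |(k i : ℝ)| ≤ 2 * (n : ℝ) ^ 4 := by
      have hn' : (0 : ℝ) < (n : ℝ) ^ 4 := by positivity
      unfold mesh at h1
      rw [div_mul_eq_mul_div, one_mul, div_le_iff₀ hn'] at h1
      exact h1
    have h3 : |k i| ≤ 2 * (n : ℤ) ^ 4 := by exact_mod_cast h2
    rw [mem_Icc]
    exact abs_le.1 h3

theorem rdi_spec {n : ℕ} (hn : 0 < n) (x : EE n) (i : Fin n) :
    mesh n * (rdi n x i : ℝ) ≤ x i ∧ x i < mesh n * (rdi n x i : ℝ) + mesh n := by
  have hm := mesh_pos hn
  unfold rdi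
  have h1 := Int.floor_le (x i / mesh n)
  have h2 := Int.lt_floor_add_one (x i / mesh n)
  constructor
  · calc mesh n * (⌊x i / mesh n⌋ : ℝ) ≤ mesh n * (x i / mesh n) :=
          mul_le_mul_of_nonneg_left h1 hm.le
      _ = x i := by field_simp
  · calc x i = mesh n * (x i / mesh n) := by field_simp
      _ < mesh n * ((⌊x i / mesh n⌋ : ℝ) + 1) := mul_lt_mul_of_pos_left h2 hm
      _ = _ := by ring

theorem norm_sub_rd_le {n : ℕ} (hn : 0 < n) (x : EE n) : ‖x - rd n x‖ ≤ mesh n * √n := by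
  refine norm_le_of_abs_le (mesh_pos hn).le fun i => ?_
  have := rdi_spec hn x i
  have h : (x - rd n x) i = x i - mesh n * (rdi n x i : ℝ) := rfl
  rw [h, abs_le]
  constructor <;> linarith [mesh_pos hn]

/-- cell of the grid point with index `k` -/
def cell (n : ℕ) (k : Fin n → ℤ) : Set (EE n) := {x | rdi n x = k}

theorem cell_eq {n : ℕ} (hn : 0 < n) (k : Fin n → ℤ) :
    cell n k = {x : EE n | ∀ i, mesh n * (k i : ℝ) ≤ x i ∧ x i < mesh n * (k i : ℝ) + mesh n} := by
  have hm := mesh_pos hn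
  ext x
  simp only [cell, Set.mem_setOf_eq]
  constructor
  · rintro rfl i
    exact rdi_spec hn x i
  · intro h
    funext i
    unfold rdi
    rw [Int.floor_eq_iff]
    obtain ⟨h1, h2⟩ := h i
    constructor
    · rw [le_div_iff₀ hm]; linarith
    · rw [div_lt_iff₀ hm]; linarith

theorem volume_cell {n : ℕ} (hn : 0 < n) (k : Fin n → ℤ) :
    volume (cell n k) = ENNReal.ofReal (mesh n ^ n) := by
  have hm := mesh_pos hn
  have h1 : cell n k = (@WithLp.ofLp 2 (Fin n → ℝ)) ⁻¹'
      (Set.univ.pi fun i => Set.Ico (mesh n * (k i : ℝ)) (mesh n * (k i : ℝ) + mesh n)) := by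
    rw [cell_eq hn]
    ext x
    simp only [Set.mem_setOf_eq, Set.mem_preimage, Set.mem_pi, Set.mem_univ, true_imp_iff,
      Set.mem_Ico]
  rw [h1, (PiLp.volume_preserving_ofLp (Fin n)).measure_preimage
    (MeasurableSet.univ_pi fun i => measurableSet_Ico).nullMeasurableSet, volume_pi_pi]
  simp only [Real.volume_Ico, add_sub_cancel_left, prod_const, card_univ, Fintype.card_fin]
  rw [ENNReal.ofReal_pow hm.le]

theorem measurableSet_cell {n : ℕ} (hn : 0 < n) (k : Fin n → ℤ) : MeasurableSet (cell n k) := by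
  rw [cell_eq hn]
  have : {x : EE n | ∀ i, mesh n * (k i : ℝ) ≤ x i ∧ x i < mesh n * (k i : ℝ) + mesh n} =
      (@WithLp.ofLp 2 (Fin n → ℝ)) ⁻¹'
      (Set.univ.pi fun i => Set.Ico (mesh n * (k i : ℝ)) (mesh n * (k i : ℝ) + mesh n)) := by
    ext x
    simp only [Set.mem_setOf_eq, Set.mem_preimage, Set.mem_pi, Set.mem_univ, true_imp_iff,
      Set.mem_Ico]
  rw [this]
  exact (PiLp.volume_preserving_ofLp (Fin n)).measurable
    (MeasurableSet.univ_pi fun i => measurableSet_Ico)

/-- the union of cells of a finite set of indices -/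
theorem volume_cells {n : ℕ} (hn : 0 < n) (S : Finset (Fin n → ℤ)) :
    volume (⋃ k ∈ S, cell n k) = ENNReal.ofReal (S.card * mesh n ^ n) := by
  rw [measure_biUnion_finset]
  · simp only [volume_cell hn, sum_const, nsmul_eq_mul]
    rw [ENNReal.ofReal_mul (by positivity), ENNReal.ofReal_natCast]
  · intro k _ k' _ hkk'
    refine Set.disjoint_left.2 fun x hx hx' => hkk' ?_
    rw [← (show rdi n x = k from hx), (show rdi n x = k' from hx')]
  · exact fun k _ => measurableSet_cell hn k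

/-- volume of the unit ball -/
noncomputable def VB (n : ℕ) : ℝ := volume.real (Metric.closedBall (0 : EE n) 1)

theorem volume_closedBall {n : ℕ} (x : EE n) {r : ℝ} (hr : 0 ≤ r) :
    volume (Metric.closedBall x r) = ENNReal.ofReal (r ^ n * VB n) := by
  rw [Measure.addHaar_closedBall' _ x hr, ENNReal.ofReal_mul (by positivity), VB,
    ofReal_measureReal (measure_closedBall_lt_top.ne), finrank_euclideanSpace_fin]

theorem volume_real_closedBall {n : ℕ} (x : EE n) {r : ℝ} (hr : 0 ≤ r) :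
    volume.real (Metric.closedBall x r) = r ^ n * VB n := by
  rw [measureReal_def, volume_closedBall x hr, ENNReal.toReal_ofReal]
  exact mul_nonneg (by positivity) measureReal_nonneg

theorem VB_pos (n : ℕ) : 0 < VB n := by
  unfold VB
  rw [measureReal_def, ENNReal.toReal_pos_iff]
  exact ⟨Metric.measure_closedBall_pos _ _ one_pos, measure_closedBall_lt_top⟩

theorem card_mul_le {n : ℕ} (hn : 0 < n) (S : Finset (EE n)) (hS : ∀ z ∈ S, ∃ k, gp n k = z)
    (p : EE n) {r : ℝ} (hr : 0 ≤ r) (hp : ∀ z ∈ S, dist z p ≤ r) :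
    (S.card : ℝ) * mesh n ^ n ≤ (r + mesh n * √n) ^ n * VB n := by
  classical
  have hm := mesh_pos hn
  set T : Finset (Fin n → ℤ) := S.preimage (gp n) (gp_injective hn).injOn with hT
  have hcard : T.card = S.card := by
    have : T.image (gp n) = S := by
      rw [hT, image_preimage]
      refine filter_true_of_mem fun z hz => ?_
      obtain ⟨k, hk⟩ := hS z hz
      exact ⟨k, hk⟩
    rw [← this, card_image_of_injective _ (gp_injective hn)]
  have h1 : (⋃ k ∈ T, cell n k) ⊆ Metric.closedBall p (r + mesh n * √n) := by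
    intro x hx
    simp only [Set.mem_iUnion, exists_prop] at hx
    obtain ⟨k, hk, hxk⟩ := hx
    have hxk' : rd n x = gp n k := by unfold rd; rw [show rdi n x = k from hxk]
    have hk' : gp n k ∈ S := by rw [hT, mem_preimage] at hk; exact hk
    rw [Metric.mem_closedBall]
    calc dist x p ≤ dist x (gp n k) + dist (gp n k) p := dist_triangle _ _ _
      _ ≤ mesh n * √n + r := by
        refine add_le_add ?_ (hp _ hk')
        rw [← hxk', dist_eq_norm]
        exact norm_sub_rd_le hn x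
      _ = _ := by ring
  have h2 := measure_mono (μ := volume) h1
  rw [volume_cells hn, volume_closedBall _ (by positivity), hcard,
    ENNReal.ofReal_le_ofReal_iff (mul_nonneg (by positivity) (VB_pos n).le)] at h2
  exact h2

theorem le_card_mul {n : ℕ} (hn : 0 < n) {r : ℝ} (hr2 : r ≤ 2) (hr : mesh n * √n ≤ r) :
    (r - mesh n * √n) ^ n * VB n ≤ ((GB n r).card : ℝ) * mesh n ^ n := by
  classical
  have hm := mesh_pos hn
  set T : Finset (Fin n → ℤ) := (GB n r).preimage (gp n) (gp_injective hn).injOn with hT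
  have hcard : T.card = (GB n r).card := by
    have : T.image (gp n) = GB n r := by
      rw [hT, image_preimage]
      refine filter_true_of_mem fun z hz => ?_
      obtain ⟨⟨k, hk⟩, _⟩ := (mem_GB hr2).1 hz
      exact ⟨k, hk⟩
    rw [← this, card_image_of_injective _ (gp_injective hn)]
  have h1 : Metric.closedBall (0 : EE n) (r - mesh n * √n) ⊆ ⋃ k ∈ T, cell n k := by
    intro x hx
    rw [Metric.mem_closedBall, dist_zero_right] at hx
    simp only [Set.mem_iUnion, exists_prop]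
    refine ⟨rdi n x, ?_, rfl⟩
    rw [hT, mem_preimage, mem_GB hr2]
    refine ⟨⟨_, rfl⟩, ?_⟩
    have h := norm_sub_rd_le hn x
    have h3 : ‖gp n (rdi n x)‖ ≤ ‖x‖ + ‖x - rd n x‖ := by
      have : gp n (rdi n x) = x - (x - rd n x) := by unfold rd; abel
      calc ‖gp n (rdi n x)‖ = ‖x - (x - rd n x)‖ := by rw [← this]
        _ ≤ _ := norm_sub_le _ _
    linarith
  have h2 := measure_mono (μ := volume) h1
  rw [volume_cells hn, volume_closedBall _ (by linarith), hcard,
    ENNReal.ofReal_le_ofReal_iff (by positivity)] at h2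
  exact h2

theorem card_GB_le (n : ℕ) (r : ℝ) : (GB n r).card ≤ (4 * n ^ 4 + 1) ^ n := by
  classical
  unfold GB
  refine (card_filter_le _ _).trans (card_image_le.trans ?_)
  rw [Fintype.card_piFinset]
  simp only [Int.card_Icc, prod_const, card_univ, Fintype.card_fin]
  refine Nat.pow_le_pow_left ?_ n
  have : (2 * (n : ℤ) ^ 4 + 1 - -(2 * (n : ℤ) ^ 4)) = ((4 * n ^ 4 + 1 : ℕ) : ℤ) := by
    push_cast; ring
  rw [this, Int.toNat_natCast]

end Crest.Agent.R225.LB.Grid
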