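import Crest.Agent.R225.LB.Gauss1
import Crest.Agent.R225.LB.ExLib
import Crest.Agent.R225.LB.Grid

/-!
The random body `K_t` (S0348-E).
-/

set_option autoImplicit false

namespace Crest.Agent.R225.LB.Body

open MeasureTheory ProbabilityTheory Finset Filter Crest.Agent.R225.LB
open Crest.Agent.R225.LB.ExLib Crest.Agent.R225.LB.Grid

/-- the set of differences -/
noncomputable def GG (n : ℕ) : Finset (EE n) := GB n (1 + eta n)

open scoped Classical in
/-- representative of a pattern -/
noncomputable def rep (n : ℕ) (v : Finset (EE n)) : EE n :=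
  if h : ∃ u ∈ box n, pat n (GG n) u = v then h.choose else 0

/-- the body -/
def KB (n : ℕ) (t : Finset (Finset (EE n))) : Set (EE n) :=
  {x | ‖x‖ ≤ 1 ∧ ∀ v ∈ t, v.Nonempty → |inner ℝ (rep n v) x| ≤ s0 n - 1 / (2 * s0 n)}

theorem rep_spec {n : ℕ} {v : Finset (EE n)} (h : ∃ u ∈ box n, pat n (GG n) u = v) :
    rep n v ∈ box n ∧ pat n (GG n) (rep n v) = v := by
  classical
  unfold rep
  rw [dif_pos h]
  exact h.choose_spec

theorem zero_mem_box (n : ℕ) : (0 : EE n) ∈ box n := by
  intro i; simp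

theorem rep_mem_box (n : ℕ) (v : Finset (EE n)) : rep n v ∈ box n := by
  classical
  by_cases h : ∃ u ∈ box n, pat n (GG n) u = v
  · exact (rep_spec h).1
  · unfold rep; rw [dif_neg h]; exact zero_mem_box n

theorem norm_le_of_mem_box {n : ℕ} {u : EE n} (hu : u ∈ box n) : ‖u‖ ≤ n * √n :=
  norm_le_of_abs_le (Nat.cast_nonneg n) hu

theorem pp_nonneg (n : ℕ) (G : Finset (EE n)) (v : Finset (EE n)) : 0 ≤ pp n G v := by
  unfold pp
  have := nu_nonneg n {u | pat n G u = v}
  have h2 : Real.exp (-nu n {u | pat n G u = v}) ≤ 1 := by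
    rw [Real.exp_le_one_iff]; linarith
  linarith

theorem pp_le_one (n : ℕ) (G : Finset (EE n)) (v : Finset (EE n)) : pp n G v ≤ 1 := by
  unfold pp
  have := Real.exp_pos (-nu n {u | pat n G u = v})
  linarith

theorem pp_le (n : ℕ) (G : Finset (EE n)) (v : Finset (EE n)) :
    pp n G v ≤ nu n {u | pat n G u = v} := by
  unfold pp
  have := Real.add_one_le_exp (-nu n {u | pat n G u = v})
  linarith

theorem exists_of_pp_pos {n : ℕ} {G : Finset (EE n)} {v : Finset (EE n)} (h : 0 < pp n G v) :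
    ∃ u ∈ box n, pat n G u = v := by
  by_contra hcon
  push Not at hcon
  have h0 : {u | pat n G u = v} ∩ box n = ∅ := by
    ext u
    simp only [Set.mem_inter_iff, Set.mem_setOf_eq, Set.mem_empty_iff_false, iff_false, not_and]
    exact fun hu hb => hcon u hb hu
  have h1 : nu n {u | pat n G u = v} = 0 := by
    unfold nu
    rw [h0]; simp
  have := pp_le n G v
  linarith

theorem mesh_mul_bound {n : ℕ} (hn : 0 < n) : (n * √n) * (mesh n * √n) = 1 / (n : ℝ) ^ 2 := by
  have h : √(n : ℝ) * √n = n := Real.mul_self_sqrt (Nat.cast_nonneg n)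
  have hn' : (n : ℝ) ≠ 0 := by positivity
  unfold mesh
  calc (n * √n) * (1 / (n : ℝ) ^ 4 * √n) = (n : ℝ) * (√n * √n) * (1 / (n : ℝ) ^ 4) := by ring
    _ = 1 / (n : ℝ) ^ 2 := by rw [h]; field_simp

theorem mesh_sqrt_le {n : ℕ} (hn : 0 < n) : mesh n * √n ≤ eta n := by
  have hn' : (1 : ℝ) ≤ n := by exact_mod_cast hn
  have h : √(n : ℝ) ≤ n := by
    rw [Real.sqrt_le_left (by linarith)]
    nlinarith
  unfold mesh eta
  calc 1 / (n : ℝ) ^ 4 * √n ≤ 1 / (n : ℝ) ^ 4 * n := by
        refine mul_le_mul_of_nonneg_left h (by positivity)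
    _ = 1 / (n : ℝ) ^ 3 := by field_simp

theorem eta_pos {n : ℕ} (hn : 0 < n) : 0 < eta n := by unfold eta; positivity

theorem eta_le_one {n : ℕ} (hn : 0 < n) : eta n ≤ 1 := by
  have hn' : (1 : ℝ) ≤ n := by exact_mod_cast hn
  unfold eta
  rw [div_le_one (by positivity)]
  exact one_le_pow₀ hn'

theorem mem_GG {n : ℕ} (hn : 0 < n) {z : EE n} :
    z ∈ GG n ↔ (∃ k, gp n k = z) ∧ ‖z‖ ≤ 1 + eta n :=
  mem_GB (by linarith [eta_le_one hn])

/-- `1/n^2 < 1/(4 s0)` for `n ≥ 75`. -/
theorem small_lt {n : ℕ} (hn : 75 ≤ n) : 1 / (n : ℝ) ^ 2 < 1 / (4 * s0 n) := by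
  have hn' : (75 : ℝ) ≤ n := by exact_mod_cast hn
  have hs := s0_pos (n := n) (by omega)
  rw [div_lt_div_iff₀ (by positivity) (by positivity)]
  have h2 : √(n : ℝ) * √n = n := Real.mul_self_sqrt (Nat.cast_nonneg n)
  have h3 : (8 : ℝ) ≤ √n := by
    rw [show (8 : ℝ) = √64 by rw [show (64 : ℝ) = 8 ^ 2 by norm_num, Real.sqrt_sq (by norm_num)]]
    exact Real.sqrt_le_sqrt (by linarith)
  have h4 : (√(n : ℝ)) ^ 4 = (n : ℝ) ^ 2 := by
    calc (√(n : ℝ)) ^ 4 = (√(n : ℝ) * √n) ^ 2 := by ring
      _ = _ := by rw [h2]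
  have h6 : (640 : ℝ) < (√(n : ℝ)) ^ 3 := by
    have h7 : (√(n : ℝ)) ^ 3 = n * √n := by
      calc (√(n : ℝ)) ^ 3 = (√(n : ℝ) * √n) * √n := by ring
        _ = _ := by rw [h2]
    have h8 : (8.6 : ℝ) ≤ √n := by
      rw [show (8.6 : ℝ) = √(8.6 ^ 2) by rw [Real.sqrt_sq (by norm_num)]]
      exact Real.sqrt_le_sqrt (by norm_num; linarith)
    rw [h7]
    nlinarith
  unfold s0
  have h5 : (0 : ℝ) < √n := by linarith
  calc 1 * (4 * (160 * √(n : ℝ))) = 640 * √n := by ring
    _ < (√(n : ℝ)) ^ 3 * √n := mul_lt_mul_of_pos_right h6 h5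
    _ = (n : ℝ) ^ 2 * 1 := by rw [mul_one, ← h4]; ring
    _ = 1 * (n : ℝ) ^ 2 := by ring

/-- certificate of non membership -/
theorem not_mem_KB {n : ℕ} (hn : 75 ≤ n) {t : Finset (Finset (EE n))} {v : Finset (EE n)}
    (hv : v ∈ t) (hpos : 0 < pp n (GG n) v) {z x : EE n} (hz : z ∈ v)
    (hxz : ‖x - z‖ ≤ mesh n * √n) : x ∉ KB n t := by
  classical
  intro hx
  have hn0 : 0 < n := by omega
  obtain ⟨hbox, hpat⟩ := rep_spec (exists_of_pp_pos hpos)
  have hk : s0 n ≤ inner ℝ (rep n v) z := by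
    have : z ∈ pat n (GG n) (rep n v) := by rw [hpat]; exact hz
    unfold pat at this
    exact (mem_filter.1 this).2
  have h1 := hx.2 v hv ⟨z, hz⟩
  have h2 : inner ℝ (rep n v) x = inner ℝ (rep n v) z + inner ℝ (rep n v) (x - z) := by
    rw [inner_sub_right]; ring
  have h3 : |inner ℝ (rep n v) (x - z)| ≤ 1 / (n : ℝ) ^ 2 := by
    calc |inner ℝ (rep n v) (x - z)| ≤ ‖rep n v‖ * ‖x - z‖ := abs_real_inner_le_norm _ _
      _ ≤ (n * √n) * (mesh n * √n) :=
        mul_le_mul (norm_le_of_mem_box hbox) hxz (norm_nonneg _) (by positivity)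
      _ = _ := mesh_mul_bound hn0
  have h4 := small_lt hn
  have hs := s0_pos hn0
  have h5 : 1 / (4 * s0 n) < 1 / (2 * s0 n) := by
    apply one_div_lt_one_div_of_lt <;> linarith
  have h6 := (abs_le.1 h3).1
  have h7 := (abs_le.1 h1).2
  linarith

/-- If `x` is not in the body, some pattern of `t` contains `z` or `-z`, for `z` near `(1+θ) x`. -/
theorem exists_mem_of_not_mem {n : ℕ} (hn : 75 ≤ n) {t : Finset (Finset (EE n))} {x z : EE n}
    (hx1 : ‖x‖ ≤ 1) (hzG : z ∈ GG n) (hz : ‖(1 + 1 / s0 n ^ 2) • x - z‖ ≤ mesh n * √n)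
    (hx : x ∉ KB n t) : ∃ v ∈ t, z ∈ v ∨ -z ∈ v := by
  classical
  have hn0 : 0 < n := by omega
  have hs := s0_pos hn0
  have hs1 := one_le_s0 hn0
  have hx' : ∃ v ∈ t, v.Nonempty ∧ s0 n - 1 / (2 * s0 n) < |inner ℝ (rep n v) x| := by
    by_contra hcon
    push Not at hcon
    exact hx ⟨hx1, fun v hv hv' => hcon v hv hv'⟩
  obtain ⟨v, hv, hvne, hlt⟩ := hx'
  refine ⟨v, hv, ?_⟩
  have hreal : ∃ u ∈ box n, pat n (GG n) u = v := by
    by_contra hcon
    have : rep n v = 0 := by unfold rep; rw [dif_neg hcon]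
    rw [this, inner_zero_left, abs_zero] at hlt
    have : 1 / (2 * s0 n) ≤ 1 := by rw [div_le_one (by positivity)]; linarith
    linarith
  obtain ⟨hbox, hpat⟩ := rep_spec hreal
  have hzneg : -z ∈ GG n := by
    rw [mem_GG hn0] at hzG ⊢
    obtain ⟨⟨k, hk⟩, hz1⟩ := hzG
    exact ⟨⟨-k, by rw [← gp_neg, hk]⟩, by rwa [norm_neg]⟩
  have h3 : |inner ℝ (rep n v) ((1 + 1 / s0 n ^ 2) • x - z)| ≤ 1 / (n : ℝ) ^ 2 := by
    calc |inner ℝ (rep n v) ((1 + 1 / s0 n ^ 2) • x - z)|
        ≤ ‖rep n v‖ * ‖(1 + 1 / s0 n ^ 2) • x - z‖ := abs_real_inner_le_norm _ _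
      _ ≤ (n * √n) * (mesh n * √n) :=
        mul_le_mul (norm_le_of_mem_box hbox) hz (norm_nonneg _) (by positivity)
      _ = _ := mesh_mul_bound hn0
  rw [inner_sub_right, inner_smul_right] at h3
  have h4 := small_lt hn
  have hs2 : s0 n ^ 2 = 25600 * n := s0_sq n
  have hkey : s0 n + 1 / (4 * s0 n) ≤ (1 + 1 / s0 n ^ 2) * (s0 n - 1 / (2 * s0 n)) := by
    have h8 : (1 + 1 / s0 n ^ 2) * (s0 n - 1 / (2 * s0 n)) - (s0 n + 1 / (4 * s0 n)) =
        (s0 n ^ 2 - 2) / (4 * s0 n ^ 3) := by
      field_simp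
      ring
    have h9 : 0 ≤ (s0 n ^ 2 - 2) / (4 * s0 n ^ 3) := by
      refine div_nonneg ?_ (by positivity)
      have : (75 : ℝ) ≤ n := by exact_mod_cast hn
      linarith
    linarith
  have hpos : 0 < 1 + 1 / s0 n ^ 2 := by positivity
  rcases lt_abs.1 hlt with h | h
  · left
    have h10 : s0 n ≤ inner ℝ (rep n v) z := by
      have h11 := mul_lt_mul_of_pos_left h hpos
      have h12 := (abs_le.1 h3).2
      linarith
    rw [← hpat]
    unfold pat
    exact mem_filter.2 ⟨hzG, h10⟩
  · right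
    have h10 : s0 n ≤ inner ℝ (rep n v) (-z) := by
      have h11 := mul_lt_mul_of_pos_left h hpos
      have h12 := (abs_le.1 h3).1
      rw [inner_neg_right]
      linarith
    rw [← hpat]
    unfold pat
    exact mem_filter.2 ⟨hzneg, h10⟩

theorem measurableSet_kill (n : ℕ) (z : EE n) : MeasurableSet (kill n z) := by
  unfold kill
  exact (isClosed_le continuous_const (continuous_id.inner continuous_const)).measurableSet

theorem measurableSet_box (n : ℕ) : MeasurableSet (box n) := by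
  unfold box
  simp only [Set.setOf_forall]
  refine MeasurableSet.iInter fun i => ?_
  refine (isClosed_le ?_ continuous_const).measurableSet
  exact (continuous_abs.comp (PiLp.continuous_apply 2 _ i))

theorem measurableSet_pat (n : ℕ) (G : Finset (EE n)) (v : Finset (EE n)) :
    MeasurableSet {u | pat n G u = v} := by
  classical
  have : {u | pat n G u = v} = if v ⊆ G then
      (⋂ z ∈ G, (if z ∈ v then kill n z else (kill n z)ᶜ)) else ∅ := by
    split_ifs with hvG
    · ext u
      simp only [Set.mem_setOf_eq, Set.mem_iInter]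
      constructor
      · intro h z hz
        split_ifs with hzv
        · rw [← h] at hzv
          exact (mem_filter.1 hzv).2
        · intro hk
          exact hzv (by rw [← h]; exact mem_filter.2 ⟨hz, hk⟩)
      · intro h
        ext z
        unfold pat
        rw [mem_filter]
        constructor
        · rintro ⟨hz, hk⟩
          by_contra hzv
          have := h z hz
          rw [if_neg hzv] at this
          exact this hk
        · intro hzv
          have := h z (hvG hzv)
          rw [if_pos hzv] at this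
          exact ⟨hvG hzv, this⟩
    · ext u
      simp only [Set.mem_setOf_eq, Set.mem_empty_iff_false, iff_false]
      rintro rfl
      exact hvG (filter_subset _ _)
  rw [this]
  split_ifs
  · refine Finset.measurableSet_biInter _ fun z _ => ?_
    split_ifs
    · exact measurableSet_kill n z
    · exact (measurableSet_kill n z).compl
  · exact MeasurableSet.empty

open scoped Classical in
/-- total intensity of the patterns containing `z` -/
theorem sum_pp_le (n : ℕ) (G : Finset (EE n)) (z : EE n) :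
    ∑ v ∈ G.powerset.filter (fun v => z ∈ v), pp n G v ≤ nu n (kill n z) := by
  calc ∑ v ∈ G.powerset.filter (fun v => z ∈ v), pp n G v
      ≤ ∑ v ∈ G.powerset.filter (fun v => z ∈ v), nu n {u | pat n G u = v} :=
        sum_le_sum fun v _ => pp_le n G v
    _ = (∑ v ∈ G.powerset.filter (fun v => z ∈ v),
          (stdGaussian (EE n)).real ({u | pat n G u = v} ∩ box n)) / Q (s0 n) := by
        rw [sum_div]; rfl
    _ = (stdGaussian (EE n)).real (⋃ v ∈ G.powerset.filter (fun v => z ∈ v),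
          {u | pat n G u = v} ∩ box n) / Q (s0 n) := by
        congr 1
        rw [measureReal_biUnion_finset]
        · intro v _ v' _ hvv'
          refine Set.disjoint_left.2 fun u hu hu' => hvv' ?_
          rw [← (show pat n G u = v from hu.1), (show pat n G u = v' from hu'.1)]
        · exact fun v _ => (measurableSet_pat n G v).inter (measurableSet_box n)
    _ ≤ nu n (kill n z) := by
        unfold nu
        refine div_le_div_of_nonneg_right ?_ (Q_pos _).le
        refine measureReal_mono ?_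
        intro u hu
        simp only [Set.mem_iUnion, exists_prop] at hu
        obtain ⟨v, hv, hu1, hu2⟩ := hu
        refine ⟨?_, hu2⟩
        have h1 : z ∈ v := (mem_filter.1 hv).2
        rw [← (show pat n G u = v from hu1)] at h1
        exact (mem_filter.1 h1).2

end Crest.Agent.R225.LB.Body
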