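import Crest.Agent.R225.LB.Body

/-!
Convex geometry and volume of the random body `K_t` (S0348-E).
-/

set_option autoImplicit false

namespace Crest.Agent.R225.LB.Body

open MeasureTheory ProbabilityTheory Finset Filter Crest.Agent.R225.LB
open Crest.Agent.R225.LB.ExLib Crest.Agent.R225.LB.Grid

theorem isClosed_KB (n : ℕ) (t : Finset (Finset (EE n))) : IsClosed (KB n t) := by
  have : KB n t = {x | ‖x‖ ≤ 1} ∩ ⋂ v ∈ t, ⋂ (_ : v.Nonempty),
      {x | |inner ℝ (rep n v) x| ≤ s0 n - 1 / (2 * s0 n)} := by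
    ext x
    simp only [KB, Set.mem_setOf_eq, Set.mem_inter_iff, Set.mem_iInter]
  rw [this]
  refine (isClosed_le continuous_norm continuous_const).inter ?_
  refine isClosed_iInter fun v => isClosed_iInter fun _ => isClosed_iInter fun _ => ?_
  exact isClosed_le (continuous_abs.comp (continuous_const.inner continuous_id)) continuous_const

theorem KB_subset_ball (n : ℕ) (t : Finset (Finset (EE n))) :
    KB n t ⊆ Metric.closedBall 0 1 := by
  intro x hx
  rw [Metric.mem_closedBall, dist_zero_right]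
  exact hx.1

theorem isCompact_KB (n : ℕ) (t : Finset (Finset (EE n))) : IsCompact (KB n t) :=
  (isCompact_closedBall (0 : EE n) 1).of_isClosed_subset (isClosed_KB n t) (KB_subset_ball n t)

theorem convex_KB (n : ℕ) (t : Finset (Finset (EE n))) : Convex ℝ (KB n t) := by
  intro x hx y hy a b ha hb hab
  refine ⟨?_, fun v hv hne => ?_⟩
  · calc ‖a • x + b • y‖ ≤ ‖a • x‖ + ‖b • y‖ := norm_add_le _ _
      _ = a * ‖x‖ + b * ‖y‖ := by
        rw [norm_smul, norm_smul, Real.norm_of_nonneg ha, Real.norm_of_nonneg hb]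
      _ ≤ a * 1 + b * 1 := add_le_add (mul_le_mul_of_nonneg_left hx.1 ha)
        (mul_le_mul_of_nonneg_left hy.1 hb)
      _ = 1 := by linarith
  · rw [inner_add_right, inner_smul_right, inner_smul_right]
    have h1 := hx.2 v hv hne
    have h2 := hy.2 v hv hne
    rw [abs_le] at h1 h2 ⊢
    constructor
    · nlinarith [mul_le_mul_of_nonneg_left h1.1 ha, mul_le_mul_of_nonneg_left h2.1 hb]
    · nlinarith [mul_le_mul_of_nonneg_left h1.2 ha, mul_le_mul_of_nonneg_left h2.2 hb]

theorem neg_mem_KB {n : ℕ} {t : Finset (Finset (EE n))} {x : EE n} (hx : x ∈ KB n t) :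
    -x ∈ KB n t := by
  refine ⟨by rw [norm_neg]; exact hx.1, fun v hv hne => ?_⟩
  rw [inner_neg_right, abs_neg]
  exact hx.2 v hv hne

theorem ball_subset_KB {n : ℕ} (hn : 75 ≤ n) (t : Finset (Finset (EE n))) :
    Metric.ball (0 : EE n) (1 / (n : ℝ) ^ 2) ⊆ KB n t := by
  have hn0 : 0 < n := by omega
  have hn' : (75 : ℝ) ≤ n := by exact_mod_cast hn
  intro x hx
  rw [Metric.mem_ball, dist_zero_right] at hx
  have hle : 1 / (n : ℝ) ^ 2 ≤ 1 := by
    rw [div_le_one (by positivity)]; nlinarith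
  refine ⟨by linarith, fun v _ _ => ?_⟩
  have h2 : √(n : ℝ) * √n = n := Real.mul_self_sqrt (Nat.cast_nonneg n)
  have h1 : |inner ℝ (rep n v) x| ≤ 1 := by
    calc |inner ℝ (rep n v) x| ≤ ‖rep n v‖ * ‖x‖ := abs_real_inner_le_norm _ _
      _ ≤ (n * √n) * (1 / (n : ℝ) ^ 2) :=
        mul_le_mul (norm_le_of_mem_box (rep_mem_box n v)) hx.le (norm_nonneg _) (by positivity)
      _ ≤ (n * n) * (1 / (n : ℝ) ^ 2) := by
        refine mul_le_mul_of_nonneg_right ?_ (by positivity)
        refine mul_le_mul_of_nonneg_left ?_ (by positivity)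
        rw [Real.sqrt_le_left (by linarith)]
        nlinarith
      _ = 1 := by field_simp
  have hs : 160 ≤ s0 n := by
    unfold s0
    have : (1 : ℝ) ≤ √n := by
      rw [Real.one_le_sqrt]; linarith
    linarith
  have h3 : 1 / (2 * s0 n) ≤ 1 := by
    rw [div_le_one (by linarith)]; linarith
  linarith

theorem interior_KB_nonempty {n : ℕ} (hn : 75 ≤ n) (t : Finset (Finset (EE n))) :
    (interior (KB n t)).Nonempty := by
  have hn' : (75 : ℝ) ≤ n := by exact_mod_cast hn
  refine ⟨0, mem_interior.2 ⟨Metric.ball 0 (1 / (n : ℝ) ^ 2), ball_subset_KB hn t,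
    Metric.isOpen_ball, ?_⟩⟩
  exact Metric.mem_ball_self (by positivity)

open scoped Classical in
theorem prob_not_mem_le {n : ℕ} (hn : 75 ≤ n)
    (hB2 : ∀ z : EE n, ‖z‖ ≤ 1 - 1 / n → nu n {u | s0 n - 1 / s0 n ≤ inner ℝ u z} ≤ 1 / 8)
    {x : EE n} (hx : ‖x‖ ≤ 1 - 2 / n) :
    Ex (pp n (GG n)) (GG n).powerset (fun t => if x ∉ KB n t then 1 else 0) ≤ 1 / 4 := by
  have hn0 : 0 < n := by omega
  have hn' : (75 : ℝ) ≤ n := by exact_mod_cast hn
  have hs := s0_pos hn0
  have hs2 : s0 n ^ 2 = 25600 * n := s0_sq n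
  set z : EE n := rd n ((1 + 1 / s0 n ^ 2) • x) with hzdef
  have hzx : ‖(1 + 1 / s0 n ^ 2) • x - z‖ ≤ mesh n * √n := norm_sub_rd_le hn0 _
  have hznorm : ‖z‖ ≤ 1 - 1 / n := by
    have h1 : ‖z‖ ≤ ‖(1 + 1 / s0 n ^ 2) • x‖ + ‖(1 + 1 / s0 n ^ 2) • x - z‖ := by
      have : z = (1 + 1 / s0 n ^ 2) • x - ((1 + 1 / s0 n ^ 2) • x - z) := by abel
      calc ‖z‖ = ‖(1 + 1 / s0 n ^ 2) • x - ((1 + 1 / s0 n ^ 2) • x - z)‖ := by rw [← this]
        _ ≤ _ := norm_sub_le _ _
    rw [norm_smul, Real.norm_of_nonneg (by positivity)] at h1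
    have h2 := mesh_sqrt_le hn0
    have h3 : (1 + 1 / s0 n ^ 2) * ‖x‖ ≤ (1 + 1 / s0 n ^ 2) * (1 - 2 / n) :=
      mul_le_mul_of_nonneg_left hx (by positivity)
    have h4 : (1 + 1 / s0 n ^ 2) * (1 - 2 / n) ≤ 1 - 2 / n + 1 / (25600 * n) := by
      rw [hs2]
      have : (0 : ℝ) ≤ 1 / (25600 * n) * (2 / n) := by positivity
      nlinarith
    have h5 : eta n ≤ 1 / 4 * (1 / n) := by
      unfold eta
      have h10 : 1 / (n : ℝ) ^ 3 = 1 / (n : ℝ) ^ 2 * (1 / n) := by field_simp
      rw [h10]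
      refine mul_le_mul_of_nonneg_right ?_ (by positivity)
      exact one_div_le_one_div_of_le (by norm_num) (by nlinarith)
    have h6 : 1 / (25600 * (n : ℝ)) = 1 / 25600 * (1 / n) := by
      field_simp
    have h7 : 0 < 1 / (n : ℝ) := by positivity
    have h8 : 2 / (n : ℝ) = 2 * (1 / n) := by ring
    rw [h6, h8] at h4
    rw [h8] at h3
    linarith
  have hzG : z ∈ GG n := by
    rw [mem_GG hn0]
    refine ⟨⟨_, rfl⟩, hznorm.trans ?_⟩
    have := eta_pos hn0
    have : 0 < 1 / (n : ℝ) := by positivity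
    linarith
  have hle : ∀ w : EE n, ‖w‖ ≤ 1 - 1 / n → nu n (kill n w) ≤ 1 / 8 := by
    intro w hw
    refine (nu_mono ?_).trans (hB2 w hw)
    intro u hu
    have h1 : s0 n ≤ inner ℝ u w := hu
    have h2 : 0 < 1 / s0 n := by positivity
    show s0 n - 1 / s0 n ≤ inner ℝ u w
    linarith
  calc Ex (pp n (GG n)) (GG n).powerset (fun t => if x ∉ KB n t then 1 else 0)
      ≤ ∑ v ∈ (GG n).powerset.filter (fun v => z ∈ v ∨ -z ∈ v), pp n (GG n) v := by
        refine Ex_exists_mem_le (pp_nonneg n _) (pp_le_one n _) _ _ _ fun t _ hxt => ?_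
        refine exists_mem_of_not_mem hn ?_ hzG hzx hxt
        have : 0 < 2 / (n : ℝ) := by positivity
        linarith
    _ ≤ ∑ v ∈ (GG n).powerset.filter (fun v => z ∈ v), pp n (GG n) v +
        ∑ v ∈ (GG n).powerset.filter (fun v => -z ∈ v), pp n (GG n) v := by
        rw [filter_or, ← sum_union_inter]
        have : 0 ≤ ∑ v ∈ (GG n).powerset.filter (fun v => z ∈ v) ∩
            (GG n).powerset.filter (fun v => -z ∈ v), pp n (GG n) v :=
          sum_nonneg fun v _ => pp_nonneg n _ v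
        linarith
    _ ≤ 1 / 8 + 1 / 8 := by
        refine add_le_add ((sum_pp_le n _ z).trans (hle z hznorm))
          ((sum_pp_le n _ (-z)).trans (hle (-z) (by rwa [norm_neg])))
    _ = 1 / 4 := by norm_num

theorem KB_measurable (n : ℕ) (t : Finset (Finset (EE n))) : MeasurableSet (KB n t) :=
  (isClosed_KB n t).measurableSet

theorem volume_KB_lt_top (n : ℕ) (t : Finset (Finset (EE n))) : volume (KB n t) < ⊤ :=
  (isCompact_KB n t).measure_lt_top

/-- The expected volume is at least `VB/30`. -/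
theorem Ex_vol_ge {n : ℕ} (hn : 75 ≤ n)
    (hB2 : ∀ z : EE n, ‖z‖ ≤ 1 - 1 / n → nu n {u | s0 n - 1 / s0 n ≤ inner ℝ u z} ≤ 1 / 8)
    (h16 : (1 : ℝ) / 16 ≤ (1 - 2 / n) ^ n) :
    VB n / 30 ≤ Ex (pp n (GG n)) (GG n).powerset (fun t => volume.real (KB n t)) := by
  classical
  have hn0 : 0 < n := by omega
  have hn' : (75 : ℝ) ≤ n := by exact_mod_cast hn
  have hr0 : (0 : ℝ) ≤ 1 - 2 / n := by
    rw [sub_nonneg, div_le_one (by linarith)]; linarith
  set B : Set (EE n) := Metric.closedBall (0 : EE n) (1 - 2 / n) with hB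
  have hBm : MeasurableSet B := Metric.isClosed_closedBall.measurableSet
  have hBfin : volume B ≠ ⊤ := measure_closedBall_lt_top.ne
  have hvolB : volume.real B = (1 - 2 / (n : ℝ)) ^ n * VB n := volume_real_closedBall _ hr0
  -- pointwise
  have h1 : ∀ t, volume.real B - volume.real (B ∩ (KB n t)ᶜ) ≤ volume.real (KB n t) := by
    intro t
    have h2 : volume.real B = volume.real (B ∩ KB n t) + volume.real (B \ KB n t) :=
      (measureReal_inter_add_diff (KB_measurable n t) hBfin).symm
    have h3 : volume.real (B ∩ KB n t) ≤ volume.real (KB n t) :=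
      measureReal_mono Set.inter_subset_right (volume_KB_lt_top n t).ne
    rw [Set.diff_eq] at h2
    linarith
  have h4 : Ex (pp n (GG n)) (GG n).powerset (fun t => volume.real (B ∩ (KB n t)ᶜ)) ≤
      1 / 4 * volume.real B := by
    have h5 : ∀ t, volume.real (B ∩ (KB n t)ᶜ) = ∫ x in B, (if x ∉ KB n t then (1 : ℝ) else 0) := by
      intro t
      have h6 : (fun x : EE n => if x ∉ KB n t then (1 : ℝ) else 0) =
          (KB n t)ᶜ.indicator (fun _ => (1 : ℝ)) := by
        funext x
        simp only [Set.indicator, Set.mem_compl_iff]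
      rw [h6, setIntegral_indicator (KB_measurable n t).compl, setIntegral_const, smul_eq_mul,
        mul_one]
    have hint : ∀ t, IntegrableOn (fun x => if x ∉ KB n t then (1 : ℝ) else 0) B := by
      intro t
      have h6 : (fun x : EE n => if x ∉ KB n t then (1 : ℝ) else 0) =
          (KB n t)ᶜ.indicator (fun _ => (1 : ℝ)) := by
        funext x
        simp only [Set.indicator, Set.mem_compl_iff]
      rw [h6]
      exact (integrableOn_const hBfin).indicator (KB_measurable n t).compl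
    have h7 : Ex (pp n (GG n)) (GG n).powerset (fun t => volume.real (B ∩ (KB n t)ᶜ)) =
        ∫ x in B, Ex (pp n (GG n)) (GG n).powerset (fun t => if x ∉ KB n t then 1 else 0) := by
      unfold Ex
      rw [integral_finset_sum]
      · refine sum_congr rfl fun t _ => ?_
        rw [integral_const_mul]
        beta_reduce
        rw [h5 t]
      · intro t _
        exact (hint t).const_mul _
    rw [h7]
    calc ∫ x in B, Ex (pp n (GG n)) (GG n).powerset (fun t => if x ∉ KB n t then 1 else 0)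
        ≤ ∫ _x in B, (1 / 4 : ℝ) := by
          refine setIntegral_mono_on ?_ (integrableOn_const hBfin) hBm fun x hx => ?_
          · unfold Ex
            exact integrable_finset_sum _ fun t _ => (hint t).const_mul _
          · rw [hB, Metric.mem_closedBall, dist_zero_right] at hx
            exact prob_not_mem_le hn hB2 hx
      _ = 1 / 4 * volume.real B := by
          rw [setIntegral_const, smul_eq_mul, mul_comm]
  have h8 : volume.real B - 1 / 4 * volume.real B ≤
      Ex (pp n (GG n)) (GG n).powerset (fun t => volume.real (KB n t)) := by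
    calc volume.real B - 1 / 4 * volume.real B
        ≤ Ex (pp n (GG n)) (GG n).powerset (fun _ => volume.real B) -
          Ex (pp n (GG n)) (GG n).powerset (fun t => volume.real (B ∩ (KB n t)ᶜ)) := by
          rw [Ex_const]; linarith
      _ = Ex (pp n (GG n)) (GG n).powerset
            (fun t => volume.real B - volume.real (B ∩ (KB n t)ᶜ)) := (Ex_sub _ _ _ _).symm
      _ ≤ _ := Ex_mono (pp_nonneg n _) (pp_le_one n _) _ fun t _ => h1 t
  have hVB := VB_pos n
  have h9 : 1 / 16 * VB n ≤ (1 - 2 / (n : ℝ)) ^ n * VB n := mul_le_mul_of_nonneg_right h16 hVB.le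
  rw [hvolB] at h8
  linarith

end Crest.Agent.R225.LB.Body
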