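import Crest.Agent.R225.LB.Defs

/-!
Row 225, S0348, module C: the combinatorial cluster lemma.
-/

set_option autoImplicit false

namespace Crest.Agent.R225.LB

open Finset

theorem cluster {E : Type*} [PseudoMetricSpace E] [DecidableEq E] (I : Finset E) (ε : ℝ)
    (k : ℕ) (hk : 1 ≤ k) :
    ∃ C : Finset (Finset E), (∀ S ∈ C, S ⊆ I ∧ k ≤ S.card ∧ ∃ x ∈ S, ∀ x' ∈ S, dist x' x ≤ ε) ∧
      C.card * k ≤ I.card ∧
      ∀ x ∈ I \ C.biUnion id, ((I \ C.biUnion id).filter (fun x' => dist x' x ≤ ε)).card < k := by
  induction I using Finset.strongInduction with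
  | H I ih =>
    by_cases h : ∀ x ∈ I, (I.filter (fun x' => dist x' x ≤ ε)).card < k
    · refine ⟨∅, by simp, by simp, ?_⟩
      intro x hx
      simpa using h x (by simpa using hx)
    · push Not at h
      obtain ⟨x₀, hx₀, hc⟩ := h
      set S := I.filter (fun x' => dist x' x₀ ≤ ε) with hS
      have hSI : S ⊆ I := Finset.filter_subset _ _
      have hSne : S.Nonempty := Finset.card_pos.mp (by omega)
      have hε : 0 ≤ ε := by
        obtain ⟨y, hy⟩ := hSne
        have := (Finset.mem_filter.mp hy).2
        exact dist_nonneg.trans this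
      have hx₀S : x₀ ∈ S := by
        rw [hS, Finset.mem_filter]
        exact ⟨hx₀, by simpa using hε⟩
      have hss : I \ S ⊂ I := by
        refine Finset.sdiff_ssubset hSI hSne
      obtain ⟨C', h1, h2, h3⟩ := ih (I \ S) hss
      have hnot : S ∉ C' := by
        intro hmem
        have := (h1 S hmem).1 hx₀S
        simp [hx₀S] at this
      have hU : I \ (insert S C').biUnion id = (I \ S) \ C'.biUnion id := by
        ext y
        simp only [Finset.biUnion_insert, Finset.mem_sdiff, Finset.mem_union, id, not_or]
        tauto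
      refine ⟨insert S C', ?_, ?_, ?_⟩
      · intro T hT
        rcases Finset.mem_insert.mp hT with rfl | hT
        · exact ⟨hSI, hc, x₀, hx₀S, fun x' hx' => (Finset.mem_filter.mp hx').2⟩
        · obtain ⟨a, b, c⟩ := h1 T hT
          exact ⟨a.trans Finset.sdiff_subset, b, c⟩
      · rw [Finset.card_insert_of_notMem hnot]
        have h4 : (I \ S).card + S.card = I.card := Finset.card_sdiff_add_card_eq_card hSI
        calc (C'.card + 1) * k = C'.card * k + k := by ring
          _ ≤ (I \ S).card + S.card := by omega
          _ = I.card := h4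
      · rw [hU]
        exact h3

end Crest.Agent.R225.LB
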