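import Crest.Agent.R225.LB.Gauss1

/-!
Row 225, S0348: B1, B2, B3 (kill intensities).
-/

set_option autoImplicit false

namespace Crest.Agent.R225.LB

open MeasureTheory ProbabilityTheory Finset Filter Set

theorem eta_le {n : ℕ} (hn : 1 ≤ n) : eta n ≤ 1 / n := by
  unfold eta
  have h : (1:ℝ) ≤ n := by exact_mod_cast hn
  refine one_div_le_one_div_of_le (by positivity) ?_
  nlinarith [mul_le_mul h h zero_le_one (by positivity)]

theorem eta_pos {n : ℕ} (hn : 0 < n) : 0 < eta n := by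
  unfold eta; positivity

/-- B3 -/
theorem nu_kill_inter_le : ∃ C : ℝ, 0 < C ∧ ∀ᶠ n : ℕ in atTop, ∀ z z' : EE n,
    ‖z‖ ≤ 1 + eta n → ‖z'‖ ≤ 1 + eta n →
    nu n (kill n z ∩ kill n z') ≤
      C * Real.sqrt n * Real.exp (-((25600 / 9) * n * ‖z - z'‖ ^ 2)) := by
  refine ⟨160 * Real.exp 4, by positivity, ?_⟩
  filter_upwards [eventually_ge_atTop 1000] with n hn z z' hz hz'
  have hn0 : 0 < n := by omega
  have hnr : (1000 : ℝ) ≤ n := by exact_mod_cast hn
  have hs := s0_pos hn0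
  have hQ := Q_pos (s0 n)
  set m : EE n := (1 / 2 : ℝ) • (z + z') with hm
  have hsub : kill n z ∩ kill n z' ⊆ {u | s0 n ≤ inner ℝ u m} := by
    rintro u ⟨h1, h2⟩
    simp only [kill, mem_ofPred_eq] at h1 h2 ⊢
    rw [hm, inner_smul_right, inner_add_right]
    linarith
  have hη : eta n ≤ 1 / (1000 ^ 2 * n) := by
    unfold eta
    refine one_div_le_one_div_of_le (by positivity) ?_
    nlinarith [mul_le_mul hnr hnr (by norm_num) (by positivity)]
  have hη0 := eta_pos hn0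
  set d := ‖z - z'‖ with hd
  -- parallelogram
  have hpar : ‖m‖ ^ 2 ≤ (1 + eta n) ^ 2 - d ^ 2 / 4 := by
    have h1 : ‖z + z'‖ ^ 2 + ‖z - z'‖ ^ 2 = 2 * (‖z‖ ^ 2 + ‖z'‖ ^ 2) := by
      have := parallelogram_law_with_norm ℝ z z'
      nlinarith
    have h2 : ‖m‖ = ‖z + z'‖ / 2 := by
      rw [hm, norm_smul]; norm_num; ring
    rw [h2]
    have h3 : ‖z‖ ^ 2 ≤ (1 + eta n) ^ 2 := pow_le_pow_left₀ (norm_nonneg _) hz 2
    have h4 : ‖z'‖ ^ 2 ≤ (1 + eta n) ^ 2 := pow_le_pow_left₀ (norm_nonneg _) hz' 2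
    nlinarith
  have hnη : (n:ℝ) * eta n ≤ 1 / 1000 ^ 2 := by
    calc (n:ℝ) * eta n ≤ n * (1 / (1000 ^ 2 * n)) := mul_le_mul_of_nonneg_left hη (by positivity)
      _ = 1 / 1000 ^ 2 := by field_simp
  have hη1 : eta n ≤ 1 / 1000 ^ 3 := by nlinarith
  -- the exponent
  have hexp : Real.exp (-(s0 n / ‖m‖) ^ 2 / 2) ≤
      Real.exp (1 - 12800 * n - (25600 / 9) * n * d ^ 2) ∨ m = 0 := by
    rcases eq_or_ne m 0 with h0 | h0
    · exact Or.inr h0
    left
    have hm0 : 0 < ‖m‖ := norm_pos_iff.2 h0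
    refine Real.exp_le_exp.2 ?_
    rw [div_pow, s0_sq]
    have hm2 : 0 < ‖m‖ ^ 2 := by positivity
    -- 1/‖m‖² ≥ (1 - 2η')(1 + ...)
    have hkey : 1 - 1 / (12800 * n) + (2 / 9) * d ^ 2 ≤ 1 / ‖m‖ ^ 2 := by
      rw [le_div_iff₀ hm2]
      have hd4 : d ^ 2 / 4 ≤ (1 + eta n) ^ 2 := by nlinarith
      have hE : (1 + eta n) ^ 2 ≤ 1 + 3 * eta n := by nlinarith
      have hcoef : 0 ≤ 1 - 1 / (12800 * (n:ℝ)) + (2 / 9) * d ^ 2 := by
        have : 1 / (12800 * (n:ℝ)) ≤ 1 := by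
          rw [div_le_one (by positivity)]; nlinarith
        nlinarith [sq_nonneg d]
      refine (mul_le_mul_of_nonneg_left hpar hcoef).trans ?_
      have hx : 3 * eta n ≤ 1 / (12800 * n) * (1/2) := by
        have h5 : 3 * eta n ≤ 3 * (1 / (1000 ^ 2 * n)) := by linarith
        refine h5.trans ?_
        have : (0:ℝ) < n := by positivity
        have e1 : 3 * (1 / (1000 ^ 2 * (n:ℝ))) = (3 / 1000 ^ 2) * (1 / n) := by field_simp
        have e2 : 1 / (12800 * (n:ℝ)) * (1 / 2) = (1 / 25600) * (1 / n) := by field_simp; norm_num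
        rw [e1, e2]
        exact mul_le_mul_of_nonneg_right (by norm_num) (by positivity)
      set q := 1 / (12800 * (n:ℝ)) with hq
      have hq0 : 0 < q := by positivity
      have hq1 : q ≤ 1 / 100 := by
        rw [hq, div_le_div_iff₀ (by positivity) (by norm_num)]; nlinarith
      have hd2 : 0 ≤ d ^ 2 := sq_nonneg d
      have hd5 : d ^ 2 ≤ 5 := by nlinarith
      -- (1 - q + 2/9 D)(1 + q/2 - D/4) ≤ 1
      have : (1 + eta n) ^ 2 - d ^ 2 / 4 ≤ 1 + q / 2 - d ^ 2 / 4 := by linarith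
      refine (mul_le_mul_of_nonneg_left this hcoef).trans ?_
      nlinarith [mul_nonneg hq0.le hd2, mul_nonneg hd2 hd2]
    have : -(25600 * (n:ℝ) / ‖m‖ ^ 2) / 2 = -(12800 * n * (1 / ‖m‖ ^ 2)) := by ring
    rw [this]
    have hn12 : (0:ℝ) < 12800 * n := by positivity
    have h6 := mul_le_mul_of_nonneg_left hkey hn12.le
    have h7 : 12800 * (n:ℝ) * (1 - 1 / (12800 * n) + (2 / 9) * d ^ 2) =
        12800 * n - 1 + (25600 / 9) * n * d ^ 2 := by
      field_simp
      ring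
    rw [h7] at h6
    linarith
  have hgam : gam n {u | s0 n ≤ inner ℝ u m} ≤
      Real.exp (1 - 12800 * n - (25600 / 9) * n * d ^ 2) := by
    rcases hexp with h | h
    · exact (gam_halfspace_le m hs).trans h
    · have : {u : EE n | s0 n ≤ inner ℝ u m} = ∅ := by
        ext u; simp [h, hs]
      rw [this]
      simp only [gam, measureReal_empty]
      positivity
  refine (nu_mono hsub).trans ((nu_le n _).trans ?_)
  rw [div_le_iff₀ hQ]
  refine hgam.trans ?_
  have hQ2 := Q_s0_ge hn0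
  rw [div_le_iff₀ hs] at hQ2
  have hss : s0 n = 160 * √n := rfl
  calc Real.exp (1 - 12800 * n - (25600 / 9) * n * d ^ 2)
      = Real.exp 4 * Real.exp (-((25600 / 9) * n * d ^ 2)) * Real.exp (-3 - 12800 * n) := by
        rw [← Real.exp_add, ← Real.exp_add]; congr 1; ring
    _ ≤ Real.exp 4 * Real.exp (-((25600 / 9) * n * d ^ 2)) * (Q (s0 n) * s0 n) :=
        mul_le_mul_of_nonneg_left hQ2 (by positivity)
    _ = _ := by rw [hss]; ring

/-- B2 -/
theorem nu_kill_le : ∀ᶠ n : ℕ in atTop, ∀ z : EE n, ‖z‖ ≤ 1 - 1 / n →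
    nu n {u | s0 n - 1 / s0 n ≤ inner ℝ u z} ≤ 1 / 8 := by
  filter_upwards [eventually_ge_atTop 200] with n hn z hz
  have hn0 : 0 < n := by omega
  have hnr : (200 : ℝ) ≤ n := by exact_mod_cast hn
  have hs := s0_pos hn0
  have hs1 := one_le_s0 hn0
  have hs2 := s0_sq n
  have hQ := Q_pos (s0 n)
  have hs100 : 100 ≤ s0 n := by nlinarith
  refine (nu_le n _).trans ?_
  rw [div_le_iff₀ hQ]
  have hpos : 0 < s0 n - 1 / s0 n := by
    have : 1 / s0 n ≤ 1 := by rw [div_le_one hs]; exact hs1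
    linarith
  rcases eq_or_ne z 0 with rfl | h0
  · have : {u : EE n | s0 n - 1 / s0 n ≤ inner ℝ u (0 : EE n)} = ∅ := by
      ext u
      simp only [inner_zero_right, mem_ofPred_eq, mem_empty_iff_false, iff_false, not_le]
      exact hpos
    rw [this]
    simp only [gam, measureReal_empty]
    positivity
  rw [gam_halfspace z h0]
  have hz0 : 0 < ‖z‖ := norm_pos_iff.2 h0
  -- the threshold
  set a := s0 n / n - 2 / s0 n with ha
  have ha0 : 0 ≤ a := by
    rw [ha, sub_nonneg, div_le_div_iff₀ hs (by positivity)]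
    nlinarith
  have hthr : s0 n + a ≤ (s0 n - 1 / s0 n) / ‖z‖ := by
    rw [le_div_iff₀ hz0]
    have h1 : (s0 n + a) * ‖z‖ ≤ (s0 n + a) * (1 - 1 / n) :=
      mul_le_mul_of_nonneg_left hz (by linarith)
    refine h1.trans ?_
    have h2 : a * (1 - 1 / (n:ℝ)) ≤ a := by
      have : (0:ℝ) < 1 / n := by positivity
      nlinarith
    have h3 : (s0 n + a) * (1 - 1 / (n:ℝ)) = s0 n - s0 n / n + a * (1 - 1 / n) := by ring
    rw [h3]
    have h4 : 2 / s0 n = 1 / s0 n + 1 / s0 n := by ring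
    have h5 : 0 < 1 / s0 n := by positivity
    rw [ha] at h2 ⊢
    linarith
  refine (Q_anti hthr).trans ((Q_add_le ha0).trans ?_)
  refine mul_le_mul_of_nonneg_right ?_ hQ.le
  have h6 : 3 ≤ a * s0 n := by
    have h7 : a * s0 n = s0 n ^ 2 / n - 2 := by rw [ha]; field_simp
    rw [h7, hs2]
    have : 25600 * (n:ℝ) / n = 25600 := by field_simp
    rw [this]; norm_num
  calc Real.exp (-(a * s0 n)) ≤ Real.exp (-3) := Real.exp_le_exp.2 (by linarith)
    _ ≤ 1 / 8 := by
      rw [Real.exp_neg, ← one_div]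
      refine one_div_le_one_div_of_le (by norm_num) ?_
      have h8 : Real.exp 3 = Real.exp 1 ^ 3 := by rw [← Real.exp_nat_mul]; norm_num
      rw [h8]
      have h9 := Real.exp_one_gt_d9
      have h10 : (2:ℝ) ≤ Real.exp 1 := by linarith
      calc (8:ℝ) = 2 ^ 3 := by norm_num
        _ ≤ _ := pow_le_pow_left₀ (by norm_num) h10 3

/-- depth of a point from its weight. -/
theorem qw_ge_exp {n : ℕ} (z : EE n) (j : ℕ) (hj : j < n) (hz : ‖z‖ ≤ 1 + eta n - j / n) :
    Real.exp (j / 2) ≤ qw n z := by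
  classical
  unfold qw
  have : Real.exp ((j:ℝ) / 2) = Real.exp ((j:ℝ) / 2) *
      (if ‖z‖ ≤ 1 + eta n - (j:ℝ) / n then 1 else 0) := by rw [if_pos hz, mul_one]
  rw [this]
  refine Finset.single_le_sum (f := fun j : ℕ => Real.exp ((j:ℝ) / 2) *
      (if ‖z‖ ≤ 1 + eta n - (j:ℝ) / n then (1:ℝ) else 0)) (fun i _ => ?_) (Finset.mem_range.2 hj)
  positivity

theorem eventually_log_le (K : ℝ) (hK : 0 < K) : ∀ᶠ n : ℕ in atTop, 1 + K * Real.log n ≤ n := by
  have h1 : ∀ᶠ x : ℝ in atTop, ‖Real.log x‖ ≤ (1 / (2 * K)) * ‖x‖ :=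
    Real.isLittleO_log_id_atTop.bound (by positivity)
  have h2 := (tendsto_natCast_atTop_atTop (R := ℝ)).eventually h1
  filter_upwards [h2, eventually_ge_atTop 2] with n hn h2n
  have h2r : (2:ℝ) ≤ n := by exact_mod_cast h2n
  rw [Real.norm_of_nonneg (by positivity : (0:ℝ) ≤ n), Real.norm_eq_abs] at hn
  have h3 := (le_abs_self _).trans hn
  have h4 : K * Real.log n ≤ K * (1 / (2 * K) * n) := mul_le_mul_of_nonneg_left h3 hK.le
  have h5 : K * (1 / (2 * K) * (n:ℝ)) = n / 2 := by field_simp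
  linarith

/-- B1 -/
theorem nu_kill_ge : ∃ C : ℝ, 0 < C ∧ ∀ᶠ n : ℕ in atTop, ∀ z : EE n, ‖z‖ ≤ 1 + eta n →
    qw n z ≤ (n : ℝ) ^ 2 →
      1 ≤ qw n z → Real.exp (-C * qw n z) ≤ nu n (kill n z) ∧
      Real.exp (-C * Real.log n) ≤ nu n (kill n z) := by
  refine ⟨700000, by norm_num, ?_⟩
  filter_upwards [eventually_log_le 614500 (by norm_num), nu_ge, eventually_ge_atTop 1000]
    with n hlog hnu hn z hz hq hq1
  have hn0 : 0 < n := by omega
  have hnr : (1000 : ℝ) ≤ n := by exact_mod_cast hn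
  have hs := s0_pos hn0
  have hs1 := one_le_s0 hn0
  have hs2 := s0_sq n
  have hQ := Q_pos (s0 n)
  have hη0 := eta_pos hn0
  have hlog1 : 1 ≤ Real.log n := by
    rw [Real.le_log_iff_exp_le (by positivity)]
    have := Real.exp_one_lt_d9
    linarith
  set t : ℝ := n * (1 + eta n - ‖z‖) with ht
  have ht0 : 0 ≤ t := mul_nonneg (by positivity) (by linarith)
  set j := ⌊t⌋₊ with hj
  have hjt : (j:ℝ) ≤ t := Nat.floor_le ht0
  have htj : t < j + 1 := Nat.lt_floor_add_one t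
  have hzt : ‖z‖ = 1 + eta n - t / n := by
    rw [ht]; field_simp; ring
  -- `j < n`
  have hjn : j < n := by
    by_contra hcon
    push Not at hcon
    have h1 : ((n - 1 : ℕ) : ℝ) ≤ t := by
      have : (n:ℝ) ≤ j := by exact_mod_cast hcon
      have h2 : ((n - 1 : ℕ) : ℝ) ≤ n := by exact_mod_cast Nat.sub_le n 1
      linarith
    have h3 : ‖z‖ ≤ 1 + eta n - ((n - 1 : ℕ) : ℝ) / n := by
      rw [hzt]
      have : ((n - 1 : ℕ) : ℝ) / n ≤ t / n := div_le_div_of_nonneg_right h1 (by positivity)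
      linarith
    have h4 := (qw_ge_exp z (n - 1) (by omega) h3).trans hq
    have h5 : Real.exp (2 * Real.log n) = (n:ℝ) ^ 2 := by
      rw [mul_comm, Real.exp_mul, Real.exp_log (by positivity)]; norm_num
    rw [← h5, Real.exp_le_exp] at h4
    have h6 : ((n - 1 : ℕ) : ℝ) = n - 1 := by
      rw [Nat.cast_sub (by omega)]; norm_num
    rw [h6] at h4
    linarith
  have hqj : Real.exp ((j:ℝ) / 2) ≤ qw n z := by
    refine qw_ge_exp z j hjn ?_
    rw [hzt]
    have : (j:ℝ) / n ≤ t / n := div_le_div_of_nonneg_right hjt (by positivity)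
    linarith
  have hj1 : (j:ℝ) ≤ 4 * Real.log n := by
    have h4 := hqj.trans hq
    have h5 : Real.exp (2 * Real.log n) = (n:ℝ) ^ 2 := by
      rw [mul_comm, Real.exp_mul, Real.exp_log (by positivity)]; norm_num
    rw [← h5, Real.exp_le_exp] at h4
    linarith
  have hj2 : t + 1 ≤ 2 * qw n z := by
    have := Real.add_one_le_exp ((j:ℝ) / 2)
    linarith
  have hj3 : t + 1 ≤ 6 * Real.log n := by linarith
  -- the threshold
  set x := t / n with hx
  have hx0 : 0 ≤ x := by positivity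
  have hx1 : x ≤ 1 / 2 := by
    rw [hx, div_le_iff₀ (by positivity)]; linarith
  have hzx : 1 - x ≤ ‖z‖ := by rw [hzt]; linarith
  have hz0 : 0 < ‖z‖ := by linarith
  have hzne : z ≠ 0 := norm_pos_iff.1 hz0
  set a := 2 * s0 n * x with ha
  have ha0 : 0 ≤ a := by positivity
  have hthr : s0 n / ‖z‖ ≤ s0 n + a := by
    rw [div_le_iff₀ hz0]
    have h1 : s0 n + a = s0 n * (1 + 2 * x) := by rw [ha]; ring
    rw [h1, mul_assoc]
    have h2 : 1 ≤ (1 + 2 * x) * ‖z‖ := by
      have : (1 + 2 * x) * (1 - x) ≤ (1 + 2 * x) * ‖z‖ :=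
        mul_le_mul_of_nonneg_left hzx (by linarith)
      nlinarith
    nlinarith
  have hgam : Real.exp (-(102400 * (t + 1))) * Q (s0 n) ≤ gam n (kill n z) := by
    have h1 : gam n (kill n z) = Q (s0 n / ‖z‖) := gam_halfspace z hzne _
    rw [h1]
    refine le_trans ?_ (Q_anti hthr)
    refine le_trans ?_ (Q_add_ge hs ha0)
    refine mul_le_mul_of_nonneg_right (Real.exp_le_exp.2 (neg_le_neg ?_)) hQ.le
    have h2 : a * s0 n = 51200 * t := by
      have : a * s0 n = 2 * x * s0 n ^ 2 := by rw [ha]; ring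
      rw [this, hs2, hx]; field_simp; ring
    have h3 : (a + 1 / s0 n) ^ 2 / 2 ≤ a ^ 2 + 1 := by
      have h4 : 1 / s0 n ≤ 1 := by rw [div_le_one hs]; exact hs1
      have h5 : 0 < 1 / s0 n := by positivity
      nlinarith [sq_nonneg (a - 1 / s0 n)]
    have h6 : a ^ 2 ≤ 51200 * t := by
      have h7 : a ^ 2 = 102400 * t * x := by
        have : a ^ 2 = 4 * x ^ 2 * s0 n ^ 2 := by rw [ha]; ring
        rw [this, hs2, hx]; field_simp; ring
      rw [h7]
      nlinarith
    linarith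
  have hmain : Real.exp (-(102401 * (t + 1))) ≤ nu n (kill n z) := by
    have h1 := hnu (kill n z)
    have h2 : Real.exp (-(102400 * (t + 1))) ≤ gam n (kill n z) / Q (s0 n) := by
      rw [le_div_iff₀ hQ]; exact hgam
    have h3 : Real.exp (-(n:ℝ)) ≤ Real.exp (-(102400 * (t + 1)) - 1) := by
      refine Real.exp_le_exp.2 ?_
      linarith
    have h4 : Real.exp (-(102400 * (t + 1)) - 1) ≤ Real.exp (-(102400 * (t + 1))) * (1 / 2) := by
      rw [Real.exp_sub, div_eq_mul_one_div]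
      refine mul_le_mul_of_nonneg_left ?_ (Real.exp_pos _).le
      have := Real.exp_one_gt_d9
      exact one_div_le_one_div_of_le (by norm_num) (by linarith)
    have h5 : Real.exp (-(102401 * (t + 1))) ≤ Real.exp (-(102400 * (t + 1)) - 1) := by
      refine Real.exp_le_exp.2 ?_
      linarith
    linarith
  constructor
  · refine le_trans (Real.exp_le_exp.2 ?_) hmain
    linarith
  · refine le_trans (Real.exp_le_exp.2 ?_) hmain
    linarith

end Crest.Agent.R225.LB
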