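import Crest.Agent.R225.LB.ConfigNum
import Crest.Agent.R225.LB.Gauss2
import Crest.Agent.R225.LB.B4

/-!
Row 225, S0348, module D: the probability estimate for one configuration.
-/

set_option autoImplicit false

namespace Crest.Agent.R225.LB

open MeasureTheory ProbabilityTheory Finset Filter

theorem config_prob : ∃ c : ℝ, 0 < c ∧ ∀ᶠ n : ℕ in atTop,
    ∀ (X Y G : Finset (EE n)), X.card ≤ 3 ^ n → Y.Nonempty →
    (∀ y ∈ Y, ∑ x ∈ X, qw n (y - x) ≤ c * n * Real.log n) →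
    (∀ y ∈ Y, ∀ x ∈ X, ‖y - x‖ ≤ 1 + eta n → y - x ∈ G) →
    (∀ p : EE n, ∀ r : ℝ, (r = (n : ℝ) ^ (-(1 / 5 : ℝ)) ∨ r = 1 / 40) →
      ((Y.filter (fun y => dist y p ≤ r)).card : ℝ) ≤ (2 * r) ^ n * Y.card) →
    Ex (pp n G) G.powerset
      (fun t => if ∀ y ∈ Y, ∃ x ∈ X, ‖y - x‖ ≤ 1 + eta n ∧ ∀ v ∈ t, y - x ∉ v then 1 else 0)
      ≤ Real.exp (-(4 : ℝ) ^ n) :=
  config_prob_of nu_kill_ge nu_kill_inter_le nu_kill_cluster_ge

end Crest.Agent.R225.LB
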