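import Crest.Agent.R225.LB.Defs

/-!
Generalised Janson inequality for hitting events on a finite product space.
-/

set_option autoImplicit false
set_option linter.unusedVariables false

namespace Crest.Agent.R225.LB

open Finset

section basic

variable {α : Type*} [DecidableEq α] (p : α → ℝ)

theorem Ex_empty (f : Finset α → ℝ) : Ex p ∅ f = f ∅ := by
  simp [Ex]

theorem Ex_insert {a : α} {s : Finset α} (ha : a ∉ s) (f : Finset α → ℝ) :
    Ex p (insert a s) f = (1 - p a) * Ex p s f + p a * Ex p s (fun t => f (insert a t)) := by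
  unfold Ex
  rw [Finset.sum_powerset_insert ha, Finset.mul_sum, Finset.mul_sum]
  congr 1
  · refine Finset.sum_congr rfl fun t ht => ?_
    rw [Finset.mem_powerset] at ht
    have hat : a ∉ t := fun h => ha (ht h)
    rw [Finset.insert_sdiff_of_notMem _ hat, Finset.prod_insert (by simp [ha])]
    ring
  · refine Finset.sum_congr rfl fun t ht => ?_
    rw [Finset.mem_powerset] at ht
    have hat : a ∉ t := fun h => ha (ht h)
    rw [Finset.prod_insert hat]
    have : insert a s \ insert a t = s \ t := by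
      ext x
      simp only [Finset.mem_sdiff, Finset.mem_insert, not_or]
      constructor
      · rintro ⟨h1 | h1, h2, h3⟩
        · exact absurd h1 h2
        · exact ⟨h1, h3⟩
      · rintro ⟨h1, h2⟩
        exact ⟨Or.inr h1, fun h => ha (h ▸ h1), h2⟩
    rw [this]
    ring

variable {p}

theorem Ex_congr {s : Finset α} {f g : Finset α → ℝ} (h : ∀ t ⊆ s, f t = g t) :
    Ex p s f = Ex p s g := by
  unfold Ex
  refine Finset.sum_congr rfl fun t ht => ?_
  rw [h t (Finset.mem_powerset.1 ht)]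

theorem Ex_le (hp0 : ∀ a, 0 ≤ p a) (hp1 : ∀ a, p a ≤ 1) {s : Finset α} {f g : Finset α → ℝ}
    (h : ∀ t ⊆ s, f t ≤ g t) : Ex p s f ≤ Ex p s g := by
  unfold Ex
  refine Finset.sum_le_sum fun t ht => ?_
  refine mul_le_mul_of_nonneg_left (h t (Finset.mem_powerset.1 ht)) ?_
  exact mul_nonneg (Finset.prod_nonneg fun a _ => hp0 a)
    (Finset.prod_nonneg fun a _ => by linarith [hp1 a])

variable (p)

theorem Ex_const_mul (s : Finset α) (c : ℝ) (f : Finset α → ℝ) :
    Ex p s (fun t => c * f t) = c * Ex p s f := by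
  unfold Ex
  rw [Finset.mul_sum]
  exact Finset.sum_congr rfl fun t _ => by ring

theorem Ex_mul_const (s : Finset α) (c : ℝ) (f : Finset α → ℝ) :
    Ex p s (fun t => f t * c) = Ex p s f * c := by
  unfold Ex
  rw [Finset.sum_mul]
  exact Finset.sum_congr rfl fun t _ => by ring

theorem Ex_add (s : Finset α) (f g : Finset α → ℝ) :
    Ex p s (fun t => f t + g t) = Ex p s f + Ex p s g := by
  unfold Ex
  rw [← Finset.sum_add_distrib]
  exact Finset.sum_congr rfl fun t _ => by ring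

theorem Ex_sub (s : Finset α) (f g : Finset α → ℝ) :
    Ex p s (fun t => f t - g t) = Ex p s f - Ex p s g := by
  unfold Ex
  rw [← Finset.sum_sub_distrib]
  exact Finset.sum_congr rfl fun t _ => by ring

theorem Ex_sum {ι : Type*} (s : Finset α) (J : Finset ι) (f : ι → Finset α → ℝ) :
    Ex p s (fun t => ∑ j ∈ J, f j t) = ∑ j ∈ J, Ex p s (f j) := by
  unfold Ex
  rw [Finset.sum_comm]
  exact Finset.sum_congr rfl fun t _ => by rw [Finset.mul_sum]

theorem Ex_const (s : Finset α) (c : ℝ) : Ex p s (fun _ => c) = c := by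
  induction s using Finset.induction_on with
  | empty => simp [Ex_empty]
  | insert a s ha ih => rw [Ex_insert p ha, ih]; ring

theorem Ex_union {s₁ s₂ : Finset α} (h : Disjoint s₁ s₂) (f : Finset α → ℝ) :
    Ex p (s₁ ∪ s₂) f = Ex p s₁ (fun t₁ => Ex p s₂ (fun t₂ => f (t₁ ∪ t₂))) := by
  induction s₁ using Finset.induction_on generalizing f with
  | empty => simp [Ex_empty]
  | insert a s ha ih =>
    rw [Finset.disjoint_insert_left] at h
    have h1 : a ∉ s ∪ s₂ := by simp [ha, h.1]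
    rw [Finset.insert_union, Ex_insert p h1, Ex_insert p ha, ih h.2, ih h.2]
    simp only [Finset.insert_union]

theorem Ex_sdiff {s V : Finset α} (h : V ⊆ s) (f : Finset α → ℝ) :
    Ex p s f = Ex p V (fun t₁ => Ex p (s \ V) (fun t₂ => f (t₁ ∪ t₂))) := by
  rw [← Ex_union p Finset.disjoint_sdiff, Finset.union_sdiff_of_subset h]

variable {p}

theorem Ex_nonneg (hp0 : ∀ a, 0 ≤ p a) (hp1 : ∀ a, p a ≤ 1) {s : Finset α} {f : Finset α → ℝ}
    (h : ∀ t ⊆ s, 0 ≤ f t) : 0 ≤ Ex p s f := by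
  have := Ex_le (p := p) hp0 hp1 (s := s) (f := fun _ => 0) (g := f) h
  rwa [Ex_const] at this

/-- Harris inequality, increasing functions. -/
theorem harris (hp0 : ∀ a, 0 ≤ p a) (hp1 : ∀ a, p a ≤ 1) (s : Finset α)
    {f g : Finset α → ℝ} (hf : Monotone f) (hg : Monotone g) :
    Ex p s f * Ex p s g ≤ Ex p s (fun t => f t * g t) := by
  induction s using Finset.induction_on generalizing f g with
  | empty => simp [Ex_empty]
  | insert a s ha ih =>
    have hf' : Monotone (fun t => f (insert a t)) := fun t t' h =>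
      hf (Finset.insert_subset_insert a h)
    have hg' : Monotone (fun t => g (insert a t)) := fun t t' h =>
      hg (Finset.insert_subset_insert a h)
    rw [Ex_insert p ha, Ex_insert p ha, Ex_insert p ha]
    have h0 := ih hf hg
    have h1 := ih hf' hg'
    have hff : Ex p s f ≤ Ex p s (fun t => f (insert a t)) :=
      Ex_le hp0 hp1 fun t _ => hf (Finset.subset_insert a t)
    have hgg : Ex p s g ≤ Ex p s (fun t => g (insert a t)) :=
      Ex_le hp0 hp1 fun t _ => hg (Finset.subset_insert a t)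
    have hpa := hp0 a
    have hpa' := hp1 a
    set F0 := Ex p s f
    set G0 := Ex p s g
    set F1 := Ex p s (fun t => f (insert a t))
    set G1 := Ex p s (fun t => g (insert a t))
    set H0 := Ex p s (fun t => f t * g t)
    set H1 := Ex p s (fun t => f (insert a t) * g (insert a t))
    nlinarith [mul_nonneg (mul_nonneg hpa (sub_nonneg.2 hpa'))
      (mul_nonneg (sub_nonneg.2 hff) (sub_nonneg.2 hgg)),
      mul_le_mul_of_nonneg_left h1 hpa, mul_le_mul_of_nonneg_left h0 (sub_nonneg.2 hpa')]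

/-- Harris inequality, decreasing functions. -/
theorem harris_anti (hp0 : ∀ a, 0 ≤ p a) (hp1 : ∀ a, p a ≤ 1) (s : Finset α)
    {f g : Finset α → ℝ} (hf : Antitone f) (hg : Antitone g) :
    Ex p s f * Ex p s g ≤ Ex p s (fun t => f t * g t) := by
  have h := harris hp0 hp1 s (f := fun t => - f t) (g := fun t => - g t)
    (fun t t' h => neg_le_neg (hf h)) (fun t t' h => neg_le_neg (hg h))
  have e1 : Ex p s (fun t => - f t) = - Ex p s f := by
    have := Ex_const_mul p s (-1) f
    simpa using this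
  have e2 : Ex p s (fun t => - g t) = - Ex p s g := by
    have := Ex_const_mul p s (-1) g
    simpa using this
  rw [e1, e2] at h
  simpa using h

theorem harris_prod (hp0 : ∀ a, 0 ≤ p a) (hp1 : ∀ a, p a ≤ 1) (s : Finset α)
    {κ : Type*} (J : Finset κ) (f : κ → Finset α → ℝ) (hf : ∀ j ∈ J, Monotone (f j))
    (hf0 : ∀ j ∈ J, ∀ t, 0 ≤ f j t) :
    ∏ j ∈ J, Ex p s (f j) ≤ Ex p s (fun t => ∏ j ∈ J, f j t) := by
  classical
  induction J using Finset.induction_on with
  | empty => simp [Ex_const]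
  | insert j J hj ih =>
    rw [Finset.prod_insert hj]
    simp only [Finset.prod_insert hj]
    have ih' := ih (fun i hi => hf i (Finset.mem_insert_of_mem hi))
      (fun i hi => hf0 i (Finset.mem_insert_of_mem hi))
    have hm : Monotone (fun t => ∏ i ∈ J, f i t) := by
      intro t t' h
      exact Finset.prod_le_prod (fun i hi => hf0 i (Finset.mem_insert_of_mem hi) t)
        (fun i hi => hf i (Finset.mem_insert_of_mem hi) h)
    refine le_trans ?_ (harris hp0 hp1 s (hf j (Finset.mem_insert_self _ _)) hm)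
    exact mul_le_mul_of_nonneg_left ih'
      (Ex_nonneg hp0 hp1 fun t _ => hf0 j (Finset.mem_insert_self _ _) t)

/-- weighted Jensen for `exp (-x)` -/
theorem jensen_exp (hp0 : ∀ a, 0 ≤ p a) (hp1 : ∀ a, p a ≤ 1) (s : Finset α)
    (A X : Finset α → ℝ) (hA : ∀ t, 0 ≤ A t) (m : ℝ)
    (hm : Ex p s (fun t => A t * X t) ≤ m * Ex p s A) :
    Ex p s A * Real.exp (-m) ≤ Ex p s (fun t => A t * Real.exp (-X t)) := by
  have h1 : Ex p s (fun t => A t * (Real.exp (-m) * (1 - (X t - m)))) ≤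
      Ex p s (fun t => A t * Real.exp (-X t)) := by
    refine Ex_le hp0 hp1 fun t _ => mul_le_mul_of_nonneg_left ?_ (hA t)
    have h2 : -(X t - m) + 1 ≤ Real.exp (-(X t - m)) := Real.add_one_le_exp _
    have h3 : Real.exp (-X t) = Real.exp (-m) * Real.exp (-(X t - m)) := by
      rw [← Real.exp_add]; congr 1; ring
    rw [h3]
    exact mul_le_mul_of_nonneg_left (by linarith) (Real.exp_pos _).le
  refine le_trans ?_ h1
  have h4 : (fun t => A t * (Real.exp (-m) * (1 - (X t - m)))) =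
      (fun t => Real.exp (-m) * ((1 + m) * A t - A t * X t)) := by
    funext t; ring
  rw [h4, Ex_const_mul, Ex_sub, Ex_const_mul]
  have h5 := Real.exp_pos (-m)
  nlinarith

theorem Ex_mono_set (hp0 : ∀ a, 0 ≤ p a) (hp1 : ∀ a, p a ≤ 1) {W s : Finset α} (h : W ⊆ s)
    {f : Finset α → ℝ} (hf : Monotone f) : Ex p W f ≤ Ex p s f := by
  rw [Ex_sdiff p h]
  refine Ex_le hp0 hp1 fun t _ => ?_
  calc f t = Ex p (s \ W) (fun _ => f t) := (Ex_const p _ _).symm
    _ ≤ _ := Ex_le hp0 hp1 fun t' _ => hf Finset.subset_union_left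

theorem Ex_pow_card (s : Finset α) (x : ℝ) :
    Ex p s (fun t => x ^ t.card) = ∏ a ∈ s, (1 - p a + p a * x) := by
  induction s using Finset.induction_on with
  | empty => simp [Ex_empty]
  | insert a s ha ih =>
    rw [Ex_insert p ha, Finset.prod_insert ha, ih]
    have : Ex p s (fun t => x ^ (insert a t).card) = x * Ex p s (fun t => x ^ t.card) := by
      rw [← Ex_const_mul]
      refine Ex_congr fun t ht => ?_
      rw [Finset.card_insert_of_notMem (fun h => ha (ht h)), pow_succ]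
      ring
    rw [this, ih]
    ring

theorem Ex_eq_empty (s : Finset α) :
    Ex p s (fun t => if t = ∅ then 1 else 0) = ∏ a ∈ s, (1 - p a) := by
  unfold Ex
  rw [Finset.sum_eq_single ∅]
  · simp
  · intro t _ ht; simp [ht]
  · intro h; exact absurd (Finset.empty_mem_powerset s) h

end basic

section hit

variable {α : Type*} [DecidableEq α] {p : α → ℝ}

/-- hitting indicator -/
def hh (U t : Finset α) : ℝ := if t ∩ U = ∅ then 0 else 1

theorem hh_nonneg (U t : Finset α) : 0 ≤ hh U t := by unfold hh; split_ifs <;> norm_num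

theorem hh_le_one (U t : Finset α) : hh U t ≤ 1 := by unfold hh; split_ifs <;> norm_num

theorem hh_mono (U : Finset α) : Monotone (hh U) := by
  intro t t' h
  unfold hh
  split_ifs with h1 h2 h2
  · exact le_refl _
  · norm_num
  · exfalso
    apply h1
    have : t ∩ U ⊆ t' ∩ U := Finset.inter_subset_inter_right h
    rw [h2] at this
    exact Finset.subset_empty.1 this
  · exact le_refl _

theorem hh_congr {U t t' : Finset α} (h : t ∩ U = t' ∩ U) : hh U t = hh U t' := by
  unfold hh; rw [h]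

theorem Ex_hh {s U : Finset α} (hU : U ⊆ s) :
    Ex p s (hh U) = 1 - ∏ v ∈ U, (1 - p v) := by
  have h1 : Ex p s (fun t => 1 - hh U t) = ∏ v ∈ U, (1 - p v) := by
    rw [Ex_sdiff p hU, ← Ex_eq_empty]
    refine Ex_congr fun t ht => ?_
    have h2 : ∀ t' ⊆ s \ U, (1 - hh U (t ∪ t')) = (if t = ∅ then (1:ℝ) else 0) := by
      intro t' ht'
      have h3 : (t ∪ t') ∩ U = t := by
        ext x
        simp only [Finset.mem_inter, Finset.mem_union]
        constructor
        · rintro ⟨h | h, hx⟩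
          · exact h
          · exact absurd hx (Finset.mem_sdiff.1 (ht' h)).2
        · intro h; exact ⟨Or.inl h, ht h⟩
      unfold hh
      rw [h3]
      split_ifs <;> norm_num
    rw [Ex_congr h2, Ex_const]
  rw [Ex_sub, Ex_const] at h1
  linarith

variable {κ : Type*}

/-- product of hitting indicators -/
noncomputable def AA (T : Finset κ) (U : κ → Finset α) (t : Finset α) : ℝ := ∏ j ∈ T, hh (U j) t

theorem AA_nonneg (T : Finset κ) (U : κ → Finset α) (t : Finset α) : 0 ≤ AA T U t :=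
  Finset.prod_nonneg fun j _ => hh_nonneg _ _

theorem AA_le_one (T : Finset κ) (U : κ → Finset α) (t : Finset α) : AA T U t ≤ 1 :=
  Finset.prod_le_one (fun j _ => hh_nonneg _ _) fun j _ => hh_le_one _ _

theorem AA_mono (T : Finset κ) (U : κ → Finset α) : Monotone (AA T U) := fun t t' h =>
  Finset.prod_le_prod (fun j _ => hh_nonneg _ _) fun j _ => hh_mono _ h

theorem AA_congr {T : Finset κ} {U : κ → Finset α} {t t' : Finset α}
    (h : t ∩ T.biUnion U = t' ∩ T.biUnion U) : AA T U t = AA T U t' := by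
  refine Finset.prod_congr rfl fun j hj => hh_congr ?_
  have hs : U j ⊆ T.biUnion U := Finset.subset_biUnion_of_mem U hj
  have e1 : t ∩ U j = (t ∩ T.biUnion U) ∩ U j := by
    rw [Finset.inter_assoc, Finset.inter_eq_right.2 hs]
  have e2 : t' ∩ U j = (t' ∩ T.biUnion U) ∩ U j := by
    rw [Finset.inter_assoc, Finset.inter_eq_right.2 hs]
  rw [e1, e2, h]

/-- conditional probabilities given a set `R` of present elements. -/
theorem cond_le [DecidableEq κ] (hp0 : ∀ a, 0 ≤ p a) (hp1 : ∀ a, p a ≤ 1) {s : Finset α}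
    (T : Finset κ) (U : κ → Finset α) (hU : ∀ j ∈ T, U j ⊆ s) {π : ℝ} {k : ℕ}
    (hπ : 0 < π) (hπ1 : π ≤ 1)
    (hhit : ∀ j ∈ T, π ≤ 1 - ∏ v ∈ U j, (1 - p v))
    (hk : ∀ v ∈ s, (T.filter (fun j => v ∈ U j)).card ≤ k)
    {W R : Finset α} (hW : W ⊆ s) (hR : R ⊆ s) :
    Ex p W (fun t => AA T U (R ∪ t)) ≤ Ex p s (AA T U) * ((1 / π) ^ k) ^ R.card := by
  set J1 := T.filter (fun j => R ∩ U j = ∅) with hJ1
  set J2 := T.filter (fun j => ¬ (R ∩ U j = ∅)) with hJ2
  have hsplit : ∀ t, AA T U t = (∏ j ∈ J1, hh (U j) t) * ∏ j ∈ J2, hh (U j) t := by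
    intro t
    unfold AA
    rw [hJ1, hJ2, Finset.prod_filter_mul_prod_filter_not]
  have hm1 : Monotone (fun t => ∏ j ∈ J1, hh (U j) t) := fun t t' h =>
    Finset.prod_le_prod (fun j _ => hh_nonneg _ _) fun j _ => hh_mono _ h
  have hm2 : Monotone (fun t => ∏ j ∈ J2, hh (U j) t) := fun t t' h =>
    Finset.prod_le_prod (fun j _ => hh_nonneg _ _) fun j _ => hh_mono _ h
  -- step 1
  have h1 : Ex p W (fun t => AA T U (R ∪ t)) ≤ Ex p s (fun t => ∏ j ∈ J1, hh (U j) t) := by
    refine le_trans ?_ (Ex_mono_set hp0 hp1 hW hm1)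
    refine Ex_le hp0 hp1 fun t _ => ?_
    rw [hsplit]
    have h2 : ∏ j ∈ J1, hh (U j) (R ∪ t) = ∏ j ∈ J1, hh (U j) t := by
      refine Finset.prod_congr rfl fun j hj => hh_congr ?_
      have : R ∩ U j = ∅ := (Finset.mem_filter.1 hj).2
      rw [Finset.union_inter_distrib_right, this, Finset.empty_union]
    rw [h2]
    refine mul_le_of_le_one_right (Finset.prod_nonneg fun j _ => hh_nonneg _ _) ?_
    exact Finset.prod_le_one (fun j _ => hh_nonneg _ _) fun j _ => hh_le_one _ _
  -- step 2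
  have hcard : J2.card ≤ k * R.card := by
    have hsub : J2 ⊆ R.biUnion (fun v => T.filter (fun j => v ∈ U j)) := by
      intro j hj
      obtain ⟨hjT, hj2⟩ := Finset.mem_filter.1 hj
      obtain ⟨v, hv⟩ := Finset.nonempty_iff_ne_empty.2 hj2
      rw [Finset.mem_inter] at hv
      rw [Finset.mem_biUnion]
      exact ⟨v, hv.1, Finset.mem_filter.2 ⟨hjT, hv.2⟩⟩
    refine (Finset.card_le_card hsub).trans ?_
    refine Finset.card_biUnion_le.trans ?_
    refine (Finset.sum_le_card_nsmul _ _ k fun v hv => hk v (hR hv)).trans ?_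
    rw [smul_eq_mul, mul_comm]
  have h3 : Ex p s (fun t => ∏ j ∈ J1, hh (U j) t) * π ^ (k * R.card) ≤ Ex p s (AA T U) := by
    have h4 : Ex p s (fun t => ∏ j ∈ J1, hh (U j) t) * Ex p s (fun t => ∏ j ∈ J2, hh (U j) t)
        ≤ Ex p s (AA T U) := by
      refine (harris hp0 hp1 s hm1 hm2).trans (le_of_eq ?_)
      exact Ex_congr fun t _ => (hsplit t).symm
    have h5 : π ^ (k * R.card) ≤ Ex p s (fun t => ∏ j ∈ J2, hh (U j) t) := by
      refine le_trans ?_ (harris_prod hp0 hp1 s J2 (fun j => hh (U j)) (fun j _ => hh_mono _)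
        (fun j _ t => hh_nonneg _ _))
      calc π ^ (k * R.card) ≤ π ^ J2.card := pow_le_pow_of_le_one hπ.le hπ1 hcard
        _ = ∏ j ∈ J2, π := by rw [Finset.prod_const]
        _ ≤ _ := Finset.prod_le_prod (fun j _ => hπ.le) fun j hj => by
            have hjT := (Finset.mem_filter.1 hj).1
            rw [Ex_hh (hU j hjT)]
            exact hhit j hjT
    refine le_trans (mul_le_mul_of_nonneg_left h5 ?_) h4
    exact Ex_nonneg hp0 hp1 fun t _ => Finset.prod_nonneg fun j _ => hh_nonneg _ _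
  have h6 : (0:ℝ) < π ^ (k * R.card) := pow_pos hπ _
  calc Ex p W (fun t => AA T U (R ∪ t)) ≤ Ex p s (fun t => ∏ j ∈ J1, hh (U j) t) := h1
    _ = (Ex p s (fun t => ∏ j ∈ J1, hh (U j) t) * π ^ (k * R.card)) * ((1 / π) ^ k) ^ R.card := by
        rw [← pow_mul, one_div, inv_pow, mul_assoc, mul_inv_cancel₀ h6.ne', mul_one]
    _ ≤ _ := mul_le_mul_of_nonneg_right h3 (by positivity)

end hit

section core

variable {α : Type*} [DecidableEq α] {p : α → ℝ}

theorem one_sub_sum_le (hp0 : ∀ a, 0 ≤ p a) (hp1 : ∀ a, p a ≤ 1) (O : Finset α) :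
    1 - ∑ a ∈ O, p a ≤ ∏ a ∈ O, (1 - p a) := by
  induction O using Finset.induction_on with
  | empty => simp
  | insert a O ha ih =>
    rw [Finset.sum_insert ha, Finset.prod_insert ha]
    have h1 : ∏ a ∈ O, (1 - p a) ≤ 1 :=
      Finset.prod_le_one (fun a _ => by linarith [hp1 a]) fun a _ => by linarith [hp0 a]
    nlinarith [hp0 a, hp1 a, mul_nonneg (hp0 a) (sub_nonneg.2 h1)]

/-- the pair bound -/
theorem pair_bound {κ : Type*} [DecidableEq κ] (hp0 : ∀ a, 0 ≤ p a) (hp1 : ∀ a, p a ≤ 1)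
    {s : Finset α} (T T' : Finset κ) (U U' : κ → Finset α) (hU : ∀ j ∈ T, U j ⊆ s)
    (hU' : ∀ j ∈ T', U' j ⊆ s) {π : ℝ} {k : ℕ} (hπ : 0 < π) (hπ1 : π ≤ 1)
    (hhit : ∀ j ∈ T, π ≤ 1 - ∏ v ∈ U j, (1 - p v))
    (hhit' : ∀ j ∈ T', π ≤ 1 - ∏ v ∈ U' j, (1 - p v))
    (hk : ∀ v ∈ s, (T.filter (fun j => v ∈ U j)).card ≤ k)
    (hk' : ∀ v ∈ s, (T'.filter (fun j => v ∈ U' j)).card ≤ k) :
    Ex p (T.biUnion U) (fun ω => AA T U ω * Ex p (s \ T.biUnion U)
      (fun η => AA T' U' (ω ∪ η) * (if ω ∩ T'.biUnion U' = ∅ then 0 else 1))) ≤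
    Ex p s (AA T U) * Ex p s (AA T' U') *
      (Real.exp ((1 / π) ^ (2 * k) * ∑ v ∈ T.biUnion U ∩ T'.biUnion U', p v) - 1) := by
  set V := T.biUnion U with hV
  set V' := T'.biUnion U' with hV'
  have hVs : V ⊆ s := Finset.biUnion_subset.2 hU
  have hV's : V' ⊆ s := Finset.biUnion_subset.2 hU'
  set O := V ∩ V' with hO
  have hOV : O ⊆ V := Finset.inter_subset_left
  set M : ℝ := (1 / π) ^ k with hM
  have hM1 : 1 ≤ M := by
    rw [hM]; exact one_le_pow₀ (by rw [le_div_iff₀ hπ]; linarith)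
  rw [Ex_sdiff p hOV]
  have key : ∀ R ⊆ O, Ex p (V \ O) (fun t₂ => AA T U (R ∪ t₂) * Ex p (s \ V)
      (fun η => AA T' U' (R ∪ t₂ ∪ η) * (if (R ∪ t₂) ∩ V' = ∅ then 0 else 1))) ≤
      (Ex p s (AA T U) * Ex p s (AA T' U')) * ((M * M) ^ R.card - (if R = ∅ then 1 else 0)) := by
    intro R hR
    have hRs : R ⊆ s := (hR.trans hOV).trans hVs
    have e1 : ∀ t₂ ⊆ V \ O, ∀ η, AA T' U' (R ∪ t₂ ∪ η) = AA T' U' (R ∪ η) := by
      intro t₂ ht₂ η
      refine AA_congr ?_
      have h0 : t₂ ∩ V' = ∅ := by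
        ext x
        simp only [Finset.mem_inter, Finset.notMem_empty, iff_false, not_and]
        intro hx hx'
        have := ht₂ hx
        rw [Finset.mem_sdiff, hO, Finset.mem_inter] at this
        exact this.2 ⟨this.1, hx'⟩
      rw [← hV', Finset.union_inter_distrib_right, Finset.union_inter_distrib_right, h0,
        Finset.union_empty, ← Finset.union_inter_distrib_right]
    have e2 : ∀ t₂ ⊆ V \ O, ((R ∪ t₂) ∩ V' = ∅ ↔ R = ∅) := by
      intro t₂ ht₂
      constructor
      · intro h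
        rw [Finset.eq_empty_iff_forall_notMem] at h ⊢
        intro x hx
        have hxO := hR hx
        rw [hO, Finset.mem_inter] at hxO
        exact h x (Finset.mem_inter.2 ⟨Finset.mem_union_left _ hx, hxO.2⟩)
      · intro h
        subst h
        rw [Finset.empty_union, Finset.eq_empty_iff_forall_notMem]
        intro x hx
        rw [Finset.mem_inter] at hx
        have := ht₂ hx.1
        rw [Finset.mem_sdiff, hO, Finset.mem_inter] at this
        exact this.2 ⟨this.1, hx.2⟩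
    by_cases hRe : R = ∅
    · have : Ex p (V \ O) (fun t₂ => AA T U (R ∪ t₂) * Ex p (s \ V)
          (fun η => AA T' U' (R ∪ t₂ ∪ η) * (if (R ∪ t₂) ∩ V' = ∅ then 0 else 1))) = 0 := by
        rw [← Ex_const p (V \ O) 0]
        refine Ex_congr fun t₂ ht₂ => ?_
        rw [if_pos ((e2 t₂ ht₂).2 hRe)]
        simp [Ex_const]
      rw [this, hRe]
      simp
    · have h1 : Ex p (V \ O) (fun t₂ => AA T U (R ∪ t₂) * Ex p (s \ V)
          (fun η => AA T' U' (R ∪ t₂ ∪ η) * (if (R ∪ t₂) ∩ V' = ∅ then 0 else 1))) =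
          Ex p (V \ O) (fun t₂ => AA T U (R ∪ t₂)) * Ex p (s \ V) (fun η => AA T' U' (R ∪ η)) := by
        rw [← Ex_mul_const]
        refine Ex_congr fun t₂ ht₂ => ?_
        have hne : ¬ ((R ∪ t₂) ∩ V' = ∅) := fun h => hRe ((e2 t₂ ht₂).1 h)
        simp only [if_neg hne, mul_one, e1 t₂ ht₂]
      rw [h1, if_neg hRe, sub_zero]
      have h2 := cond_le hp0 hp1 T U hU hπ hπ1 hhit hk
        (W := V \ O) (R := R) (Finset.sdiff_subset.trans hVs) hRs
      have h3 := cond_le hp0 hp1 T' U' hU' hπ hπ1 hhit' hk'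
        (W := s \ V) (R := R) Finset.sdiff_subset hRs
      have h4 : 0 ≤ Ex p (V \ O) (fun t₂ => AA T U (R ∪ t₂)) :=
        Ex_nonneg hp0 hp1 fun t _ => AA_nonneg _ _ _
      have h5 : 0 ≤ Ex p s (AA T' U') := Ex_nonneg hp0 hp1 fun t _ => AA_nonneg _ _ _
      have h5' : 0 ≤ Ex p s (AA T U) := Ex_nonneg hp0 hp1 fun t _ => AA_nonneg _ _ _
      calc _ ≤ (Ex p s (AA T U) * M ^ R.card) * (Ex p s (AA T' U') * M ^ R.card) :=
            mul_le_mul h2 h3 (Ex_nonneg hp0 hp1 fun t _ => AA_nonneg _ _ _) (by positivity)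
        _ = _ := by rw [mul_pow]; ring
  refine (Ex_le hp0 hp1 key).trans ?_
  rw [Ex_const_mul, Ex_sub, Ex_pow_card, Ex_eq_empty]
  have h5 : 0 ≤ Ex p s (AA T' U') := Ex_nonneg hp0 hp1 fun t _ => AA_nonneg _ _ _
  have h5' : 0 ≤ Ex p s (AA T U) := Ex_nonneg hp0 hp1 fun t _ => AA_nonneg _ _ _
  refine mul_le_mul_of_nonneg_left ?_ (mul_nonneg h5' h5)
  have hMM : M * M = (1 / π) ^ (2 * k) := by rw [hM, ← pow_add]; congr 1; ring
  rw [← hMM]
  set L := ∑ v ∈ O, p v with hL
  have hL0 : 0 ≤ L := Finset.sum_nonneg fun v _ => hp0 v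
  -- product bounds
  have b1 : ∏ a ∈ O, (1 - p a + p a * (M * M)) ≤ Real.exp ((M * M - 1) * L) := by
    rw [hL, Finset.mul_sum, Real.exp_sum]
    refine Finset.prod_le_prod (fun a _ => ?_) fun a _ => ?_
    · have := hp0 a; have := hp1 a; nlinarith [mul_nonneg (hp0 a) (mul_nonneg (zero_le_one.trans hM1) (zero_le_one.trans hM1))]
    · have := Real.add_one_le_exp ((M * M - 1) * p a)
      linarith
  have b2 : 1 - L ≤ ∏ a ∈ O, (1 - p a) := by
    exact one_sub_sum_le hp0 hp1 O
  have b3 : Real.exp ((M * M - 1) * L) + L ≤ Real.exp (M * M * L) := by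
    have e0 : M * M * L = (M * M - 1) * L + L := by ring
    rw [e0, Real.exp_add]
    have c1 : 1 ≤ Real.exp ((M * M - 1) * L) := Real.one_le_exp (mul_nonneg (by nlinarith) hL0)
    have c2 := Real.add_one_le_exp L
    nlinarith
  linarith

/-- one-step estimate -/
theorem step_bound (hp0 : ∀ a, 0 ≤ p a) (hp1 : ∀ a, p a ≤ 1) {s V : Finset α} (hV : V ⊆ s)
    (A Z : Finset α → ℝ) (W : Finset α → Finset α → ℝ) (hA : ∀ t, 0 ≤ A t)
    (hAV : ∀ t₁ ⊆ V, ∀ t₂ ⊆ s \ V, A (t₁ ∪ t₂) = A t₁)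
    (hZ : Monotone Z) (hW : ∀ t₁ ⊆ V, Monotone (W t₁))
    (hZW : ∀ t₁ ⊆ V, ∀ t₂ ⊆ s \ V, Z (t₁ ∪ t₂) ≤ Z t₂ + W t₁ t₂)
    {Δ : ℝ} (hΔ : Ex p V (fun t₁ => A t₁ * Ex p (s \ V) (W t₁)) ≤ Δ * Ex p s A)
    {r : ℝ} (hr : 0 ≤ r) :
    Ex p s A * Ex p s (fun t => Real.exp (-(r * Z t))) * Real.exp (-(r * Δ)) ≤
      Ex p s (fun t => A t * Real.exp (-(r * Z t))) := by
  set Ψ := Ex p s (fun t => Real.exp (-(r * Z t))) with hΨ
  have hΨ0 : 0 ≤ Ψ := Ex_nonneg hp0 hp1 fun t _ => (Real.exp_pos _).le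
  have hAeq : Ex p s A = Ex p V A := by
    rw [Ex_sdiff p hV]
    refine Ex_congr fun t₁ ht₁ => ?_
    rw [← Ex_const p (s \ V) (A t₁)]
    exact Ex_congr fun t₂ ht₂ => hAV t₁ ht₁ t₂ ht₂
  -- the unconditioned part
  have hη : Ψ ≤ Ex p (s \ V) (fun t => Real.exp (-(r * Z t))) := by
    rw [hΨ, Ex_sdiff p hV]
    calc _ ≤ Ex p V (fun _ => Ex p (s \ V) (fun t => Real.exp (-(r * Z t)))) := by
          refine Ex_le hp0 hp1 fun t₁ _ => Ex_le hp0 hp1 fun t₂ _ => ?_
          refine Real.exp_le_exp.2 (neg_le_neg (mul_le_mul_of_nonneg_left (hZ ?_) hr))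
          exact Finset.subset_union_right
      _ = _ := Ex_const p _ _
  have h1 : ∀ t₁ ⊆ V, Ψ * Real.exp (-(r * Ex p (s \ V) (W t₁))) ≤
      Ex p (s \ V) (fun t₂ => Real.exp (-(r * Z (t₁ ∪ t₂)))) := by
    intro t₁ ht₁
    have a1 : Antitone (fun t => Real.exp (-(r * Z t))) := fun t t' h =>
      Real.exp_le_exp.2 (neg_le_neg (mul_le_mul_of_nonneg_left (hZ h) hr))
    have a2 : Antitone (fun t => Real.exp (-(r * W t₁ t))) := fun t t' h =>
      Real.exp_le_exp.2 (neg_le_neg (mul_le_mul_of_nonneg_left (hW t₁ ht₁ h) hr))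
    have a3 := harris_anti hp0 hp1 (s \ V) a1 a2
    have a4 : Real.exp (-(r * Ex p (s \ V) (W t₁))) ≤
        Ex p (s \ V) (fun t => Real.exp (-(r * W t₁ t))) := by
      have := jensen_exp hp0 hp1 (s \ V) (fun _ => 1) (fun t => r * W t₁ t) (fun _ => zero_le_one)
        (r * Ex p (s \ V) (W t₁)) (by simp [Ex_const, Ex_const_mul])
      simpa [Ex_const] using this
    calc Ψ * Real.exp (-(r * Ex p (s \ V) (W t₁)))
        ≤ Ex p (s \ V) (fun t => Real.exp (-(r * Z t))) *
            Ex p (s \ V) (fun t => Real.exp (-(r * W t₁ t))) :=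
          mul_le_mul hη a4 (Real.exp_pos _).le (hΨ0.trans hη)
      _ ≤ _ := a3
      _ ≤ _ := by
          refine Ex_le hp0 hp1 fun t₂ ht₂ => ?_
          rw [← Real.exp_add]
          refine Real.exp_le_exp.2 ?_
          have := mul_le_mul_of_nonneg_left (hZW t₁ ht₁ t₂ ht₂) hr
          linarith
  have h2 : Ex p V A * Real.exp (-(r * Δ)) ≤
      Ex p V (fun t₁ => A t₁ * Real.exp (-(r * Ex p (s \ V) (W t₁)))) := by
    refine jensen_exp hp0 hp1 V A (fun t₁ => r * Ex p (s \ V) (W t₁)) hA (r * Δ) ?_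
    have e : (fun t₁ => A t₁ * (r * Ex p (s \ V) (W t₁))) =
        (fun t₁ => r * (A t₁ * Ex p (s \ V) (W t₁))) := by funext t; ring
    rw [e, Ex_const_mul, mul_assoc, ← hAeq]
    exact mul_le_mul_of_nonneg_left hΔ hr
  calc Ex p s A * Ψ * Real.exp (-(r * Δ)) = Ψ * (Ex p V A * Real.exp (-(r * Δ))) := by
        rw [hAeq]; ring
    _ ≤ Ψ * Ex p V (fun t₁ => A t₁ * Real.exp (-(r * Ex p (s \ V) (W t₁)))) :=
        mul_le_mul_of_nonneg_left h2 hΨ0
    _ = Ex p V (fun t₁ => A t₁ * (Ψ * Real.exp (-(r * Ex p (s \ V) (W t₁))))) := by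
        rw [← Ex_const_mul]; exact Ex_congr fun t _ => by ring
    _ ≤ Ex p V (fun t₁ => A t₁ * Ex p (s \ V) (fun t₂ => Real.exp (-(r * Z (t₁ ∪ t₂))))) :=
        Ex_le hp0 hp1 fun t₁ ht₁ => mul_le_mul_of_nonneg_left (h1 t₁ ht₁) (hA t₁)
    _ = _ := by
        rw [Ex_sdiff p hV]
        refine Ex_congr fun t₁ ht₁ => ?_
        rw [← Ex_const_mul]
        exact Ex_congr fun t₂ ht₂ => by rw [hAV t₁ ht₁ t₂ ht₂]

/-- Gronwall type conclusion. -/
theorem ode_bound (hp0 : ∀ a, 0 ≤ p a) (hp1 : ∀ a, p a ≤ 1) (s : Finset α) (Z : Finset α → ℝ)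
    {Δ : ℝ} (hΔ : 0 < Δ)
    (h : ∀ r : ℝ, 0 ≤ r → Ex p s (fun t => Real.exp (-(r * Z t))) * Real.exp (-(r * Δ)) ≤
      Ex p s (fun t => Z t * Real.exp (-(r * Z t)))) (r : ℝ) (hr : 0 ≤ r) :
    Ex p s (fun t => Real.exp (-(r * Z t))) ≤ Real.exp (-((1 - Real.exp (-(r * Δ))) / Δ)) := by
  set Ψ : ℝ → ℝ := fun r => Ex p s (fun t => Real.exp (-(r * Z t))) with hΨ
  have hd : ∀ r, HasDerivAt Ψ (-Ex p s (fun t => Z t * Real.exp (-(r * Z t)))) r := by
    intro r
    have h1 : ∀ t ∈ s.powerset, HasDerivAt (fun r : ℝ => (∏ a ∈ t, p a) * (∏ a ∈ s \ t, (1 - p a)) *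
        Real.exp (-(r * Z t))) ((∏ a ∈ t, p a) * (∏ a ∈ s \ t, (1 - p a)) *
        (Real.exp (-(r * Z t)) * (-(1 * Z t)))) r := by
      intro t _
      exact ((((hasDerivAt_id r).mul_const (Z t)).neg).exp).const_mul _
    have h2 := HasDerivAt.fun_sum h1
    have h3 : (∑ t ∈ s.powerset, (∏ a ∈ t, p a) * (∏ a ∈ s \ t, (1 - p a)) *
        (Real.exp (-(r * Z t)) * (-(1 * Z t)))) = -Ex p s (fun t => Z t * Real.exp (-(r * Z t))) := by
      unfold Ex
      rw [← Finset.sum_neg_distrib]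
      exact Finset.sum_congr rfl fun t _ => by ring
    rw [h3] at h2
    exact h2
  set g : ℝ → ℝ := fun r => Ψ r * Real.exp ((1 - Real.exp (-(r * Δ))) / Δ) with hg
  have hgd : ∀ r, HasDerivAt g ((-Ex p s (fun t => Z t * Real.exp (-(r * Z t)))) *
      Real.exp ((1 - Real.exp (-(r * Δ))) / Δ) + Ψ r * (Real.exp ((1 - Real.exp (-(r * Δ))) / Δ) *
      (Real.exp (-(r * Δ))))) r := by
    intro r
    have e1 : HasDerivAt (fun r : ℝ => Real.exp (-(r * Δ))) (Real.exp (-(r * Δ)) * (-(1 * Δ))) r :=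
      (((hasDerivAt_id r).mul_const Δ).neg).exp
    have e2 : HasDerivAt (fun r : ℝ => (1 - Real.exp (-(r * Δ))) / Δ) (Real.exp (-(r * Δ))) r := by
      have := (e1.const_sub 1).div_const Δ
      have e3 : -(Real.exp (-(r * Δ)) * -(1 * Δ)) / Δ = Real.exp (-(r * Δ)) := by
        rw [div_eq_iff hΔ.ne']; ring
      rw [e3] at this
      exact this
    exact (hd r).mul e2.exp
  have hanti : AntitoneOn g (Set.Ici 0) := by
    refine antitoneOn_of_deriv_nonpos (convex_Ici 0)
      (fun r _ => (hgd r).continuousAt.continuousWithinAt)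
      (fun r _ => (hgd r).differentiableAt.differentiableWithinAt) ?_
    intro r hr
    rw [interior_Ici] at hr
    rw [(hgd r).deriv]
    have h1 := h r (le_of_lt hr)
    have h2 := Real.exp_pos ((1 - Real.exp (-(r * Δ))) / Δ)
    have h3 : (-Ex p s (fun t => Z t * Real.exp (-(r * Z t)))) *
      Real.exp ((1 - Real.exp (-(r * Δ))) / Δ) + Ψ r * (Real.exp ((1 - Real.exp (-(r * Δ))) / Δ) *
      (Real.exp (-(r * Δ)))) = Real.exp ((1 - Real.exp (-(r * Δ))) / Δ) *
      (Ψ r * Real.exp (-(r * Δ)) - Ex p s (fun t => Z t * Real.exp (-(r * Z t)))) := by ring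
    rw [h3]
    exact mul_nonpos_of_nonneg_of_nonpos h2.le (by linarith)
  have hle : g r ≤ g 0 := hanti (Set.mem_Ici.2 le_rfl) (Set.mem_Ici.2 hr) hr
  have hg0 : g 0 = 1 := by simp [hg, hΨ, Ex_const]
  rw [hg0] at hle
  have h4 : Ψ r * Real.exp ((1 - Real.exp (-(r * Δ))) / Δ) ≤ 1 := hle
  rw [Real.exp_neg, ← one_div, le_div_iff₀ (Real.exp_pos _)]
  exact h4

end core

theorem janson_hit {α ι κ : Type*} [DecidableEq α] [DecidableEq κ]
    (p : α → ℝ) (hp0 : ∀ a, 0 ≤ p a) (hp1 : ∀ a, p a ≤ 1)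
    (s : Finset α) (Y : Finset ι) (hY : Y.Nonempty)
    (T : ι → Finset κ) (U : ι → κ → Finset α) (hU : ∀ y ∈ Y, ∀ j ∈ T y, U y j ⊆ s)
    (π a Δ : ℝ) (k : ℕ) (hπ : 0 < π) (hπ1 : π ≤ 1)
    (hhit : ∀ y ∈ Y, ∀ j ∈ T y, π ≤ 1 - ∏ v ∈ U y j, (1 - p v))
    (hk : ∀ y ∈ Y, ∀ v ∈ s, ((T y).filter (fun j => v ∈ U y j)).card ≤ k)
    (ha : 0 < a)
    (hA : ∀ y ∈ Y, a ≤ ∏ j ∈ T y, (1 - ∏ v ∈ U y j, (1 - p v)))
    (D : ι → ι → ℝ)
    (hD : ∀ y ∈ Y, ∀ y' ∈ Y, 1 / a ≤ D y y' ∨
      Real.exp ((1 / π) ^ (2 * k) * ∑ v ∈ (T y).biUnion (U y) ∩ (T y').biUnion (U y'), p v) - 1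
        ≤ D y y')
    (hΔ : 0 < Δ) (hDΔ : ∀ y ∈ Y, ∑ y' ∈ Y, D y y' ≤ Δ * Y.card) :
    Ex p s (fun t => if ∀ y ∈ Y, ∃ j ∈ T y, t ∩ U y j = ∅ then 1 else 0)
      ≤ Real.exp (-(1 / (2 * Δ))) := by
  classical
  have hcard : (0:ℝ) < Y.card := by exact_mod_cast hY.card_pos
  set P : ι → ℝ := fun y => Ex p s (AA (T y) (U y)) with hP
  have hPa : ∀ y ∈ Y, a ≤ P y := by
    intro y hy
    refine (hA y hy).trans ?_
    refine le_trans (le_of_eq ?_) (harris_prod hp0 hp1 s (T y) (fun j => hh (U y j))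
      (fun j _ => hh_mono _) (fun j _ t => hh_nonneg _ _))
    exact Finset.prod_congr rfl fun j hj => (Ex_hh (hU y hy j hj)).symm
  have hP0 : ∀ y ∈ Y, 0 < P y := fun y hy => ha.trans_le (hPa y hy)
  set Z : Finset α → ℝ := fun t => (1 / Y.card : ℝ) * ∑ y ∈ Y, AA (T y) (U y) t / P y with hZ
  have hZmono : Monotone Z := by
    intro t t' h
    refine mul_le_mul_of_nonneg_left (Finset.sum_le_sum fun y hy => ?_) (by positivity)
    exact div_le_div_of_nonneg_right (AA_mono _ _ h) (hP0 y hy).le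
  -- the main differential inequality
  have hmain : ∀ r : ℝ, 0 ≤ r → Ex p s (fun t => Real.exp (-(r * Z t))) * Real.exp (-(r * Δ)) ≤
      Ex p s (fun t => Z t * Real.exp (-(r * Z t))) := by
    intro r hr
    have hstep : ∀ y ∈ Y, Ex p s (fun t => Real.exp (-(r * Z t))) * Real.exp (-(r * Δ)) ≤
        Ex p s (fun t => AA (T y) (U y) t * Real.exp (-(r * Z t))) / P y := by
      intro y hy
      set V := (T y).biUnion (U y) with hV
      have hVs : V ⊆ s := Finset.biUnion_subset.2 (hU y hy)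
      set W : Finset α → Finset α → ℝ := fun t₁ t₂ => (1 / Y.card : ℝ) * ∑ y' ∈ Y,
        (AA (T y') (U y') (t₁ ∪ t₂) * (if t₁ ∩ (T y').biUnion (U y') = ∅ then 0 else 1)) / P y'
        with hW
      have hsb := step_bound hp0 hp1 hVs (AA (T y) (U y)) Z W (fun t => AA_nonneg _ _ _)
        (fun t₁ ht₁ t₂ ht₂ => by
          refine AA_congr ?_
          rw [Finset.union_inter_distrib_right]
          have : t₂ ∩ (T y).biUnion (U y) = ∅ := by
            rw [Finset.eq_empty_iff_forall_notMem]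
            intro x hx
            rw [Finset.mem_inter] at hx
            exact (Finset.mem_sdiff.1 (ht₂ hx.1)).2 hx.2
          rw [this, Finset.union_empty])
        hZmono
        (fun t₁ _ t t' h => by
          refine mul_le_mul_of_nonneg_left (Finset.sum_le_sum fun y' hy' => ?_) (by positivity)
          refine div_le_div_of_nonneg_right (mul_le_mul_of_nonneg_right
            (AA_mono _ _ (Finset.union_subset_union_right h)) ?_) (hP0 y' hy').le
          split_ifs <;> norm_num)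
        (fun t₁ ht₁ t₂ ht₂ => by
          rw [hZ, hW]
          simp only
          rw [← mul_add, ← Finset.sum_add_distrib]
          refine mul_le_mul_of_nonneg_left (Finset.sum_le_sum fun y' hy' => ?_) (by positivity)
          rw [← add_div]
          refine div_le_div_of_nonneg_right ?_ (hP0 y' hy').le
          by_cases hc : t₁ ∩ (T y').biUnion (U y') = ∅
          · rw [if_pos hc, mul_zero, add_zero]
            refine le_of_eq (AA_congr ?_)
            rw [Finset.union_inter_distrib_right, hc, Finset.empty_union]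
          · rw [if_neg hc, mul_one]
            linarith [AA_nonneg (T y') (U y') t₂])
        (Δ := Δ) (by
          -- compute
          have e1 : ∀ t₁, Ex p (s \ V) (W t₁) = (1 / Y.card : ℝ) * ∑ y' ∈ Y,
              Ex p (s \ V) (fun t₂ => AA (T y') (U y') (t₁ ∪ t₂) *
                (if t₁ ∩ (T y').biUnion (U y') = ∅ then 0 else 1)) / P y' := by
            intro t₁
            rw [hW]
            simp only
            rw [Ex_const_mul, Ex_sum]
            congr 1
            refine Finset.sum_congr rfl fun y' _ => ?_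
            have := Ex_mul_const p (s \ V) (1 / P y') (fun t₂ => AA (T y') (U y') (t₁ ∪ t₂) *
                (if t₁ ∩ (T y').biUnion (U y') = ∅ then 0 else 1))
            simp only [mul_one_div] at this
            exact this
          have e2 : Ex p V (fun t₁ => AA (T y) (U y) t₁ * Ex p (s \ V) (W t₁)) =
              (1 / Y.card : ℝ) * ∑ y' ∈ Y, (Ex p V (fun t₁ => AA (T y) (U y) t₁ *
              Ex p (s \ V) (fun t₂ => AA (T y') (U y') (t₁ ∪ t₂) *
                (if t₁ ∩ (T y').biUnion (U y') = ∅ then 0 else 1)))) / P y' := by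
            have e3 : (fun t₁ => AA (T y) (U y) t₁ * Ex p (s \ V) (W t₁)) =
              (fun t₁ => (1 / Y.card : ℝ) * ∑ y' ∈ Y, (AA (T y) (U y) t₁ *
              Ex p (s \ V) (fun t₂ => AA (T y') (U y') (t₁ ∪ t₂) *
                (if t₁ ∩ (T y').biUnion (U y') = ∅ then 0 else 1))) / P y') := by
              funext t₁
              rw [e1 t₁]
              rw [mul_left_comm, Finset.mul_sum]
              congr 1
              exact Finset.sum_congr rfl fun y' _ => by rw [mul_div_assoc]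
            rw [e3, Ex_const_mul, Ex_sum]
            congr 1
            refine Finset.sum_congr rfl fun y' _ => ?_
            have := Ex_mul_const p V (1 / P y') (fun t₁ => AA (T y) (U y) t₁ *
              Ex p (s \ V) (fun t₂ => AA (T y') (U y') (t₁ ∪ t₂) *
                (if t₁ ∩ (T y').biUnion (U y') = ∅ then 0 else 1)))
            simp only [mul_one_div] at this
            exact this
          rw [e2]
          have e4 : ∀ y' ∈ Y, (Ex p V (fun t₁ => AA (T y) (U y) t₁ *
              Ex p (s \ V) (fun t₂ => AA (T y') (U y') (t₁ ∪ t₂) *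
                (if t₁ ∩ (T y').biUnion (U y') = ∅ then 0 else 1)))) / P y' ≤ P y * D y y' := by
            intro y' hy'
            rw [div_le_iff₀ (hP0 y' hy')]
            rcases hD y hy y' hy' with h | h
            · have f1 : Ex p V (fun t₁ => AA (T y) (U y) t₁ *
                  Ex p (s \ V) (fun t₂ => AA (T y') (U y') (t₁ ∪ t₂) *
                  (if t₁ ∩ (T y').biUnion (U y') = ∅ then 0 else 1))) ≤ P y := by
                calc _ ≤ Ex p V (AA (T y) (U y)) := by
                      refine Ex_le hp0 hp1 fun t₁ _ => ?_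
                      refine mul_le_of_le_one_right (AA_nonneg _ _ _) ?_
                      refine le_trans ?_ (le_of_eq (Ex_const p (s \ V) 1))
                      refine Ex_le hp0 hp1 fun t₂ _ => ?_
                      have g1 := AA_le_one (T y') (U y') (t₁ ∪ t₂)
                      have g2 := AA_nonneg (T y') (U y') (t₁ ∪ t₂)
                      split_ifs <;> linarith
                  _ ≤ P y := Ex_mono_set hp0 hp1 hVs (AA_mono _ _)
              refine f1.trans ?_
              have f2 : 1 ≤ D y y' * P y' := by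
                calc (1:ℝ) = (1 / a) * a := by field_simp
                  _ ≤ D y y' * P y' := mul_le_mul h (hPa y' hy') ha.le
                    ((by positivity : (0:ℝ) ≤ 1 / a).trans h)
              nlinarith [hP0 y hy]
            · have f1 := pair_bound hp0 hp1 (T y) (T y') (U y) (U y') (hU y hy) (hU y' hy')
                hπ hπ1 (hhit y hy) (hhit y' hy') (hk y hy) (hk y' hy')
              refine f1.trans ?_
              have f2 : 0 ≤ P y * P y' := mul_nonneg (hP0 y hy).le (hP0 y' hy').le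
              calc _ ≤ P y * P y' * D y y' := mul_le_mul_of_nonneg_left h f2
                _ = _ := by ring
          calc _ ≤ (1 / Y.card : ℝ) * ∑ y' ∈ Y, P y * D y y' :=
                mul_le_mul_of_nonneg_left (Finset.sum_le_sum e4) (by positivity)
            _ = (1 / Y.card : ℝ) * (P y * ∑ y' ∈ Y, D y y') := by rw [← Finset.mul_sum]
            _ ≤ (1 / Y.card : ℝ) * (P y * (Δ * Y.card)) := by
                refine mul_le_mul_of_nonneg_left (mul_le_mul_of_nonneg_left (hDΔ y hy)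
                  (hP0 y hy).le) (by positivity)
            _ = Δ * P y := by field_simp) hr
      rw [le_div_iff₀ (hP0 y hy)]
      calc _ = P y * Ex p s (fun t => Real.exp (-(r * Z t))) * Real.exp (-(r * Δ)) := by ring
        _ ≤ _ := hsb
    have hsum := Finset.sum_le_sum hstep
    rw [Finset.sum_const, nsmul_eq_mul] at hsum
    have e5 : Ex p s (fun t => Z t * Real.exp (-(r * Z t))) = (1 / Y.card : ℝ) *
        ∑ y ∈ Y, Ex p s (fun t => AA (T y) (U y) t * Real.exp (-(r * Z t))) / P y := by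
      have e6 : (fun t => Z t * Real.exp (-(r * Z t))) = (fun t => (1 / Y.card : ℝ) *
          ∑ y ∈ Y, (AA (T y) (U y) t * Real.exp (-(r * Z t))) * (1 / P y)) := by
        funext t
        have e7 : Z t = (1 / Y.card : ℝ) * ∑ y ∈ Y, AA (T y) (U y) t / P y := rfl
        conv_lhs => rw [e7, mul_assoc, Finset.sum_mul]
        congr 1
        refine Finset.sum_congr rfl fun y _ => ?_
        rw [← e7]; ring
      rw [e6, Ex_const_mul, Ex_sum]
      congr 1
      refine Finset.sum_congr rfl fun y _ => ?_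
      rw [Ex_mul_const]; ring
    rw [e5]
    calc _ = (1 / Y.card : ℝ) * (Y.card * (Ex p s (fun t => Real.exp (-(r * Z t))) *
          Real.exp (-(r * Δ)))) := by field_simp
      _ ≤ _ := mul_le_mul_of_nonneg_left hsum (by positivity)
  have hr0 : 0 ≤ Real.log 2 / Δ := div_nonneg (Real.log_nonneg (by norm_num)) hΔ.le
  have hfin := ode_bound hp0 hp1 s Z hΔ hmain (Real.log 2 / Δ) hr0
  have e8 : Real.exp (-(Real.log 2 / Δ * Δ)) = 1 / 2 := by
    rw [div_mul_cancel₀ _ hΔ.ne', Real.exp_neg, Real.exp_log (by norm_num)]; norm_num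
  rw [e8] at hfin
  have e9 : -((1 - 1 / 2 : ℝ) / Δ) = -(1 / (2 * Δ)) := by field_simp; norm_num
  rw [e9] at hfin
  refine le_trans ?_ hfin
  refine Ex_le hp0 hp1 fun t _ => ?_
  split_ifs with hcond
  · have hZt : Z t = 0 := by
      rw [hZ]
      simp only
      rw [Finset.sum_eq_zero, mul_zero]
      intro y hy
      obtain ⟨j, hj, hjt⟩ := hcond y hy
      have : AA (T y) (U y) t = 0 := by
        unfold AA
        refine Finset.prod_eq_zero hj ?_
        unfold hh
        rw [if_pos hjt]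
      rw [this, zero_div]
    rw [hZt]; simp
  · exact (Real.exp_pos _).le

end Crest.Agent.R225.LB
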