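import Crest.Agent.R225.LB.NuBasic
import Crest.Agent.R225.LB.Cluster
import Crest.Agent.R225.LB.Janson

/-!
Row 225, S0348, module D (part 1): the probability estimate for one configuration, for a fixed
dimension with abstract numerical parameters (`config_core`).
-/

set_option autoImplicit false

namespace Crest.Agent.R225.LB

open MeasureTheory ProbabilityTheory Finset Filter

lemma Ex_mono {α : Type*} [DecidableEq α] (p : α → ℝ) (hp0 : ∀ a, 0 ≤ p a) (hp1 : ∀ a, p a ≤ 1)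
    (s : Finset α) (f g : Finset α → ℝ) (h : ∀ t, f t ≤ g t) : Ex p s f ≤ Ex p s g := by
  unfold Ex
  refine Finset.sum_le_sum fun t _ => ?_
  refine mul_le_mul_of_nonneg_left (h t) ?_
  exact mul_nonneg (Finset.prod_nonneg fun a _ => hp0 a)
    (Finset.prod_nonneg fun a _ => sub_nonneg.mpr (hp1 a))

lemma one_sub_exp_neg_ge {w a : ℝ} (ha0 : 0 ≤ a) (ha1 : a ≤ 1) (h : a ≤ w) :
    a / 2 ≤ 1 - Real.exp (-w) := by
  have h1 : Real.exp (-w) ≤ Real.exp (-a) := Real.exp_le_exp.mpr (by linarith)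
  have h2 : Real.exp (-a) ≤ 1 - a / 2 := by
    have := Real.exp_bound_div_one_sub_of_interval ha0
    have h3 : (1 + a) * (1 - a/2) ≥ 1 := by nlinarith
    have h4 : 1 + a ≤ Real.exp a := by linarith [Real.add_one_le_exp a]
    rw [Real.exp_neg, inv_le_comm₀ (Real.exp_pos a) (by linarith)]
    refine le_trans ?_ h4
    rw [inv_le_iff_one_le_mul₀ (by linarith)]
    linarith
  linarith

lemma exp_sub_one_le {s c : ℝ} (hs : s ≤ c) (h0 : 0 ≤ c) (hc : c ≤ 1 / 2) :
    Real.exp s - 1 ≤ 2 * c := by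
  have h1 : Real.exp s ≤ Real.exp c := Real.exp_le_exp.mpr hs
  have h2 : Real.exp c ≤ 1 + 2 * c := by
    have h3 : 1 - c ≤ Real.exp (-c) := by linarith [Real.add_one_le_exp (-c)]
    have h4 : Real.exp c * Real.exp (-c) = 1 := by rw [← Real.exp_add]; simp
    have h5 : Real.exp c * (1 - c) ≤ 1 :=
      (mul_le_mul_of_nonneg_left h3 (Real.exp_pos c).le).trans_eq h4
    by_contra h6
    push Not at h6
    have h7 : (1 + 2 * c) * (1 - c) < Real.exp c * (1 - c) :=
      mul_lt_mul_of_pos_right h6 (by linarith)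
    nlinarith
  linarith

lemma qw_nonneg {n : ℕ} (z : EE n) : 0 ≤ qw n z := by
  unfold qw
  refine Finset.sum_nonneg fun j _ => mul_nonneg (Real.exp_pos _).le ?_
  split_ifs <;> norm_num

lemma one_le_qw {n : ℕ} (hn : 1 ≤ n) (z : EE n) (hz : ‖z‖ ≤ 1 + eta n) : 1 ≤ qw n z := by
  classical
  unfold qw
  have h0 : (0 : ℕ) ∈ Finset.range n := Finset.mem_range.mpr hn
  refine le_trans ?_ (Finset.single_le_sum (f := fun j : ℕ => Real.exp ((j : ℝ) / 2) *
    (if ‖z‖ ≤ 1 + eta n - (j : ℝ) / n then (1 : ℝ) else 0)) (fun j _ => ?_) h0)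
  · simp [hz]
  · refine mul_nonneg (Real.exp_pos _).le ?_
    split_ifs <;> norm_num

section core

variable {n : ℕ}

open scoped Classical in
/-- translation vectors relevant for `y`. -/
noncomputable def Irel (X : Finset (EE n)) (y : EE n) : Finset (EE n) :=
  X.filter (fun x => ‖y - x‖ ≤ 1 + eta n)

open scoped Classical in
/-- targets: singletons of the dispersed part `S₀` and the clusters. -/
noncomputable def Tg (S₀ : Finset (EE n)) (C : Finset (Finset (EE n))) :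
    Finset (Finset (EE n) × Bool) :=
  S₀.image (fun x => (({x} : Finset (EE n)), false)) ∪ C.image (fun S => (S, true))

open scoped Classical in
/-- patterns which serve the target `j` of `y`. -/
noncomputable def Ug (G S₀ : Finset (EE n)) (k : ℕ) (y : EE n) (j : Finset (EE n) × Bool) :
    Finset (Finset (EE n)) :=
  G.powerset.filter (fun v => (∀ x ∈ j.1, y - x ∈ v) ∧
    (j.2 = false → (S₀.filter (fun x' => y - x' ∈ v)).card ≤ k))

lemma mem_Irel {X : Finset (EE n)} {y x : EE n} :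
    x ∈ Irel X y ↔ x ∈ X ∧ ‖y - x‖ ≤ 1 + eta n := by
  classical
  unfold Irel; rw [Finset.mem_filter]

lemma mem_Tg {S₀ : Finset (EE n)} {C : Finset (Finset (EE n))} {j : Finset (EE n) × Bool} :
    j ∈ Tg S₀ C ↔ (∃ x ∈ S₀, j = ({x}, false)) ∨ (∃ S ∈ C, j = (S, true)) := by
  classical
  unfold Tg
  simp only [Finset.mem_union, Finset.mem_image]
  constructor
  · rintro (⟨x, h1, h2⟩ | ⟨x, h1, h2⟩)
    · exact Or.inl ⟨x, h1, h2.symm⟩
    · exact Or.inr ⟨x, h1, h2.symm⟩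
  · rintro (⟨x, h1, h2⟩ | ⟨x, h1, h2⟩)
    · exact Or.inl ⟨x, h1, h2.symm⟩
    · exact Or.inr ⟨x, h1, h2.symm⟩

open scoped Classical in
lemma mem_Ug {G S₀ : Finset (EE n)} {k : ℕ} {y : EE n} {j : Finset (EE n) × Bool}
    {v : Finset (EE n)} :
    v ∈ Ug G S₀ k y j ↔ v ⊆ G ∧ (∀ x ∈ j.1, y - x ∈ v) ∧
    (j.2 = false → (S₀.filter (fun x' => y - x' ∈ v)).card ≤ k) := by
  unfold Ug
  rw [Finset.mem_filter, Finset.mem_powerset]

lemma card_Irel_le (hn : 1 ≤ n) (X : Finset (EE n)) (y : EE n) :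
    ((Irel X y).card : ℝ) ≤ ∑ x ∈ X, qw n (y - x) := by
  classical
  have h1 : ((Irel X y).card : ℝ) ≤ ∑ x ∈ Irel X y, qw n (y - x) := by
    rw [Finset.card_eq_sum_ones]
    push_cast
    exact Finset.sum_le_sum fun x hx => one_le_qw hn _ (mem_Irel.mp hx).2
  refine h1.trans (Finset.sum_le_sum_of_subset_of_nonneg (fun x hx => (mem_Irel.mp hx).1) ?_)
  intro x _ _
  exact qw_nonneg _

lemma qw_le_sum (X : Finset (EE n)) (y x : EE n) (hx : x ∈ X) :
    qw n (y - x) ≤ ∑ x ∈ X, qw n (y - x) :=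
  Finset.single_le_sum (f := fun x => qw n (y - x)) (fun _ _ => qw_nonneg _) hx

open scoped Classical in
/-- weight of a singleton target. -/
lemma nu_single_ge {G S₀ : Finset (EE n)} {k : ℕ} {y x : EE n} {ε E : ℝ}
    (hx : x ∈ S₀) (hG : ∀ x ∈ S₀, y - x ∈ G)
    (hk : (S₀.filter (fun x' => dist x' x ≤ ε)).card < k)
    (hE : ∀ x' ∈ S₀, ε < dist x' x → nu n (kill n (y - x) ∩ kill n (y - x')) ≤ E) (hE0 : 0 ≤ E) :
    nu n (kill n (y - x)) ≤
      nu n {u | pat n G u ∈ Ug G S₀ k y ({x}, false)} + S₀.card * E := by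
  have hsub : kill n (y - x) ⊆ {u | pat n G u ∈ Ug G S₀ k y ({x}, false)} ∪
      ⋃ x' ∈ S₀.filter (fun x' => ε < dist x' x), (kill n (y - x) ∩ kill n (y - x')) := by
    intro u hu
    by_cases h : ∃ x' ∈ S₀, ε < dist x' x ∧ u ∈ kill n (y - x')
    · right
      obtain ⟨x', h1, h2, h3⟩ := h
      simp only [Set.mem_iUnion, exists_prop]
      exact ⟨x', Finset.mem_filter.mpr ⟨h1, h2⟩, hu, h3⟩
    · left
      push Not at h
      change pat n G u ∈ Ug G S₀ k y ({x}, false)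
      rw [mem_Ug]
      refine ⟨Finset.mem_powerset.mp (pat_mem_powerset G u), ?_, ?_⟩
      · intro x' hx'
        simp only [Finset.mem_singleton] at hx'
        subst hx'
        exact mem_pat.mpr ⟨hG _ hx, hu⟩
      · intro _
        refine le_trans (Finset.card_le_card ?_) hk.le
        intro x' hx'
        rw [Finset.mem_filter] at hx' ⊢
        refine ⟨hx'.1, ?_⟩
        by_contra hc
        push Not at hc
        exact h x' hx'.1 hc (mem_pat.mp hx'.2).2
  refine (nb_nu_mono hsub).trans ((nu_union_le _ _).trans (add_le_add_right ?_ _))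
  refine (nu_biUnion_le _ _).trans ?_
  calc ∑ x' ∈ S₀.filter (fun x' => ε < dist x' x), nu n (kill n (y - x) ∩ kill n (y - x'))
      ≤ ∑ x' ∈ S₀.filter (fun x' => ε < dist x' x), E := by
        refine Finset.sum_le_sum fun x' hx' => ?_
        rw [Finset.mem_filter] at hx'
        exact hE x' hx'.1 hx'.2
    _ = (S₀.filter (fun x' => ε < dist x' x)).card * E := by
        rw [Finset.sum_const, nsmul_eq_mul]
    _ ≤ S₀.card * E := by
        refine mul_le_mul_of_nonneg_right ?_ hE0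
        exact_mod_cast Finset.card_filter_le _ _

/-- weight of a cluster target. -/
lemma nu_cluster_ge {G S₀ S : Finset (EE n)} {k : ℕ} {y : EE n}
    (hG : ∀ x ∈ S, y - x ∈ G) :
    nu n {u | ∀ x ∈ S, u ∈ kill n (y - x)} ≤ nu n {u | pat n G u ∈ Ug G S₀ k y (S, true)} := by
  classical
  refine nb_nu_mono ?_
  intro u hu
  change pat n G u ∈ Ug G S₀ k y (S, true)
  rw [mem_Ug]
  refine ⟨Finset.mem_powerset.mp (pat_mem_powerset G u), ?_, ?_⟩
  · intro x hx
    exact mem_pat.mpr ⟨hG x hx, hu x hx⟩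
  · intro h
    simp at h

lemma card_targets_le (G S₀ : Finset (EE n)) (C : Finset (Finset (EE n))) (k : ℕ) (y : EE n)
    (v : Finset (EE n)) :
    ((Tg S₀ C).filter (fun j => v ∈ Ug G S₀ k y j)).card ≤ k + C.card := by
  classical
  have hsub : (Tg S₀ C).filter (fun j => v ∈ Ug G S₀ k y j) ⊆
      (S₀.filter (fun x => v ∈ Ug G S₀ k y ({x}, false))).image
        (fun x => (({x} : Finset (EE n)), false)) ∪ C.image (fun S => (S, true)) := by
    intro j hj
    rw [Finset.mem_filter, mem_Tg] at hj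
    rw [Finset.mem_union, Finset.mem_image, Finset.mem_image]
    obtain ⟨⟨x, hx, rfl⟩ | ⟨S, hS, rfl⟩, hv⟩ := hj
    · left
      exact ⟨x, Finset.mem_filter.mpr ⟨hx, hv⟩, rfl⟩
    · right
      exact ⟨S, hS, rfl⟩
  refine (Finset.card_le_card hsub).trans ((Finset.card_union_le _ _).trans ?_)
  refine Nat.add_le_add (Finset.card_image_le.trans ?_) Finset.card_image_le
  by_cases hne : (S₀.filter (fun x => v ∈ Ug G S₀ k y ({x}, false))).Nonempty
  · obtain ⟨x₀, hx₀⟩ := hne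
    rw [Finset.mem_filter, mem_Ug] at hx₀
    refine le_trans (Finset.card_le_card ?_) (hx₀.2.2.2 rfl)
    intro x hx
    rw [Finset.mem_filter, mem_Ug] at hx
    rw [Finset.mem_filter]
    exact ⟨hx.1, hx.2.2.1 x (Finset.mem_singleton_self x)⟩
  · rw [Finset.not_nonempty_iff_eq_empty] at hne
    rw [hne]
    simp

/-- the joint mass of patterns serving both `y` and `y'`. -/
lemma sum_pp_inter_le {G : Finset (EE n)} {I I' S₀ S₀' : Finset (EE n)}
    {C C' : Finset (Finset (EE n))} {k k' : ℕ} {y y' : EE n} {E : ℝ}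
    (hS₀ : S₀ ⊆ I) (hC : ∀ S ∈ C, S ⊆ I ∧ S.Nonempty)
    (hS₀' : S₀' ⊆ I') (hC' : ∀ S ∈ C', S ⊆ I' ∧ S.Nonempty)
    (hE : ∀ x ∈ I, ∀ x' ∈ I', nu n (kill n (y - x) ∩ kill n (y' - x')) ≤ E) :
    ∑ v ∈ (Tg S₀ C).biUnion (Ug G S₀ k y) ∩ (Tg S₀' C').biUnion (Ug G S₀' k' y'), pp n G v ≤
      I.card * I'.card * E := by
  classical
  have key : ∀ (J : Finset (EE n)) (K : Finset (Finset (EE n))) (J₀ : Finset (EE n)) (l : ℕ)
      (w : EE n), J₀ ⊆ J → (∀ S ∈ K, S ⊆ J ∧ S.Nonempty) → ∀ v ∈ (Tg J₀ K).biUnion (Ug G J₀ l w),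
      ∃ x ∈ J, w - x ∈ v := by
    intro J K J₀ l w hJ hK v hv
    rw [Finset.mem_biUnion] at hv
    obtain ⟨j, hj, hv⟩ := hv
    rw [mem_Tg] at hj
    rw [mem_Ug] at hv
    obtain ⟨x, hx, rfl⟩ | ⟨S, hS, rfl⟩ := hj
    · exact ⟨x, hJ hx, hv.2.1 x (Finset.mem_singleton_self x)⟩
    · obtain ⟨x, hx⟩ := (hK S hS).2
      exact ⟨x, (hK S hS).1 hx, hv.2.1 x hx⟩
  refine (sum_pp_le _ _).trans ?_
  have hsub : {u | pat n G u ∈ (Tg S₀ C).biUnion (Ug G S₀ k y) ∩
      (Tg S₀' C').biUnion (Ug G S₀' k' y')} ⊆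
      ⋃ q ∈ I ×ˢ I', (kill n (y - q.1) ∩ kill n (y' - q.2)) := by
    intro u hu
    have hu : pat n G u ∈ (Tg S₀ C).biUnion (Ug G S₀ k y) ∩
      (Tg S₀' C').biUnion (Ug G S₀' k' y') := hu
    rw [Finset.mem_inter] at hu
    obtain ⟨x, hx, hxv⟩ := key I C S₀ k y hS₀ hC _ hu.1
    obtain ⟨x', hx', hxv'⟩ := key I' C' S₀' k' y' hS₀' hC' _ hu.2
    simp only [Set.mem_iUnion, exists_prop]
    exact ⟨(x, x'), Finset.mem_product.mpr ⟨hx, hx'⟩, (mem_pat.mp hxv).2, (mem_pat.mp hxv').2⟩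
  refine (nb_nu_mono hsub).trans ((nu_biUnion_le _ _).trans ?_)
  calc ∑ q ∈ I ×ˢ I', nu n (kill n (y - q.1) ∩ kill n (y' - q.2))
      ≤ ∑ q ∈ I ×ˢ I', E := by
        refine Finset.sum_le_sum fun q hq => ?_
        rw [Finset.mem_product] at hq
        exact hE _ hq.1 _ hq.2
    _ = I.card * I'.card * E := by
        rw [Finset.sum_const, nsmul_eq_mul, Finset.card_product]
        push_cast
        ring

open scoped Classical in
/-- number of `y'` near to `y`. -/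
lemma near_count_le {X Y : Finset (EE n)} {y : EE n} {r N B : ℝ} (hB : 0 ≤ B)
    (hX : (X.card : ℝ) ≤ 3 ^ n) (hI : ((Irel X y).card : ℝ) ≤ N)
    (hcount : ∀ p : EE n, ((Y.filter (fun y' => dist y' p ≤ r)).card : ℝ) ≤ B) :
    ((Y.filter (fun y' => ∃ x ∈ Irel X y, ∃ x' ∈ Irel X y',
      ‖(y - x) - (y' - x')‖ ≤ r)).card : ℝ) ≤ N * (3 ^ n * B) := by
  have hN : 0 ≤ N := le_trans (Nat.cast_nonneg _) hI
  have hsub : Y.filter (fun y' => ∃ x ∈ Irel X y, ∃ x' ∈ Irel X y',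
      ‖(y - x) - (y' - x')‖ ≤ r) ⊆
      (Irel X y).biUnion (fun x => X.biUnion (fun x' =>
        Y.filter (fun y' => dist y' (y - x + x') ≤ r))) := by
    intro y' hy'
    rw [Finset.mem_filter] at hy'
    obtain ⟨hy', x, hx, x', hx', hr⟩ := hy'
    rw [Finset.mem_biUnion]
    refine ⟨x, hx, ?_⟩
    rw [Finset.mem_biUnion]
    refine ⟨x', (mem_Irel.mp hx').1, ?_⟩
    rw [Finset.mem_filter]
    refine ⟨hy', ?_⟩
    rw [dist_comm, dist_eq_norm]
    have : y - x + x' - y' = (y - x) - (y' - x') := by abel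
    rw [this]
    exact hr
  have h1 : ((Y.filter (fun y' => ∃ x ∈ Irel X y, ∃ x' ∈ Irel X y',
      ‖(y - x) - (y' - x')‖ ≤ r)).card : ℝ) ≤
      ∑ x ∈ Irel X y, ∑ x' ∈ X, ((Y.filter (fun y' => dist y' (y - x + x') ≤ r)).card : ℝ) := by
    have := (Finset.card_le_card hsub).trans (Finset.card_biUnion_le.trans
      (Finset.sum_le_sum fun x _ => Finset.card_biUnion_le))
    exact_mod_cast this
  refine h1.trans ?_
  calc ∑ x ∈ Irel X y, ∑ x' ∈ X, ((Y.filter (fun y' => dist y' (y - x + x') ≤ r)).card : ℝ)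
      ≤ ∑ x ∈ Irel X y, ∑ x' ∈ X, B :=
        Finset.sum_le_sum fun x _ => Finset.sum_le_sum fun x' _ => hcount _
    _ = (Irel X y).card * (X.card * B) := by
        simp only [Finset.sum_const, nsmul_eq_mul]
    _ ≤ N * (3 ^ n * B) := by
        refine mul_le_mul hI (mul_le_mul_of_nonneg_right hX hB) (by positivity) hN

lemma prod_Tg (S₀ : Finset (EE n)) (C : Finset (Finset (EE n)))
    (f : Finset (EE n) × Bool → ℝ) :
    ∏ j ∈ Tg S₀ C, f j = (∏ x ∈ S₀, f ({x}, false)) * ∏ S ∈ C, f (S, true) := by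
  classical
  have hT : Tg S₀ C = S₀.image (fun x => (({x} : Finset (EE n)), false)) ∪
      C.image (fun S => (S, true)) := by
    ext j
    rw [mem_Tg, Finset.mem_union, Finset.mem_image, Finset.mem_image]
    constructor
    · rintro (⟨x, h1, h2⟩ | ⟨x, h1, h2⟩)
      · exact Or.inl ⟨x, h1, h2.symm⟩
      · exact Or.inr ⟨x, h1, h2.symm⟩
    · rintro (⟨x, h1, h2⟩ | ⟨x, h1, h2⟩)
      · exact Or.inl ⟨x, h1, h2.symm⟩
      · exact Or.inr ⟨x, h1, h2.symm⟩
  rw [hT, Finset.prod_union, Finset.prod_image, Finset.prod_image]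
  · intro x _ x' _ h
    exact (Prod.mk.inj h).1
  · intro x _ x' _ h
    exact Finset.singleton_injective (Prod.mk.inj h).1
  · rw [Finset.disjoint_left]
    intro j h1 h2
    rw [Finset.mem_image] at h1 h2
    obtain ⟨x, _, rfl⟩ := h1
    obtain ⟨S, _, h⟩ := h2
    exact absurd (Prod.mk.inj h).2 (by simp)

/-- probability of hitting all targets -/
lemma prod_targets_ge {S₀ : Finset (EE n)} {C : Finset (Finset (EE n))}
    {f : Finset (EE n) × Bool → ℝ} {g : EE n → ℝ} {h K N : ℝ} {m : ℕ}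
    (hK : 0 ≤ K) (hh0 : 0 ≤ h) (hh1 : h ≤ 1)
    (h1 : ∀ x ∈ S₀, Real.exp (-(K * g x)) ≤ f ({x}, false))
    (h2 : ∀ S ∈ C, h ≤ f (S, true)) (hm : C.card ≤ m) (hg : ∑ x ∈ S₀, g x ≤ N) :
    Real.exp (-(K * N)) * h ^ m ≤ ∏ j ∈ Tg S₀ C, f j := by
  rw [prod_Tg]
  refine mul_le_mul ?_ ?_ (pow_nonneg hh0 _)
    (Finset.prod_nonneg fun x hx => (Real.exp_pos _).le.trans (h1 x hx))
  · calc Real.exp (-(K * N)) ≤ Real.exp (∑ x ∈ S₀, -(K * g x)) := by
          rw [Real.exp_le_exp, Finset.sum_neg_distrib, ← Finset.mul_sum]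
          exact neg_le_neg (mul_le_mul_of_nonneg_left hg hK)
      _ = ∏ x ∈ S₀, Real.exp (-(K * g x)) := Real.exp_sum _ _
      _ ≤ ∏ x ∈ S₀, f ({x}, false) :=
          Finset.prod_le_prod (fun x _ => (Real.exp_pos _).le) h1
  · calc h ^ m ≤ h ^ C.card := pow_le_pow_of_le_one hh0 hh1 hm
      _ = ∏ S ∈ C, h := by rw [Finset.prod_const]
      _ ≤ ∏ S ∈ C, f (S, true) := Finset.prod_le_prod (fun x _ => hh0) h2

set_option maxHeartbeats 2000000 in
theorem config_core (hn : 1 ≤ n) (X Y G : Finset (EE n)) (hY : Y.Nonempty)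
    (N : ℝ) (k0 kJ m : ℕ) (K b b4 M β ε π a δ r1 : ℝ)
    (hX : (X.card : ℝ) ≤ 3 ^ n)
    (hsum : ∀ y ∈ Y, ∑ x ∈ X, qw n (y - x) ≤ N)
    (hG : ∀ y ∈ Y, ∀ x ∈ X, ‖y - x‖ ≤ 1 + eta n → y - x ∈ G)
    (hc1 : ∀ p : EE n, ((Y.filter (fun y => dist y p ≤ r1)).card : ℝ) ≤ (2 * r1) ^ n * Y.card)
    (hc2 : ∀ p : EE n, ((Y.filter (fun y => dist y p ≤ 1 / 40)).card : ℝ) ≤
      (2 * (1 / 40)) ^ n * Y.card)
    (hB1 : ∀ z : EE n, ‖z‖ ≤ 1 + eta n → 1 ≤ qw n z → qw n z ≤ N →
       Real.exp (-(K * qw n z)) ≤ nu n (kill n z) ∧ b ≤ nu n (kill n z))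
    (hB3 : ∀ z z' : EE n, ‖z‖ ≤ 1 + eta n → ‖z'‖ ≤ 1 + eta n →
       nu n (kill n z ∩ kill n z') ≤ M * Real.exp (-(β * ‖z - z'‖ ^ 2)))
    (hB4 : ∀ F : Finset (EE n), (F.card : ℝ) ≤ N →
        (∀ z ∈ F, ‖z‖ ≤ 1 + eta n ∧ 1 ≤ qw n z ∧ qw n z ≤ N) →
        (∃ z₀ ∈ F, ∀ z ∈ F, ‖z - z₀‖ ≤ ε) → b4 ≤ nu n {u | ∀ z ∈ F, u ∈ kill n z})
    (hb : 0 < b) (hb1 : b ≤ 1) (hb4 : 0 < b4) (hb41 : b4 ≤ 1) (hM : 0 ≤ M) (hβ : 0 ≤ β)
    (hK : 0 ≤ K) (hε : 0 ≤ ε) (hr1 : 0 ≤ r1)
    (hE : N * (M * Real.exp (-(β * ε ^ 2))) ≤ b / 2)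
    (hπ0 : 0 < π) (hπ : π ≤ b / 4) (hπ4 : π ≤ b4 / 2)
    (hk0 : 1 ≤ k0) (hm : N ≤ k0 * m) (hkJ : k0 + m ≤ kJ)
    (ha0 : 0 < a) (ha : a ≤ Real.exp (-((K + 2) * N)) * (b4 / 2) ^ m)
    (hmid : (1 / π) ^ (2 * kJ) * (N ^ 2 * (M * Real.exp (-(β * r1 ^ 2)))) ≤ 1 / 2)
    (hδ0 : 0 < δ) (hδ1 : δ ≤ 1)
    (hfar : (1 / π) ^ (2 * kJ) * (N ^ 2 * (M * Real.exp (-(β * (1 / 40) ^ 2)))) ≤ δ / 2)
    (hN8 : (1 / a) * (N * (3 ^ n * (2 * r1) ^ n)) ≤ δ)
    (hN9 : N * (3 ^ n * (2 * (1 / 40)) ^ n) ≤ δ) :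
    Ex (pp n G) G.powerset
      (fun t => if ∀ y ∈ Y, ∃ x ∈ X, ‖y - x‖ ≤ 1 + eta n ∧ ∀ v ∈ t, y - x ∉ v then 1 else 0)
      ≤ Real.exp (-(1 / (2 * (3 * δ)))) := by
  classical
  -- the clusters
  have hcl : ∀ y : EE n, ∃ C : Finset (Finset (EE n)),
      (∀ S ∈ C, S ⊆ Irel X y ∧ k0 ≤ S.card ∧ ∃ x ∈ S, ∀ x' ∈ S, dist x' x ≤ ε) ∧
      C.card * k0 ≤ (Irel X y).card ∧
      ∀ x ∈ Irel X y \ C.biUnion id,
        ((Irel X y \ C.biUnion id).filter (fun x' => dist x' x ≤ ε)).card < k0 := by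
    intro y
    obtain ⟨C, h1, h2, h3⟩ := cluster (Irel X y) ε k0 hk0
    refine ⟨C, h1, h2, fun x hx => ?_⟩
    have h3 := h3 x (by convert hx)
    convert h3
  choose C hC1 hC2 hC3 using hcl
  set S₀ : EE n → Finset (EE n) := fun y => Irel X y \ (C y).biUnion id with hS₀
  have hS₀I : ∀ y, S₀ y ⊆ Irel X y := fun y => Finset.sdiff_subset
  have hIN : ∀ y ∈ Y, ((Irel X y).card : ℝ) ≤ N := fun y hy =>
    (card_Irel_le hn X y).trans (hsum y hy)
  obtain ⟨y₀, hy₀⟩ := hY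
  have hN0 : 0 ≤ N := le_trans (Nat.cast_nonneg _) (hIN y₀ hy₀)
  have hIG : ∀ y ∈ Y, ∀ x ∈ Irel X y, y - x ∈ G := by
    intro y hy x hx
    exact hG y hy x (mem_Irel.mp hx).1 (mem_Irel.mp hx).2
  have hqN : ∀ y ∈ Y, ∀ x ∈ Irel X y, 1 ≤ qw n (y - x) ∧ qw n (y - x) ≤ N := by
    intro y hy x hx
    exact ⟨one_le_qw hn _ (mem_Irel.mp hx).2,
      (qw_le_sum X y x (mem_Irel.mp hx).1).trans (hsum y hy)⟩
  have hCm : ∀ y ∈ Y, (C y).card ≤ m := by
    intro y hy
    have h1 : (((C y).card * k0 : ℕ) : ℝ) ≤ N :=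
      le_trans (by exact_mod_cast hC2 y) (hIN y hy)
    have h2 : (((C y).card * k0 : ℕ) : ℝ) ≤ ((m * k0 : ℕ) : ℝ) := by
      refine h1.trans (hm.trans (le_of_eq ?_))
      push_cast; ring
    have h3 : (C y).card * k0 ≤ m * k0 := by exact_mod_cast h2
    exact Nat.le_of_mul_le_mul_right h3 (by omega)
  -- single targets
  have hE0 : 0 ≤ M * Real.exp (-(β * ε ^ 2)) := mul_nonneg hM (Real.exp_pos _).le
  have hsing : ∀ y ∈ Y, ∀ x ∈ S₀ y, nu n (kill n (y - x)) / 2 ≤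
      nu n {u | pat n G u ∈ Ug G (S₀ y) k0 y ({x}, false)} := by
    intro y hy x hx
    have hxI := hS₀I y hx
    have h1 := nu_single_ge (G := G) (S₀ := S₀ y) (k := k0) (y := y) (x := x) (ε := ε)
      (E := M * Real.exp (-(β * ε ^ 2))) hx
      (fun x' hx' => hIG y hy x' (hS₀I y hx')) (hC3 y x hx) (by
        intro x' hx' hd
        refine (hB3 _ _ (mem_Irel.mp hxI).2 (mem_Irel.mp (hS₀I y hx')).2).trans ?_
        refine mul_le_mul_of_nonneg_left ?_ hM
        rw [Real.exp_le_exp]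
        refine neg_le_neg (mul_le_mul_of_nonneg_left ?_ hβ)
        have : ‖y - x - (y - x')‖ = dist x' x := by
          rw [dist_eq_norm]; congr 1; abel
        rw [this]
        exact pow_le_pow_left₀ hε hd.le 2) hE0
    have h2 : ((S₀ y).card : ℝ) * (M * Real.exp (-(β * ε ^ 2))) ≤ b / 2 := by
      refine le_trans (mul_le_mul_of_nonneg_right ?_ hE0) hE
      exact le_trans (by exact_mod_cast Finset.card_le_card (hS₀I y)) (hIN y hy)
    have h3 := (hB1 (y - x) (mem_Irel.mp hxI).2 (hqN y hy x hxI).1 (hqN y hy x hxI).2).2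
    linarith
  have hclus : ∀ y ∈ Y, ∀ S ∈ C y, b4 ≤
      nu n {u | pat n G u ∈ Ug G (S₀ y) k0 y (S, true)} := by
    intro y hy S hS
    obtain ⟨h1, h2, x₀, hx₀, h3⟩ := hC1 y S hS
    refine le_trans ?_ (nu_cluster_ge (fun x hx => hIG y hy x (h1 hx)))
    have h4 := hB4 (S.image (fun x => y - x)) ?_ ?_ ?_
    · refine h4.trans (nb_nu_mono ?_)
      intro u hu x hx
      exact hu (y - x) (Finset.mem_image_of_mem _ hx)
    · refine le_trans ?_ (hIN y hy)
      exact_mod_cast Finset.card_image_le.trans (Finset.card_le_card h1)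
    · intro z hz
      rw [Finset.mem_image] at hz
      obtain ⟨x, hx, rfl⟩ := hz
      exact ⟨(mem_Irel.mp (h1 hx)).2, hqN y hy x (h1 hx)⟩
    · refine ⟨y - x₀, Finset.mem_image_of_mem _ hx₀, ?_⟩
      intro z hz
      rw [Finset.mem_image] at hz
      obtain ⟨x, hx, rfl⟩ := hz
      have : ‖y - x - (y - x₀)‖ = dist x x₀ := by
        rw [dist_comm, dist_eq_norm]; congr 1; abel
      rw [this]
      exact h3 x hx
  -- hit probabilities
  set f : EE n → Finset (EE n) × Bool → ℝ := fun y j =>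
    1 - ∏ v ∈ Ug G (S₀ y) k0 y j, (1 - pp n G v) with hf
  have hfeq : ∀ y j, f y j = 1 - Real.exp (- nu n {u | pat n G u ∈ Ug G (S₀ y) k0 y j}) := by
    intro y j
    rw [hf]
    simp only
    rw [prod_one_sub_pp]
  have hhit1 : ∀ y ∈ Y, ∀ x ∈ S₀ y, Real.exp (-((K + 2) * qw n (y - x))) ≤ f y ({x}, false) ∧
      b / 4 ≤ f y ({x}, false) := by
    intro y hy x hx
    have hxI := hS₀I y hx
    have h0 := hB1 (y - x) (mem_Irel.mp hxI).2 (hqN y hy x hxI).1 (hqN y hy x hxI).2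
    have h1 := hsing y hy x hx
    rw [hfeq]
    have hq := (hqN y hy x hxI).1
    constructor
    · have h2 : Real.exp (-(K * qw n (y - x))) / 2 ≤
          nu n {u | pat n G u ∈ Ug G (S₀ y) k0 y ({x}, false)} := by linarith [h0.1]
      have h3 : Real.exp (-(K * qw n (y - x))) ≤ 1 := by
        rw [Real.exp_le_one_iff]
        have : 0 ≤ K * qw n (y - x) := mul_nonneg hK (by linarith)
        linarith
      have h4 := one_sub_exp_neg_ge (a := Real.exp (-(K * qw n (y - x))) / 2)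
        (by positivity) (by linarith) h2
      refine le_trans ?_ h4
      have h5 : Real.exp (-((K + 2) * qw n (y - x))) =
          Real.exp (-(K * qw n (y - x))) * Real.exp (-(2 * qw n (y - x))) := by
        rw [← Real.exp_add]; congr 1; ring
      have h6 : Real.exp (-(2 * qw n (y - x))) ≤ 1 / 4 := by
        have h7 : Real.exp (-(2 * qw n (y - x))) ≤ Real.exp (-2) := by
          rw [Real.exp_le_exp]; linarith
        have h8 : Real.exp (-2) ≤ 1 / 4 := by
          have h9 : (2 : ℝ) ≤ Real.exp 1 := by linarith [Real.add_one_le_exp (1 : ℝ)]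
          have h10 : Real.exp (-2) = (Real.exp 1)⁻¹ * (Real.exp 1)⁻¹ := by
            rw [← Real.exp_neg, ← Real.exp_add]; norm_num
          rw [h10]
          have h11 : (Real.exp 1)⁻¹ ≤ 1 / 2 := by
            rw [inv_le_comm₀ (Real.exp_pos _) (by norm_num)]
            norm_num; exact h9
          have h12 : 0 ≤ (Real.exp 1)⁻¹ := by positivity
          nlinarith
        linarith
      rw [h5]
      have := mul_le_mul_of_nonneg_left h6 (Real.exp_pos (-(K * qw n (y - x)))).le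
      linarith
    · have h2 : b / 2 ≤ nu n {u | pat n G u ∈ Ug G (S₀ y) k0 y ({x}, false)} := by
        linarith [h0.2]
      have h4 := one_sub_exp_neg_ge (a := b / 2) (by positivity) (by linarith) h2
      linarith
  have hhit2 : ∀ y ∈ Y, ∀ S ∈ C y, b4 / 2 ≤ f y (S, true) := by
    intro y hy S hS
    rw [hfeq]
    exact one_sub_exp_neg_ge hb4.le hb41 (hclus y hy S hS)
  -- near relation
  set near : ℝ → EE n → EE n → Prop := fun r y y' =>
    ∃ x ∈ Irel X y, ∃ x' ∈ Irel X y', ‖(y - x) - (y' - x')‖ ≤ r with hnear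
  set D : EE n → EE n → ℝ := fun y y' =>
    if near r1 y y' then 1 / a else if near (1 / 40) y y' then 1 else δ with hD
  have hJ := janson_hit (pp n G) (pp_nonneg G) (pp_le_one G) G.powerset Y ⟨y₀, hy₀⟩
    (fun y => Tg (S₀ y) (C y)) (fun y j => Ug G (S₀ y) k0 y j) ?_ π a (3 * δ) kJ hπ0
    (by linarith) ?_ ?_ ha0 ?_ D ?_ (by positivity) ?_
  · refine le_trans (Ex_mono _ (pp_nonneg G) (pp_le_one G) _ _ _ ?_) hJ
    intro t
    by_cases ht : ∀ y ∈ Y, ∃ j ∈ Tg (S₀ y) (C y), t ∩ Ug G (S₀ y) k0 y j = ∅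
    · rw [if_pos ht]
      split_ifs <;> norm_num
    · rw [if_neg ht, if_neg]
      intro hall
      apply ht
      intro y hy
      by_contra hno
      push Not at hno
      obtain ⟨x, hxX, hxn, hxt⟩ := hall y hy
      have hxI : x ∈ Irel X y := mem_Irel.mpr ⟨hxX, hxn⟩
      by_cases hxS : x ∈ S₀ y
      · have h1 := hno ({x}, false) (mem_Tg.mpr (Or.inl ⟨x, hxS, rfl⟩))
        obtain ⟨v, hv⟩ := h1
        rw [Finset.mem_inter, mem_Ug] at hv
        exact hxt v hv.1 (hv.2.2.1 x (Finset.mem_singleton_self x))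
      · have h2 : x ∈ (C y).biUnion id := by
          by_contra h3
          exact hxS (Finset.mem_sdiff.mpr ⟨hxI, h3⟩)
        rw [Finset.mem_biUnion] at h2
        obtain ⟨S, hS, hxS'⟩ := h2
        have h1 := hno (S, true) (mem_Tg.mpr (Or.inr ⟨S, hS, rfl⟩))
        obtain ⟨v, hv⟩ := h1
        rw [Finset.mem_inter, mem_Ug] at hv
        exact hxt v hv.1 (hv.2.2.1 x hxS')
  · intro y _ j _ v hv
    rw [mem_Ug] at hv
    exact Finset.mem_powerset.mpr hv.1
  · intro y hy j hj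
    rw [mem_Tg] at hj
    obtain ⟨x, hx, rfl⟩ | ⟨S, hS, rfl⟩ := hj
    · exact hπ.trans (hhit1 y hy x hx).2
    · exact hπ4.trans (hhit2 y hy S hS)
  · intro y hy v _
    refine le_trans ?_ (le_trans (Nat.add_le_add_left (hCm y hy) k0) hkJ)
    convert card_targets_le G (S₀ y) (C y) k0 y v
  · intro y hy
    refine ha.trans ?_
    refine prod_targets_ge (f := f y) (g := fun x => qw n (y - x)) (by linarith)
      (by positivity) (by linarith) (fun x hx => (hhit1 y hy x hx).1) (hhit2 y hy) (hCm y hy) ?_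
    refine le_trans ?_ (hsum y hy)
    refine Finset.sum_le_sum_of_subset_of_nonneg
      (fun x hx => (mem_Irel.mp (hS₀I y hx)).1) (fun x _ _ => qw_nonneg _)
  · -- the D bound
    intro y hy y' hy'
    have hgen : ∀ r : ℝ, 0 ≤ r → ¬ near r y y' →
        (1 / π) ^ (2 * kJ) * ∑ v ∈ (Tg (S₀ y) (C y)).biUnion (fun j => Ug G (S₀ y) k0 y j) ∩
          (Tg (S₀ y') (C y')).biUnion (fun j => Ug G (S₀ y') k0 y' j), pp n G v ≤
        (1 / π) ^ (2 * kJ) * (N ^ 2 * (M * Real.exp (-(β * r ^ 2)))) := by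
      intro r hr hnr
      refine mul_le_mul_of_nonneg_left ?_ (by positivity)
      have hnn : ∀ (y : EE n), ∀ S ∈ C y, S ⊆ Irel X y ∧ S.Nonempty := by
        intro y S hS
        obtain ⟨h1, _, x, hx, _⟩ := hC1 y S hS
        exact ⟨h1, x, hx⟩
      have h1 := sum_pp_inter_le (G := G) (I := Irel X y) (I' := Irel X y') (S₀ := S₀ y)
        (S₀' := S₀ y') (C := C y) (C' := C y') (k := k0) (k' := k0) (y := y) (y' := y')
        (E := M * Real.exp (-(β * r ^ 2))) (hS₀I y) (hnn y) (hS₀I y') (hnn y') (by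
          intro x hx x' hx'
          refine (hB3 _ _ (mem_Irel.mp hx).2 (mem_Irel.mp hx').2).trans ?_
          refine mul_le_mul_of_nonneg_left ?_ hM
          rw [Real.exp_le_exp]
          refine neg_le_neg (mul_le_mul_of_nonneg_left ?_ hβ)
          refine pow_le_pow_left₀ hr ?_ 2
          by_contra hc
          exact hnr ⟨x, hx, x', hx', (not_le.mp hc).le⟩)
      refine le_trans ?_ (h1.trans ?_)
      · refine le_of_eq (Finset.sum_congr ?_ fun _ _ => rfl)
        congr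
      · refine mul_le_mul_of_nonneg_right ?_ (mul_nonneg hM (Real.exp_pos _).le)
        rw [sq]
        exact mul_le_mul (hIN y hy) (hIN y' hy') (Nat.cast_nonneg _) hN0
    by_cases h1 : near r1 y y'
    · left
      rw [hD]
      simp only [if_pos h1]
      exact le_refl _
    · right
      by_cases h2 : near (1 / 40) y y'
      · have h3 := exp_sub_one_le ((hgen r1 hr1 h1).trans hmid) (by norm_num) le_rfl
        rw [hD]
        simp only [if_neg h1, if_pos h2]
        refine le_trans ?_ (le_trans h3 (by norm_num))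
        exact le_refl _
      · have h3 := exp_sub_one_le ((hgen (1 / 40) (by norm_num) h2).trans hfar) (by linarith)
          (by linarith)
        rw [hD]
        simp only [if_neg h1, if_neg h2]
        refine le_trans ?_ (le_trans h3 (by linarith))
        exact le_refl _
  · -- the sum bound
    intro y hy
    have h1 : ∀ y' ∈ Y, D y y' ≤ (if near r1 y y' then 1 / a else 0) +
        (if near (1 / 40) y y' then 1 else 0) + δ := by
      intro y' _
      rw [hD]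
      simp only
      have : 0 < 1 / a := by positivity
      split_ifs <;> linarith
    refine (Finset.sum_le_sum h1).trans ?_
    rw [Finset.sum_add_distrib, Finset.sum_add_distrib, Finset.sum_const, nsmul_eq_mul,
      ← Finset.sum_filter, ← Finset.sum_filter, Finset.sum_const, Finset.sum_const,
      nsmul_eq_mul, nsmul_eq_mul]
    have hYc : (0 : ℝ) ≤ Y.card := Nat.cast_nonneg _
    have hn1 : ((Y.filter (fun y' => near r1 y y')).card : ℝ) ≤
        N * (3 ^ n * ((2 * r1) ^ n * Y.card)) := by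
      have := near_count_le (X := X) (Y := Y) (y := y) (r := r1) (N := N)
        (B := (2 * r1) ^ n * Y.card) (by positivity) hX (hIN y hy) (fun p => by
          convert hc1 p)
      convert this
    have hn2 : ((Y.filter (fun y' => near (1 / 40) y y')).card : ℝ) ≤
        N * (3 ^ n * ((2 * (1 / 40)) ^ n * Y.card)) := by
      have := near_count_le (X := X) (Y := Y) (y := y) (r := 1 / 40) (N := N)
        (B := (2 * (1 / 40)) ^ n * Y.card) (by positivity) hX (hIN y hy) (fun p => by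
          convert hc2 p)
      convert this
    have h2 : ((Y.filter (fun y' => near r1 y y')).card : ℝ) * (1 / a) ≤ δ * Y.card := by
      refine le_trans (mul_le_mul_of_nonneg_right hn1 (by positivity)) ?_
      have := mul_le_mul_of_nonneg_right hN8 hYc
      calc N * (3 ^ n * ((2 * r1) ^ n * ↑Y.card)) * (1 / a)
          = (1 / a) * (N * (3 ^ n * (2 * r1) ^ n)) * Y.card := by ring
        _ ≤ _ := this
    have h3 : ((Y.filter (fun y' => near (1 / 40) y y')).card : ℝ) * 1 ≤ δ * Y.card := by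
      rw [mul_one]
      refine le_trans hn2 ?_
      have := mul_le_mul_of_nonneg_right hN9 hYc
      calc N * (3 ^ n * ((2 * (1 / 40)) ^ n * ↑Y.card))
          = (N * (3 ^ n * (2 * (1 / 40)) ^ n)) * Y.card := by ring
        _ ≤ _ := this
    have h4 : (Y.card : ℝ) * δ = δ * Y.card := mul_comm _ _
    linarith

end core

end Crest.Agent.R225.LB
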