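import Crest.Agent.R225.LB.ConfigCore

/-!
Row 225, S0348, module D (part 2): the numerics, and `config_prob_of` (the probability estimate for
one configuration, assuming the Gaussian estimates B1, B3, B4).
-/

set_option autoImplicit false

namespace Crest.Agent.R225.LB

open MeasureTheory ProbabilityTheory Finset Filter

/-! ### asymptotic facts -/

lemma ev_main (P : ℝ) : ∀ᶠ x : ℝ in atTop,
    P * (Real.sqrt x * (Real.log x) ^ 2) + 6 * Real.log x + 1 ≤ (1 / 20) * x ^ (3 / 5 : ℝ) := by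
  have h1 : ∀ᶠ x : ℝ in atTop, (Real.log x) ^ 2 ≤ (1 / (60 * (|P| + 1))) * x ^ (1 / 10 : ℝ) := by
    have h := (isLittleO_log_rpow_rpow_atTop (s := 1 / 10) 2 (by norm_num)).def
      (c := 1 / (60 * (|P| + 1))) (by positivity)
    filter_upwards [h, eventually_ge_atTop 1] with x hx hx1
    have h2 : (0 : ℝ) ≤ x ^ (1 / 10 : ℝ) := Real.rpow_nonneg (by linarith) _
    rw [Real.norm_of_nonneg h2] at hx
    refine le_trans ?_ hx
    rw [Real.norm_eq_abs]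
    refine le_trans ?_ (le_abs_self _)
    rw [Real.rpow_two]
  have h2 : ∀ᶠ x : ℝ in atTop, Real.log x ≤ (1 / 360) * x ^ (3 / 5 : ℝ) := by
    have h := (isLittleO_log_rpow_atTop (r := 3 / 5) (by norm_num)).def
      (c := 1 / 360) (by positivity)
    filter_upwards [h, eventually_ge_atTop 1] with x hx hx1
    have h2 : (0 : ℝ) ≤ x ^ (3 / 5 : ℝ) := Real.rpow_nonneg (by linarith) _
    rw [Real.norm_of_nonneg h2] at hx
    exact le_trans (le_abs_self _) hx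
  have h3 : ∀ᶠ x : ℝ in atTop, 60 ≤ x ^ (3 / 5 : ℝ) :=
    (tendsto_rpow_atTop (y := 3 / 5) (by norm_num)).eventually_ge_atTop 60
  filter_upwards [h1, h2, h3, eventually_ge_atTop 1] with x h1 h2 h3 hx
  have hx0 : 0 < x := by linarith
  have h4 : Real.sqrt x * x ^ (1 / 10 : ℝ) = x ^ (3 / 5 : ℝ) := by
    rw [Real.sqrt_eq_rpow, ← Real.rpow_add hx0]; norm_num
  have h5 : P * (Real.sqrt x * (Real.log x) ^ 2) ≤ (1 / 60) * x ^ (3 / 5 : ℝ) := by
    have h6 : (0 : ℝ) ≤ Real.sqrt x * (Real.log x) ^ 2 := by positivity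
    calc P * (Real.sqrt x * (Real.log x) ^ 2)
        ≤ (|P| + 1) * (Real.sqrt x * (Real.log x) ^ 2) :=
          mul_le_mul_of_nonneg_right (by linarith [le_abs_self P]) h6
      _ ≤ (|P| + 1) * (Real.sqrt x * ((1 / (60 * (|P| + 1))) * x ^ (1 / 10 : ℝ))) := by
          gcongr
      _ = ((|P| + 1) / (60 * (|P| + 1))) * (Real.sqrt x * x ^ (1 / 10 : ℝ)) := by ring
      _ = (1 / 60) * x ^ (3 / 5 : ℝ) := by
          rw [h4]
          congr 1
          field_simp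
  linarith

lemma ev_sqrt (P : ℝ) : ∀ᶠ x : ℝ in atTop, P * Real.log x ≤ Real.sqrt x := by
  have h := (isLittleO_log_rpow_atTop (r := 1 / 2) (by norm_num)).def
    (c := 1 / (|P| + 1)) (by positivity)
  filter_upwards [h, eventually_ge_atTop 1] with x hx hx1
  have h2 : (0 : ℝ) ≤ x ^ (1 / 2 : ℝ) := Real.rpow_nonneg (by linarith) _
  have h3 : 0 ≤ Real.log x := Real.log_nonneg hx1
  rw [Real.norm_of_nonneg h2, Real.norm_of_nonneg h3] at hx
  rw [Real.sqrt_eq_rpow]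
  calc P * Real.log x ≤ (|P| + 1) * Real.log x :=
        mul_le_mul_of_nonneg_right (by linarith [le_abs_self P]) h3
    _ ≤ (|P| + 1) * (1 / (|P| + 1) * x ^ (1 / 2 : ℝ)) :=
        mul_le_mul_of_nonneg_left hx (by positivity)
    _ = x ^ (1 / 2 : ℝ) := by
        field_simp

/-! ### numerics for fixed `n` -/

section num

variable {n : ℕ} {L : ℝ}

lemma log5_le : Real.log 5 ≤ 17 / 10 := by
  have h1 : Real.log 5 * 10 ≤ 17 := by
    have h2 : Real.log 5 * 10 = Real.log (5 ^ 10) := by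
      rw [Real.log_pow]; push_cast; ring
    rw [h2, Real.log_le_iff_le_exp (by positivity)]
    have h3 : Real.exp 17 = Real.exp 1 ^ 17 := by
      rw [← Real.exp_nat_mul]; norm_num
    rw [h3]
    have h4 : (2.7 : ℝ) ≤ Real.exp 1 := by linarith [Real.exp_one_gt_d9]
    calc (5 : ℝ) ^ 10 ≤ 2.7 ^ 17 := by norm_num
      _ ≤ Real.exp 1 ^ 17 := pow_le_pow_left₀ (by norm_num) h4 17
  linarith

lemma exp_two_ge : (4 : ℝ) ≤ Real.exp 2 := by
  have h9 : (2 : ℝ) ≤ Real.exp 1 := by linarith [Real.add_one_le_exp (1 : ℝ)]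
  have h10 : Real.exp 2 = Real.exp 1 * Real.exp 1 := by
    rw [← Real.exp_add]; norm_num
  rw [h10]; nlinarith

lemma exp_neg_one_le : Real.exp (-1) ≤ 1 / 2 := by
  have h9 : (2 : ℝ) ≤ Real.exp 1 := by linarith [Real.add_one_le_exp (1 : ℝ)]
  rw [Real.exp_neg, inv_le_comm₀ (Real.exp_pos _) (by norm_num)]
  norm_num; exact h9

/-- (F4): the error term in the weight of single targets -/
lemma num_hE (hn : 1 ≤ n) (C1 C3 c : ℝ) (hC1 : 0 < C1) (hC3 : 0 ≤ C3) (hc0 : 0 ≤ c)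
    (hc : c ≤ 1 / 2) (hL0 : 0 ≤ Real.log n) (hLn : Real.log n ≤ n) (hC3n : C3 ≤ n) :
    (c * n * Real.log n) * ((C3 * Real.sqrt n) *
      Real.exp (-((25600 / 9 * n) * ((C1 + 1) * Real.sqrt (Real.log n / n)) ^ 2))) ≤
      Real.exp (-C1 * Real.log n) / 2 := by
  have hn0 : (1 : ℝ) ≤ n := by exact_mod_cast hn
  have hnpos : (0 : ℝ) < n := by linarith
  set L := Real.log n with hL
  have h1 : ((C1 + 1) * Real.sqrt (L / n)) ^ 2 = (C1 + 1) ^ 2 * (L / n) := by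
    rw [mul_pow, Real.sq_sqrt (by positivity)]
  have h2 : (25600 / 9 * (n : ℝ)) * ((C1 + 1) ^ 2 * (L / n)) = 25600 / 9 * (C1 + 1) ^ 2 * L := by
    field_simp
  rw [h1, h2]
  have h3 : Real.exp (-(25600 / 9 * (C1 + 1) ^ 2 * L)) ≤
      Real.exp (-C1 * L) * Real.exp (-(4 * L)) := by
    rw [← Real.exp_add, Real.exp_le_exp]
    have : C1 + 4 ≤ 25600 / 9 * (C1 + 1) ^ 2 := by nlinarith
    nlinarith
  have h4 : Real.exp (-(4 * L)) = 1 / (n : ℝ) ^ 4 := by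
    have : -(4 * L) = -((4 : ℕ) * L) := by norm_num
    rw [this, Real.exp_neg, Real.exp_nat_mul, hL, Real.exp_log hnpos, one_div]
  have h5 : Real.sqrt n ≤ n := by
    rw [Real.sqrt_le_left hnpos.le]; nlinarith
  have h6 : c * n * L * (C3 * Real.sqrt n) ≤ (n : ℝ) ^ 4 / 2 := by
    calc c * n * L * (C3 * Real.sqrt n) ≤ (1 / 2) * n * n * (n * n) := by gcongr
      _ = (n : ℝ) ^ 4 / 2 := by ring
  have hpos : (0 : ℝ) < (n : ℝ) ^ 4 := by positivity
  calc c * n * L * (C3 * Real.sqrt n * Real.exp (-(25600 / 9 * (C1 + 1) ^ 2 * L)))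
      = (c * n * L * (C3 * Real.sqrt n)) * Real.exp (-(25600 / 9 * (C1 + 1) ^ 2 * L)) := by ring
    _ ≤ ((n : ℝ) ^ 4 / 2) * (Real.exp (-C1 * L) * Real.exp (-(4 * L))) := by
        refine mul_le_mul h6 h3 (Real.exp_pos _).le (by positivity)
    _ = Real.exp (-C1 * L) / 2 := by
        rw [h4]; field_simp

/-- (F6): the lower bound for the probability of hitting all targets. -/
lemma num_ha (hn : 1 ≤ n) (C1 C4 c : ℝ) (hC1 : 0 < C1) (hC4 : 0 < C4)
    (hc : c = 1 / (40 * (C1 + 2))) (hL1 : 1 ≤ Real.log n)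
    (h80 : 80 * (C4 + 1) * Real.log n ≤ Real.sqrt n) :
    Real.exp (-(n * Real.log n / 20)) ≤ Real.exp (-((C1 + 2) * (c * n * Real.log n))) *
      (Real.exp (-C4 * Real.log n) / 2) ^ ⌈c * Real.sqrt n * Real.log n⌉₊ := by
  have hn0 : (1 : ℝ) ≤ n := by exact_mod_cast hn
  have hnpos : (0 : ℝ) < n := by linarith
  set L := Real.log n with hL
  have hs1 : 1 ≤ Real.sqrt n := Real.one_le_sqrt.mpr hn0
  have hss : Real.sqrt n * Real.sqrt n = n := Real.mul_self_sqrt hnpos.le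
  set s := Real.sqrt n with hs
  set m := ⌈c * s * L⌉₊ with hm
  have hc0 : 0 < c := by rw [hc]; positivity
  have hc1 : c ≤ 1 := by
    rw [hc, div_le_one (by positivity)]; linarith
  have hmle : (m : ℝ) ≤ 2 * (s * L) := by
    have h1 : (m : ℝ) < c * s * L + 1 := Nat.ceil_lt_add_one (by positivity)
    have h2 : c * s * L ≤ 1 * s * L := by gcongr
    have h3 : 1 ≤ s * L := by nlinarith
    linarith
  have h1 : (C1 + 2) * (c * n * L) = n * L / 40 := by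
    rw [hc]; field_simp
  have h2 : Real.exp (-((C4 + 1) * L)) ≤ Real.exp (-C4 * L) / 2 := by
    have h3 : Real.exp (-((C4 + 1) * L)) = Real.exp (-C4 * L) * Real.exp (-L) := by
      rw [← Real.exp_add]; congr 1; ring
    have h4 : Real.exp (-L) ≤ 1 / 2 :=
      (Real.exp_le_exp.mpr (by linarith)).trans exp_neg_one_le
    rw [h3]
    have := mul_le_mul_of_nonneg_left h4 (Real.exp_pos (-C4 * L)).le
    linarith
  have h5 : Real.exp (-(n * L / 40)) ≤ (Real.exp (-C4 * L) / 2) ^ m := by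
    calc Real.exp (-(n * L / 40)) ≤ Real.exp ((m : ℝ) * (-((C4 + 1) * L))) := by
          rw [Real.exp_le_exp]
          have h6 : (m : ℝ) * ((C4 + 1) * L) ≤ n * L / 40 := by
            calc (m : ℝ) * ((C4 + 1) * L) ≤ 2 * (s * L) * ((C4 + 1) * L) := by gcongr
              _ = (80 * (C4 + 1) * L) * (s * L) / 40 := by ring
              _ ≤ s * (s * L) / 40 := by gcongr
              _ = n * L / 40 := by rw [← mul_assoc, hss]
          linarith
      _ = Real.exp (-((C4 + 1) * L)) ^ m := Real.exp_nat_mul _ _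
      _ ≤ (Real.exp (-C4 * L) / 2) ^ m := pow_le_pow_left₀ (Real.exp_pos _).le h2 m
  rw [h1]
  calc Real.exp (-(n * L / 20)) = Real.exp (-(n * L / 40)) * Real.exp (-(n * L / 40)) := by
        rw [← Real.exp_add]; congr 1; ring
    _ ≤ _ := mul_le_mul_of_nonneg_left h5 (Real.exp_pos _).le

/-- the common factor in the correlation estimates -/
lemma num_corr (hn : 1 ≤ n) (C1 C3 C4 c : ℝ) (hC1 : 0 < C1) (hC3 : 0 ≤ C3) (hC4 : 0 < C4)
    (hc0 : 0 ≤ c) (hc : c ≤ 1 / 2) (hL : 40 ≤ Real.log n) (hLn : Real.log n ≤ n)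
    (hC3n : C3 ≤ n) :
    (1 / (Real.exp (-((C1 + C4) * Real.log n)) / 4)) ^
      (2 * (⌈Real.sqrt n⌉₊ + ⌈c * Real.sqrt n * Real.log n⌉₊)) *
      ((c * n * Real.log n) ^ 2 * (C3 * Real.sqrt n)) ≤
      Real.exp ((8 * (2 + C1 + C4)) * (Real.sqrt n * (Real.log n) ^ 2) + 6 * Real.log n) := by
  have hn0 : (1 : ℝ) ≤ n := by exact_mod_cast hn
  have hnpos : (0 : ℝ) < n := by linarith
  set L := Real.log n with hLdef
  have hs1 : 1 ≤ Real.sqrt n := Real.one_le_sqrt.mpr hn0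
  have hsn : Real.sqrt n ≤ n := by
    rw [Real.sqrt_le_left hnpos.le]; nlinarith
  set s := Real.sqrt n with hs
  set K := ⌈s⌉₊ + ⌈c * s * L⌉₊ with hK
  have hsL : 40 * s ≤ s * L := by nlinarith
  have hKle : (K : ℝ) ≤ s * L := by
    have h1 : (⌈s⌉₊ : ℝ) < s + 1 := Nat.ceil_lt_add_one (by positivity)
    have h2 : (⌈c * s * L⌉₊ : ℝ) < c * s * L + 1 := Nat.ceil_lt_add_one (by positivity)
    have h3 : c * s * L ≤ 1 / 2 * s * L := by gcongr
    rw [hK]; push_cast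
    nlinarith
  have h1 : 1 / (Real.exp (-((C1 + C4) * L)) / 4) ≤ Real.exp ((2 + C1 + C4) * L) := by
    have h2 : 1 / (Real.exp (-((C1 + C4) * L)) / 4) = 4 * Real.exp ((C1 + C4) * L) := by
      rw [Real.exp_neg]; field_simp
    have h3 : (4 : ℝ) ≤ Real.exp (2 * L) :=
      exp_two_ge.trans (Real.exp_le_exp.mpr (by linarith))
    have h4 : Real.exp ((2 + C1 + C4) * L) = Real.exp (2 * L) * Real.exp ((C1 + C4) * L) := by
      rw [← Real.exp_add]; congr 1; ring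
    rw [h2, h4]
    exact mul_le_mul_of_nonneg_right h3 (Real.exp_pos _).le
  have h5 : (1 / (Real.exp (-((C1 + C4) * L)) / 4)) ^ (2 * K) ≤
      Real.exp ((8 * (2 + C1 + C4)) * (s * L ^ 2)) := by
    calc (1 / (Real.exp (-((C1 + C4) * L)) / 4)) ^ (2 * K) ≤
        Real.exp ((2 + C1 + C4) * L) ^ (2 * K) := pow_le_pow_left₀ (by positivity) h1 _
      _ = Real.exp (((2 * K : ℕ) : ℝ) * ((2 + C1 + C4) * L)) := (Real.exp_nat_mul _ _).symm
      _ ≤ Real.exp ((8 * (2 + C1 + C4)) * (s * L ^ 2)) := by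
          rw [Real.exp_le_exp]
          push_cast
          calc 2 * (K : ℝ) * ((2 + C1 + C4) * L) ≤ 2 * (s * L) * ((2 + C1 + C4) * L) := by gcongr
            _ = 2 * (2 + C1 + C4) * (s * L ^ 2) := by ring
            _ ≤ (8 * (2 + C1 + C4)) * (s * L ^ 2) := by gcongr; norm_num
  have h6 : (c * n * L) ^ 2 * (C3 * s) ≤ Real.exp (6 * L) := by
    have h7 : Real.exp (6 * L) = (n : ℝ) ^ 6 := by
      have : 6 * L = ((6 : ℕ) : ℝ) * L := by norm_num
      rw [this, Real.exp_nat_mul, hLdef, Real.exp_log hnpos]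
    rw [h7]
    calc (c * n * L) ^ 2 * (C3 * s) ≤ (1 * n * n) ^ 2 * (n * n) := by
          gcongr
          linarith
      _ = (n : ℝ) ^ 6 := by ring
  rw [Real.exp_add]
  exact mul_le_mul h5 h6 (by positivity) (Real.exp_pos _).le

lemma num_hmid (hn : 1 ≤ n) {W E : ℝ} (hW : W ≤ Real.exp E)
    (hE : E + 1 ≤ (1 / 20) * (n : ℝ) ^ (3 / 5 : ℝ)) :
    W * Real.exp (-((25600 / 9 * n) * ((n : ℝ) ^ (-(1 / 5 : ℝ))) ^ 2)) ≤ 1 / 2 := by
  have hn0 : (1 : ℝ) ≤ n := by exact_mod_cast hn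
  have hnpos : (0 : ℝ) < n := by linarith
  have h1 : (n : ℝ) * ((n : ℝ) ^ (-(1 / 5 : ℝ))) ^ 2 = (n : ℝ) ^ (3 / 5 : ℝ) := by
    rw [← Real.rpow_natCast, ← Real.rpow_mul hnpos.le]
    nth_rewrite 1 [← Real.rpow_one (n : ℝ)]
    rw [← Real.rpow_add hnpos]
    norm_num
  have h2 : (25600 / 9 * (n : ℝ)) * ((n : ℝ) ^ (-(1 / 5 : ℝ))) ^ 2 =
      25600 / 9 * (n : ℝ) ^ (3 / 5 : ℝ) := by
    rw [mul_assoc, h1]
  rw [h2]
  have h3 : 0 ≤ (n : ℝ) ^ (3 / 5 : ℝ) := by positivity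
  calc W * Real.exp (-(25600 / 9 * (n : ℝ) ^ (3 / 5 : ℝ)))
      ≤ Real.exp E * Real.exp (-(25600 / 9 * (n : ℝ) ^ (3 / 5 : ℝ))) :=
        mul_le_mul_of_nonneg_right hW (Real.exp_pos _).le
    _ = Real.exp (E - 25600 / 9 * (n : ℝ) ^ (3 / 5 : ℝ)) := by
        rw [← Real.exp_add]; rfl
    _ ≤ Real.exp (-1) := by
        rw [Real.exp_le_exp]; linarith
    _ ≤ 1 / 2 := exp_neg_one_le

lemma num_hfar (hn : 1 ≤ n) {W E : ℝ} (hW : W ≤ Real.exp E)
    (hE : E + 1 ≤ (1 / 20) * (n : ℝ) ^ (3 / 5 : ℝ)) :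
    W * Real.exp (-((25600 / 9 * n) * (1 / 40) ^ 2)) ≤ (1 / 5 : ℝ) ^ n / 2 := by
  have hn0 : (1 : ℝ) ≤ n := by exact_mod_cast hn
  have hnpos : (0 : ℝ) < n := by linarith
  have h3 : (n : ℝ) ^ (3 / 5 : ℝ) ≤ n := by
    calc (n : ℝ) ^ (3 / 5 : ℝ) ≤ (n : ℝ) ^ (1 : ℝ) :=
          Real.rpow_le_rpow_of_exponent_le hn0 (by norm_num)
      _ = n := Real.rpow_one _
  have h4 : Real.exp (-(17 / 10 * (n : ℝ))) ≤ (1 / 5 : ℝ) ^ n := by
    have h5 : (1 / 5 : ℝ) ^ n = Real.exp ((n : ℝ) * (-Real.log 5)) := by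
      rw [Real.exp_nat_mul, Real.exp_neg, Real.exp_log (by norm_num), one_div]
    rw [h5, Real.exp_le_exp]
    have := log5_le
    nlinarith
  have h2 : (0 : ℝ) < (1 / 5 : ℝ) ^ n := by positivity
  calc W * Real.exp (-((25600 / 9 * n) * (1 / 40) ^ 2))
      ≤ Real.exp E * Real.exp (-((25600 / 9 * n) * (1 / 40) ^ 2)) :=
        mul_le_mul_of_nonneg_right hW (Real.exp_pos _).le
    _ = Real.exp (E + -((25600 / 9 * n) * (1 / 40) ^ 2)) := by
        rw [← Real.exp_add]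
    _ ≤ Real.exp (-(17 / 10 * (n : ℝ)) + -1) := by
        rw [Real.exp_le_exp]; linarith
    _ = Real.exp (-(17 / 10 * (n : ℝ))) * Real.exp (-1) := Real.exp_add _ _
    _ ≤ (1 / 5 : ℝ) ^ n * (1 / 2) :=
        mul_le_mul h4 exp_neg_one_le (Real.exp_pos _).le h2.le
    _ = (1 / 5 : ℝ) ^ n / 2 := by ring

lemma num_N_le (hn : 1 ≤ n) {c : ℝ} (hc0 : 0 ≤ c) (hc : c ≤ 1)
    (hL0 : 0 ≤ Real.log n) (hLn : Real.log n ≤ n) :
    c * n * Real.log n ≤ Real.exp (2 * Real.log n) := by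
  have hn0 : (1 : ℝ) ≤ n := by exact_mod_cast hn
  have hnpos : (0 : ℝ) < n := by linarith
  have h7 : Real.exp (2 * Real.log n) = (n : ℝ) ^ 2 := by
    have : 2 * Real.log n = ((2 : ℕ) : ℝ) * Real.log n := by norm_num
    rw [this, Real.exp_nat_mul, Real.exp_log hnpos]
  rw [h7]
  calc c * n * Real.log n ≤ 1 * n * n := by gcongr
    _ = (n : ℝ) ^ 2 := by ring

lemma num_hN8 (hn : 1 ≤ n) {c : ℝ} (hc0 : 0 ≤ c) (hc : c ≤ 1)
    (hL : 40 ≤ Real.log n) (hLn : 8 * Real.log n ≤ n) :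
    (1 / Real.exp (-(n * Real.log n / 20))) *
      ((c * n * Real.log n) * (3 ^ n * (2 * (n : ℝ) ^ (-(1 / 5 : ℝ))) ^ n)) ≤ (1 / 5 : ℝ) ^ n := by
  have hn0 : (1 : ℝ) ≤ n := by exact_mod_cast hn
  have hnpos : (0 : ℝ) < n := by linarith
  have hN := num_N_le hn hc0 hc (by linarith) (by linarith)
  set L := Real.log n with hLdef
  have h1 : (n : ℝ) ^ (-(1 / 5 : ℝ)) = Real.exp (-(L / 5)) := by
    rw [Real.rpow_def_of_pos hnpos]; congr 1; ring
  have h2 : (2 * (n : ℝ) ^ (-(1 / 5 : ℝ))) ^ n = 2 ^ n * Real.exp ((n : ℝ) * (-(L / 5))) := by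
    rw [h1, mul_pow, Real.exp_nat_mul]
  have h3 : 1 / Real.exp (-(n * L / 20)) = Real.exp (n * L / 20) := by
    rw [Real.exp_neg]; field_simp
  have h30 : (30 : ℝ) ^ n ≤ Real.exp ((n : ℝ) * 5) := by
    rw [Real.exp_nat_mul]
    refine pow_le_pow_left₀ (by norm_num) ?_ n
    have h9 : (2 : ℝ) ≤ Real.exp 1 := by linarith [Real.add_one_le_exp (1 : ℝ)]
    have h10 : Real.exp 5 = Real.exp 1 ^ 5 := by
      rw [← Real.exp_nat_mul]; norm_num
    rw [h10]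
    calc (30 : ℝ) ≤ 2 ^ 5 := by norm_num
      _ ≤ Real.exp 1 ^ 5 := pow_le_pow_left₀ (by norm_num) h9 5
  have h4 : (3 : ℝ) ^ n * 2 ^ n = (1 / 5) ^ n * 30 ^ n := by
    rw [← mul_pow, ← mul_pow]; norm_num
  rw [h2, h3]
  calc Real.exp (n * L / 20) * (c * n * L * (3 ^ n * (2 ^ n * Real.exp ((n : ℝ) * (-(L / 5))))))
      = (c * n * L) * (3 ^ n * 2 ^ n) * (Real.exp (n * L / 20) *
          Real.exp ((n : ℝ) * (-(L / 5)))) := by ring
    _ ≤ Real.exp (2 * L) * ((1 / 5) ^ n * Real.exp ((n : ℝ) * 5)) * (Real.exp (n * L / 20) *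
          Real.exp ((n : ℝ) * (-(L / 5)))) := by
        rw [h4]
        gcongr
    _ = (1 / 5) ^ n * (Real.exp (2 * L) * Real.exp ((n : ℝ) * 5) * (Real.exp (n * L / 20) *
          Real.exp ((n : ℝ) * (-(L / 5))))) := by ring
    _ = (1 / 5) ^ n * Real.exp (2 * L + (n : ℝ) * 5 + (n * L / 20 + (n : ℝ) * (-(L / 5)))) := by
        rw [← Real.exp_add, ← Real.exp_add, ← Real.exp_add]
    _ ≤ (1 / 5) ^ n * 1 := by
        refine mul_le_mul_of_nonneg_left ?_ (by positivity)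
        rw [Real.exp_le_one_iff]
        have : (n : ℝ) * 40 ≤ n * L := by gcongr
        nlinarith
    _ = (1 / 5) ^ n := mul_one _

lemma num_hN9 (hn : 1 ≤ n) {c : ℝ} (hc0 : 0 ≤ c) (hc : c ≤ 1)
    (hL : 40 ≤ Real.log n) (hLn : 8 * Real.log n ≤ n) :
    (c * n * Real.log n) * (3 ^ n * (2 * (1 / 40)) ^ n) ≤ (1 / 5 : ℝ) ^ n := by
  have hn0 : (1 : ℝ) ≤ n := by exact_mod_cast hn
  have hN := num_N_le hn hc0 hc (by linarith) (by linarith)
  have h1 : (3 : ℝ) ^ n * (2 * (1 / 40)) ^ n = (1 / 5) ^ n * (3 / 4) ^ n := by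
    rw [← mul_pow, ← mul_pow]; norm_num
  have h2 : (3 / 4 : ℝ) ^ n ≤ Real.exp ((n : ℝ) * (-(1 / 4))) := by
    rw [Real.exp_nat_mul]
    refine pow_le_pow_left₀ (by norm_num) ?_ n
    have := Real.add_one_le_exp (-(1 / 4 : ℝ))
    linarith
  rw [h1]
  calc c * n * Real.log n * ((1 / 5) ^ n * (3 / 4) ^ n)
      ≤ Real.exp (2 * Real.log n) * ((1 / 5) ^ n * Real.exp ((n : ℝ) * (-(1 / 4)))) := by
        gcongr
    _ = (1 / 5) ^ n * Real.exp (2 * Real.log n + (n : ℝ) * (-(1 / 4))) := by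
        rw [Real.exp_add]; ring
    _ ≤ (1 / 5) ^ n * 1 := by
        refine mul_le_mul_of_nonneg_left ?_ (by positivity)
        rw [Real.exp_le_one_iff]
        linarith
    _ = (1 / 5) ^ n := mul_one _

lemma num_final (hn : 20 ≤ n) :
    Real.exp (-(1 / (2 * (3 * (1 / 5 : ℝ) ^ n)))) ≤ Real.exp (-(4 : ℝ) ^ n) := by
  rw [Real.exp_le_exp, neg_le_neg_iff, le_div_iff₀ (by positivity)]
  have h1 : (1 : ℝ) + n * (1 / 4) ≤ (1 + 1 / 4) ^ n :=
    one_add_mul_le_pow (by norm_num) n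
  have hn' : (20 : ℝ) ≤ n := by exact_mod_cast hn
  have h2 : (6 : ℝ) ≤ (5 / 4) ^ n := by
    have : (1 + 1 / 4 : ℝ) = 5 / 4 := by norm_num
    rw [this] at h1
    linarith
  have h3 : (4 : ℝ) ^ n * (1 / 5) ^ n * (5 / 4) ^ n = 1 := by
    rw [← mul_pow, ← mul_pow]; norm_num
  have h4 : (0 : ℝ) < (4 : ℝ) ^ n * (1 / 5) ^ n := by positivity
  nlinarith

end num

/-! ### the probability estimate, given the Gaussian estimates -/

set_option maxHeartbeats 1000000 in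
theorem config_prob_of
    (hB1 : ∃ C : ℝ, 0 < C ∧ ∀ᶠ n : ℕ in atTop, ∀ z : EE n, ‖z‖ ≤ 1 + eta n →
      qw n z ≤ (n : ℝ) ^ 2 →
        1 ≤ qw n z → Real.exp (-C * qw n z) ≤ nu n (kill n z) ∧
        Real.exp (-C * Real.log n) ≤ nu n (kill n z))
    (hB3 : ∃ C : ℝ, 0 < C ∧ ∀ᶠ n : ℕ in atTop, ∀ z z' : EE n,
      ‖z‖ ≤ 1 + eta n → ‖z'‖ ≤ 1 + eta n →
      nu n (kill n z ∩ kill n z') ≤
        C * Real.sqrt n * Real.exp (-((25600 / 9) * n * ‖z - z'‖ ^ 2)))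
    (hB4 : ∀ (A : ℝ), 0 < A → ∃ C : ℝ, 0 < C ∧ ∀ᶠ n : ℕ in atTop,
      ∀ F : Finset (EE n), (F.card : ℝ) ≤ (n : ℝ) ^ 2 →
      (∀ z ∈ F, ‖z‖ ≤ 1 + eta n ∧ 1 ≤ qw n z ∧ qw n z ≤ (n : ℝ) ^ 2) →
      (∃ z₀ ∈ F, ∀ z ∈ F, ‖z - z₀‖ ≤ A * Real.sqrt (Real.log n / n)) →
      Real.exp (-C * Real.log n) ≤ nu n {u | ∀ z ∈ F, u ∈ kill n z}) :
    ∃ c : ℝ, 0 < c ∧ ∀ᶠ n : ℕ in atTop,
    ∀ (X Y G : Finset (EE n)), X.card ≤ 3 ^ n → Y.Nonempty →
    (∀ y ∈ Y, ∑ x ∈ X, qw n (y - x) ≤ c * n * Real.log n) →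
    (∀ y ∈ Y, ∀ x ∈ X, ‖y - x‖ ≤ 1 + eta n → y - x ∈ G) →
    (∀ p : EE n, ∀ r : ℝ, (r = (n : ℝ) ^ (-(1 / 5 : ℝ)) ∨ r = 1 / 40) →
      ((Y.filter (fun y => dist y p ≤ r)).card : ℝ) ≤ (2 * r) ^ n * Y.card) →
    Ex (pp n G) G.powerset
      (fun t => if ∀ y ∈ Y, ∃ x ∈ X, ‖y - x‖ ≤ 1 + eta n ∧ ∀ v ∈ t, y - x ∉ v then 1 else 0)
      ≤ Real.exp (-(4 : ℝ) ^ n) := by
  obtain ⟨C1, hC1, hB1⟩ := hB1
  obtain ⟨C3, hC3, hB3⟩ := hB3
  obtain ⟨C4, hC4, hB4⟩ := hB4 (C1 + 1) (by linarith)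
  set c : ℝ := 1 / (40 * (C1 + 2)) with hc
  have hc0 : 0 < c := by positivity
  have hc2 : c ≤ 1 / 2 := by
    rw [hc, div_le_div_iff₀ (by positivity) (by norm_num)]
    linarith
  refine ⟨c, hc0, ?_⟩
  have hcast : Tendsto (fun n : ℕ => (n : ℝ)) atTop atTop := tendsto_natCast_atTop_atTop
  have e1 := hcast.eventually (ev_main (8 * (2 + C1 + C4)))
  have e2 := hcast.eventually (ev_sqrt (80 * (C4 + 1)))
  have e3 := hcast.eventually (ev_sqrt 8)
  have e4 : ∀ᶠ n : ℕ in atTop, 40 ≤ Real.log n :=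
    hcast.eventually (Real.tendsto_log_atTop.eventually_ge_atTop 40)
  have e5 : ∀ᶠ n : ℕ in atTop, C3 ≤ n := hcast.eventually_ge_atTop C3
  filter_upwards [hB1, hB3, hB4, e1, e2, e3, e4, e5, eventually_ge_atTop 20] with n hB1 hB3 hB4
    e1 e2 e3 e4 e5 hn20
  intro X Y G hX hY hsum hG hcount
  have hn : 1 ≤ n := by omega
  have hn0 : (1 : ℝ) ≤ n := by exact_mod_cast hn
  have hnpos : (0 : ℝ) < n := by linarith
  have hs1 : 1 ≤ Real.sqrt n := Real.one_le_sqrt.mpr hn0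
  have hsn : Real.sqrt n ≤ n := by
    rw [Real.sqrt_le_left hnpos.le]; nlinarith
  have h8L : 8 * Real.log n ≤ n := e3.trans hsn
  have hLn : Real.log n ≤ n := by linarith
  have hL0 : 0 ≤ Real.log n := by linarith
  have hNn : c * n * Real.log n ≤ (n : ℝ) ^ 2 := by
    calc c * n * Real.log n ≤ 1 * n * n := by gcongr; linarith
      _ = (n : ℝ) ^ 2 := by ring
  have hexp1 : ∀ C : ℝ, 0 ≤ C → Real.exp (-C * Real.log n) ≤ 1 := by
    intro C hC
    rw [Real.exp_le_one_iff]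
    have := mul_nonneg hC hL0
    linarith
  set k0 := ⌈Real.sqrt n⌉₊ with hk0
  set m := ⌈c * Real.sqrt n * Real.log n⌉₊ with hm
  have hcorr := num_corr hn C1 C3 C4 c hC1 hC3.le hC4 hc0.le hc2 e4 hLn e5
  refine (config_core hn X Y G hY (c * n * Real.log n) k0 (k0 + m) m C1
    (Real.exp (-C1 * Real.log n)) (Real.exp (-C4 * Real.log n)) (C3 * Real.sqrt n)
    (25600 / 9 * n) ((C1 + 1) * Real.sqrt (Real.log n / n))
    (Real.exp (-((C1 + C4) * Real.log n)) / 4) (Real.exp (-(n * Real.log n / 20)))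
    ((1 / 5) ^ n) ((n : ℝ) ^ (-(1 / 5 : ℝ))) (by exact_mod_cast hX) hsum hG
    (fun p => hcount p _ (Or.inl rfl)) (fun p => hcount p _ (Or.inr rfl)) ?_ ?_ ?_
    (Real.exp_pos _) (hexp1 C1 hC1.le) (Real.exp_pos _) (hexp1 C4 hC4.le) (by positivity)
    (by positivity) hC1.le (by positivity) (by positivity) ?_ (by positivity) ?_ ?_
    ?_ ?_ le_rfl (Real.exp_pos _) ?_ ?_ (by positivity) ?_ ?_ ?_ ?_).trans (num_final hn20)
  · -- B1
    intro z hz hq1 hq2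
    obtain ⟨h1, h2⟩ := hB1 z hz (hq2.trans hNn) hq1
    rw [neg_mul] at h1
    exact ⟨h1, h2⟩
  · -- B3
    intro z z' hz hz'
    exact hB3 z z' hz hz'
  · -- B4
    intro F hF hFz hF0
    exact hB4 F (hF.trans hNn) (fun z hz => ⟨(hFz z hz).1, (hFz z hz).2.1,
      (hFz z hz).2.2.trans hNn⟩) hF0
  · -- hE
    exact num_hE hn C1 C3 c hC1 hC3.le hc0.le hc2 hL0 hLn e5
  · -- π ≤ b / 4
    refine div_le_div_of_nonneg_right ?_ (by norm_num)
    rw [Real.exp_le_exp]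
    nlinarith
  · -- π ≤ b4 / 2
    have h1 : Real.exp (-((C1 + C4) * Real.log n)) ≤ Real.exp (-C4 * Real.log n) := by
      rw [Real.exp_le_exp]; nlinarith
    have h2 := Real.exp_pos (-C4 * Real.log n)
    linarith
  · -- 1 ≤ k0
    exact Nat.one_le_iff_ne_zero.mpr (Nat.ceil_pos.mpr (by linarith)).ne'
  · -- N ≤ k0 * m
    have h1 : Real.sqrt n ≤ k0 := Nat.le_ceil _
    have h2 : c * Real.sqrt n * Real.log n ≤ m := Nat.le_ceil _
    calc c * n * Real.log n = Real.sqrt n * (c * Real.sqrt n * Real.log n) := by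
          have : (n : ℝ) = Real.sqrt n * Real.sqrt n := (Real.mul_self_sqrt hnpos.le).symm
          nth_rewrite 1 [this]
          ring
      _ ≤ k0 * m := mul_le_mul h1 h2 (by positivity) (by positivity)
  · -- ha
    exact num_ha hn C1 C4 c hC1 hC4 hc (by linarith) e2
  · -- hmid
    have := num_hmid hn hcorr e1
    refine le_trans (le_of_eq ?_) this
    ring
  · -- δ ≤ 1
    exact pow_le_one₀ (by norm_num) (by norm_num)
  · -- hfar
    have := num_hfar hn hcorr e1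
    refine le_trans (le_of_eq ?_) this
    ring
  · exact num_hN8 hn hc0.le (by linarith) e4 h8L
  · exact num_hN9 hn hc0.le (by linarith) e4 h8L

end Crest.Agent.R225.LB
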