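import Mathlib

/-!
Row 225, statement S0348 (lower bound for translative coverings): shared definitions.

`Ex p s f` : expectation of `f` over the random subset of the finite ground set `s` in which the
element `a` is present with probability `p a`, independently.
-/

set_option autoImplicit false

namespace Crest.Agent.R225.LB

open MeasureTheory ProbabilityTheory Finset


/-- Expectation over a random subset of `s`. -/
noncomputable def Ex {α : Type*} [DecidableEq α] (p : α → ℝ) (s : Finset α)
    (f : Finset α → ℝ) : ℝ :=
  ∑ t ∈ s.powerset, (∏ a ∈ t, p a) * (∏ a ∈ s \ t, (1 - p a)) * f t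

/-- Euclidean `n`-space. -/
abbrev EE (n : ℕ) := EuclideanSpace ℝ (Fin n)

/-- One-dimensional Gaussian tail. -/
noncomputable def Q (s : ℝ) : ℝ := (gaussianReal 0 1).real (Set.Ici s)

/-- The threshold `s0 = √(25600 n)`. -/
noncomputable def s0 (n : ℕ) : ℝ := 160 * Real.sqrt n

/-- The box `‖u‖_∞ ≤ n`. -/
def box (n : ℕ) : Set (EE n) := {u | ∀ i, |u i| ≤ n}

/-- The intensity measure of the facets (as a real valued set function). -/
noncomputable def nu (n : ℕ) (S : Set (EE n)) : ℝ :=
  (stdGaussian (EE n)).real (S ∩ box n) / Q (s0 n)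

/-- `u` kills `z`. -/
def kill (n : ℕ) (z : EE n) : Set (EE n) := {u | s0 n ≤ inner ℝ u z}

/-- The small parameter `n^{-3}`. -/
noncomputable def eta (n : ℕ) : ℝ := 1 / (n : ℝ) ^ 3

open scoped Classical in
/-- Step weight (roughly `e^{depth/2}`). -/
noncomputable def qw (n : ℕ) (z : EE n) : ℝ :=
  ∑ j ∈ Finset.range n, Real.exp (j / 2) * (if ‖z‖ ≤ 1 + eta n - j / n then 1 else 0)

open scoped Classical in
/-- the pattern of `u`: the test points killed by `u`. -/
noncomputable def pat (n : ℕ) (G : Finset (EE n)) (u : EE n) : Finset (EE n) :=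
  G.filter (fun z => u ∈ kill n z)

/-- inclusion probability of the pattern `v`. -/
noncomputable def pp (n : ℕ) (G : Finset (EE n)) (v : Finset (EE n)) : ℝ :=
  1 - Real.exp (- nu n {u | pat n G u = v})

end Crest.Agent.R225.LB
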