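import Crest.Agent.R225.LB.BodyVol

/-!
Existence of a good realisation of the random body (S0348-E).
-/

set_option autoImplicit false

namespace Crest.Agent.R225.LB.Body

open MeasureTheory ProbabilityTheory Finset Filter Crest.Agent.R225.LB
open Crest.Agent.R225.LB.ExLib Crest.Agent.R225.LB.Grid

/-- the statement of `config_prob` for fixed `n` -/
def CP (c : ℝ) (n : ℕ) : Prop :=
    ∀ (X Y G : Finset (EE n)), X.card ≤ 3 ^ n → Y.Nonempty →
    (∀ y ∈ Y, ∑ x ∈ X, qw n (y - x) ≤ c * n * Real.log n) →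
    (∀ y ∈ Y, ∀ x ∈ X, ‖y - x‖ ≤ 1 + eta n → y - x ∈ G) →
    (∀ p : EE n, ∀ r : ℝ, (r = (n : ℝ) ^ (-(1 / 5 : ℝ)) ∨ r = 1 / 40) →
      ((Y.filter (fun y => dist y p ≤ r)).card : ℝ) ≤ (2 * r) ^ n * Y.card) →
    Ex (pp n G) G.powerset
      (fun t => if ∀ y ∈ Y, ∃ x ∈ X, ‖y - x‖ ≤ 1 + eta n ∧ ∀ v ∈ t, y - x ∉ v then 1 else 0)
      ≤ Real.exp (-(4 : ℝ) ^ n)

/-- the statement of `nu_kill_le` for fixed `n` -/
def B2 (n : ℕ) : Prop :=
  ∀ z : EE n, ‖z‖ ≤ 1 - 1 / n → nu n {u | s0 n - 1 / s0 n ≤ inner ℝ u z} ≤ 1 / 8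

/-- test points -/
noncomputable def Y0 (n : ℕ) : Finset (EE n) := GB n (3 / 5)

/-- good test points -/
noncomputable def YX (n : ℕ) (c : ℝ) (X : Finset (EE n)) : Finset (EE n) :=
  (Y0 n).filter (fun y => ∑ x ∈ X, qw n (y - x) ≤ c * n * Real.log n)

/-- admissible configurations -/
noncomputable def Adm (n : ℕ) (c : ℝ) : Finset (Finset (EE n)) :=
  (GB n 2).powerset.filter (fun X => X.card ≤ 3 ^ n ∧ (Y0 n).card ≤ 2 * (YX n c X).card)

/-- number of small subsets -/
theorem card_small_subsets {α : Type*} [DecidableEq α] (S : Finset α) (k : ℕ) :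
    (S.powerset.filter (fun T => T.card ≤ k)).card ≤ (S.card + 1) ^ k := by
  induction k with
  | zero =>
    rw [pow_zero]
    have : S.powerset.filter (fun T => T.card ≤ 0) ⊆ {∅} := by
      intro T hT
      rw [mem_filter] at hT
      rw [mem_singleton]
      exact card_eq_zero.1 (Nat.le_zero.1 hT.2)
    simpa using card_le_card this
  | succ k ih =>
    set F := S.powerset.filter (fun T => T.card ≤ k) with hF
    have hsub : S.powerset.filter (fun T => T.card ≤ k + 1) ⊆
        F ∪ (S ×ˢ F).image (fun q => insert q.1 q.2) := by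
      intro T hT
      rw [mem_filter, mem_powerset] at hT
      rw [mem_union]
      by_cases h : T.card ≤ k
      · left
        rw [hF, mem_filter, mem_powerset]
        exact ⟨hT.1, h⟩
      · right
        have hcard : T.card = k + 1 := by omega
        have hne : T.Nonempty := by
          rw [← card_pos]; omega
        obtain ⟨a, ha⟩ := hne
        rw [mem_image]
        refine ⟨(a, T.erase a), ?_, insert_erase ha⟩
        rw [mem_product, hF, mem_filter, mem_powerset]
        refine ⟨hT.1 ha, (erase_subset _ _).trans hT.1, ?_⟩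
        rw [card_erase_of_mem ha]; omega
    calc (S.powerset.filter (fun T => T.card ≤ k + 1)).card
        ≤ (F ∪ (S ×ˢ F).image (fun q => insert q.1 q.2)).card := card_le_card hsub
      _ ≤ F.card + (S ×ˢ F).card := (card_union_le _ _).trans
          (Nat.add_le_add_left card_image_le _)
      _ = (S.card + 1) * F.card := by rw [card_product]; ring
      _ ≤ (S.card + 1) * (S.card + 1) ^ k := Nat.mul_le_mul_left _ ih
      _ = (S.card + 1) ^ (k + 1) := by ring

theorem card_Adm_le (n : ℕ) (c : ℝ) : (Adm n c).card ≤ ((4 * n ^ 4 + 1) ^ n + 1) ^ (3 ^ n) := by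
  classical
  calc (Adm n c).card ≤ ((GB n 2).powerset.filter (fun T => T.card ≤ 3 ^ n)).card := by
        refine card_le_card fun X hX => ?_
        unfold Adm at hX
        rw [mem_filter] at hX ⊢
        exact ⟨hX.1, hX.2.1⟩
    _ ≤ ((GB n 2).card + 1) ^ (3 ^ n) := card_small_subsets _ _
    _ ≤ _ := Nat.pow_le_pow_left (Nat.add_le_add_right (card_GB_le n 2) 1) _

/-- ball counts -/
theorem ball_count {n : ℕ} (hn : 75 ≤ n) {Y : Finset (EE n)} (hY : Y ⊆ Y0 n)
    (hcard : (Y0 n).card ≤ 2 * Y.card) (p : EE n) {r : ℝ}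
    (hr : r = (n : ℝ) ^ (-(1 / 5 : ℝ)) ∨ r = 1 / 40) :
    ((Y.filter (fun y => dist y p ≤ r)).card : ℝ) ≤ (2 * r) ^ n * Y.card := by
  have hn0 : 0 < n := by omega
  have hn' : (75 : ℝ) ≤ n := by exact_mod_cast hn
  have hnpos : (0 : ℝ) < n := by linarith
  have hm := mesh_pos hn0
  have hVB := VB_pos n
  set δ : ℝ := mesh n * √n with hδ
  have hδ0 : 0 ≤ δ := by positivity
  have hδ1 : δ ≤ 1 / (n : ℝ) ^ 3 := mesh_sqrt_le hn0
  have hδ2 : δ ≤ 1 / 100 * (1 / n) := by
    have h10 : 1 / (n : ℝ) ^ 3 = 1 / (n : ℝ) ^ 2 * (1 / n) := by field_simp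
    rw [h10] at hδ1
    refine hδ1.trans (mul_le_mul_of_nonneg_right ?_ (by positivity))
    exact one_div_le_one_div_of_le (by norm_num) (by nlinarith)
  have hinv : 1 / (n : ℝ) ≤ 1 / 75 := one_div_le_one_div_of_le (by norm_num) hn'
  have hr0 : 0 < r := by
    rcases hr with h | h <;> rw [h]
    · positivity
    · norm_num
  have hδr : δ ≤ 1 / 100 * r := by
    refine hδ2.trans (mul_le_mul_of_nonneg_left ?_ (by norm_num))
    rcases hr with h | h <;> rw [h]
    · rw [one_div, ← Real.rpow_neg_one]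
      exact Real.rpow_le_rpow_of_exponent_le (by linarith) (by norm_num)
    · linarith
  have hlt2 : (3 / 5 : ℝ) ≤ 2 := by norm_num
  have h1 : (((Y.filter (fun y => dist y p ≤ r)).card : ℝ)) * mesh n ^ n ≤
      (r + δ) ^ n * VB n := by
    refine card_mul_le hn0 _ (fun z hz => ?_) p hr0.le (fun z hz => (mem_filter.1 hz).2)
    have := hY (mem_filter.1 hz).1
    exact ((mem_GB hlt2).1 this).1
  have h2 : (3 / 5 - δ) ^ n * VB n ≤ ((Y0 n).card : ℝ) * mesh n ^ n :=
    le_card_mul hn0 hlt2 (by rw [← hδ]; linarith)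
  have hcard' : ((Y0 n).card : ℝ) ≤ 2 * Y.card := by exact_mod_cast hcard
  have h3 : (r + δ) ^ n ≤ (2 * r) ^ n * ((3 / 5 - δ) ^ n / 2) := by
    have h4 : (2 : ℝ) ≤ (11 / 10) ^ n := by
      have := one_add_mul_le_pow (a := (1 / 10 : ℝ)) (by norm_num) n
      have h5 : (1 : ℝ) + n * (1 / 10) ≤ (1 + 1 / 10) ^ n := this
      norm_num at h5 ⊢
      linarith
    have h6 : r + δ ≤ 101 / 100 * r := by linarith
    have h7 : 101 / 100 * r * (11 / 10) ≤ 2 * r * (3 / 5 - δ) := by
      have : δ ≤ 1 / 100 := by linarith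
      nlinarith
    calc (r + δ) ^ n = (r + δ) ^ n * 1 := by ring
      _ ≤ (r + δ) ^ n * ((11 / 10) ^ n / 2) := by
        refine mul_le_mul_of_nonneg_left (by linarith) (by positivity)
      _ = ((r + δ) * (11 / 10)) ^ n / 2 := by rw [mul_pow]; ring
      _ ≤ (2 * r * (3 / 5 - δ)) ^ n / 2 := by
        refine div_le_div_of_nonneg_right ?_ (by norm_num)
        refine pow_le_pow_left₀ (by positivity) ?_ n
        calc (r + δ) * (11 / 10) ≤ 101 / 100 * r * (11 / 10) :=
              mul_le_mul_of_nonneg_right h6 (by norm_num)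
          _ ≤ _ := h7
      _ = _ := by rw [mul_pow]; ring
  have hmn : 0 < mesh n ^ n := by positivity
  have h8 : ((Y.filter (fun y => dist y p ≤ r)).card : ℝ) * mesh n ^ n ≤
      ((2 * r) ^ n * Y.card) * mesh n ^ n := by
    calc ((Y.filter (fun y => dist y p ≤ r)).card : ℝ) * mesh n ^ n ≤ (r + δ) ^ n * VB n := h1
      _ ≤ (2 * r) ^ n * ((3 / 5 - δ) ^ n / 2) * VB n := mul_le_mul_of_nonneg_right h3 hVB.le
      _ = (2 * r) ^ n * (((3 / 5 - δ) ^ n * VB n) / 2) := by ring
      _ ≤ (2 * r) ^ n * ((((Y0 n).card : ℝ) * mesh n ^ n) / 2) := by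
        refine mul_le_mul_of_nonneg_left (div_le_div_of_nonneg_right h2 (by norm_num))
          (by positivity)
      _ ≤ (2 * r) ^ n * ((2 * Y.card * mesh n ^ n) / 2) := by
        refine mul_le_mul_of_nonneg_left (div_le_div_of_nonneg_right ?_ (by norm_num))
          (by positivity)
        exact mul_le_mul_of_nonneg_right hcard' hmn.le
      _ = _ := by ring
  exact le_of_mul_le_mul_right h8 hmn

theorem Y0_nonempty {n : ℕ} (hn : 75 ≤ n) : (Y0 n).Nonempty := by
  have hlt2 : (3 / 5 : ℝ) ≤ 2 := by norm_num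
  refine ⟨gp n 0, (mem_GB hlt2).2 ⟨⟨0, rfl⟩, ?_⟩⟩
  have : gp n 0 = 0 := by ext i; simp
  rw [this, norm_zero]; norm_num

end Crest.Agent.R225.LB.Body
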