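import Crest.Agent.R225.LB.Good

/-!
Existence of a good realisation of the random body (S0348-E), continued.
-/

set_option autoImplicit false

namespace Crest.Agent.R225.LB.Body

open MeasureTheory ProbabilityTheory Finset Filter Crest.Agent.R225.LB
open Crest.Agent.R225.LB.ExLib Crest.Agent.R225.LB.Grid

theorem num1 : ∀ᶠ n : ℕ in atTop, (1 : ℝ) / 16 ≤ (1 - 2 / n) ^ n := by
  have h := Real.tendsto_one_add_div_pow_exp (-2)
  have h2 : (1 : ℝ) / 16 < Real.exp (-2) := by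
    rw [Real.exp_neg, one_div, inv_lt_inv₀ (by norm_num) (Real.exp_pos _)]
    have h3 : Real.exp 2 = Real.exp 1 ^ 2 := by
      rw [← Real.exp_nat_mul]; norm_num
    rw [h3]
    have h4 := Real.exp_one_lt_d9
    have h5 := Real.exp_pos 1
    nlinarith
  filter_upwards [h.eventually (lt_mem_nhds h2)] with n hn
  have : (1 : ℝ) + -2 / n = 1 - 2 / n := by ring
  rw [this] at hn
  exact hn.le

theorem num2 : ∀ᶠ n : ℕ in atTop,
    ((((4 * n ^ 4 + 1) ^ n + 1) ^ (3 ^ n) : ℕ) : ℝ) * Real.exp (-(4 : ℝ) ^ n) ≤ 1 / 100 := by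
  have h1 : ∀ᶠ n : ℕ in atTop, 4 * (n : ℝ) ^ 4 + 2 ≤ Real.exp n := by
    have := tendsto_pow_const_mul_const_pow_of_abs_lt_one 4 (r := Real.exp (-1))
      (by
        rw [abs_of_pos (Real.exp_pos _)]
        have := Real.exp_lt_exp.2 (show (-1 : ℝ) < 0 by norm_num)
        rwa [Real.exp_zero] at this)
    filter_upwards [this.eventually (gt_mem_nhds (show (0 : ℝ) < 1 / 6 by norm_num)),
      eventually_ge_atTop 1] with n hn hn1
    have hn' : (1 : ℝ) ≤ n := by exact_mod_cast hn1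
    have h2 : Real.exp (-1) ^ n = (Real.exp n)⁻¹ := by
      rw [← Real.exp_nat_mul, ← Real.exp_neg]; ring_nf
    rw [h2, ← div_eq_mul_inv, div_lt_iff₀ (Real.exp_pos _)] at hn
    have h3 : (1 : ℝ) ≤ (n : ℝ) ^ 4 := one_le_pow₀ hn'
    linarith
  have h2 : ∀ᶠ n : ℕ in atTop, (n : ℝ) ^ 2 * 3 ^ n ≤ 4 ^ n / 2 := by
    have := tendsto_pow_const_mul_const_pow_of_abs_lt_one 2 (r := (3 / 4 : ℝ))
      (by rw [abs_of_pos (by norm_num)]; norm_num)
    filter_upwards [this.eventually (gt_mem_nhds (show (0 : ℝ) < 1 / 2 by norm_num))] with n hn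
    have h4 : (0 : ℝ) < 4 ^ n := by positivity
    rw [div_pow] at hn
    have h5 : (n : ℝ) ^ 2 * 3 ^ n = ((n : ℝ) ^ 2 * (3 ^ n / 4 ^ n)) * 4 ^ n := by
      field_simp
    rw [h5]
    nlinarith
  filter_upwards [h1, h2, eventually_ge_atTop 5] with n hn1 hn2 hn5
  have hn' : (5 : ℝ) ≤ n := by exact_mod_cast hn5
  have h3 : (((4 * n ^ 4 + 1) ^ n + 1 : ℕ) : ℝ) ≤ Real.exp ((n : ℝ) ^ 2) := by
    push_cast
    calc (4 * (n : ℝ) ^ 4 + 1) ^ n + 1 ≤ (4 * (n : ℝ) ^ 4 + 1 + 1) ^ n := by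
          have := pow_add_pow_le (x := 4 * (n : ℝ) ^ 4 + 1) (y := 1) (by positivity)
            zero_le_one (show n ≠ 0 by omega)
          rwa [one_pow] at this
      _ ≤ (Real.exp n) ^ n := by
          refine pow_le_pow_left₀ (by positivity) ?_ n
          linarith
      _ = Real.exp ((n : ℝ) ^ 2) := by
          rw [← Real.exp_nat_mul]; ring_nf
  have h4 : ((((4 * n ^ 4 + 1) ^ n + 1) ^ (3 ^ n) : ℕ) : ℝ) ≤ Real.exp ((n : ℝ) ^ 2 * 3 ^ n) := by
    rw [Nat.cast_pow]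
    calc (((4 * n ^ 4 + 1) ^ n + 1 : ℕ) : ℝ) ^ (3 ^ n) ≤ Real.exp ((n : ℝ) ^ 2) ^ (3 ^ n) :=
          pow_le_pow_left₀ (by positivity) h3 _
      _ = Real.exp ((n : ℝ) ^ 2 * 3 ^ n) := by
          rw [← Real.exp_nat_mul]; push_cast; ring_nf
  have h5 : (10 : ℝ) ≤ 4 ^ n := by
    calc (10 : ℝ) ≤ 4 ^ 5 := by norm_num
      _ ≤ 4 ^ n := pow_le_pow_right₀ (by norm_num) hn5
  calc ((((4 * n ^ 4 + 1) ^ n + 1) ^ (3 ^ n) : ℕ) : ℝ) * Real.exp (-(4 : ℝ) ^ n)
      ≤ Real.exp ((n : ℝ) ^ 2 * 3 ^ n) * Real.exp (-(4 : ℝ) ^ n) :=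
        mul_le_mul_of_nonneg_right h4 (Real.exp_pos _).le
    _ = Real.exp ((n : ℝ) ^ 2 * 3 ^ n + -(4 : ℝ) ^ n) := (Real.exp_add _ _).symm
    _ ≤ Real.exp (-5) := Real.exp_le_exp.2 (by linarith)
    _ ≤ 1 / 100 := by
        rw [Real.exp_neg, one_div, inv_le_inv₀ (Real.exp_pos _) (by norm_num)]
        have h6 : Real.exp 5 = Real.exp 1 ^ 5 := by
          rw [← Real.exp_nat_mul]; norm_num
        rw [h6]
        have h7 : (2.7 : ℝ) ≤ Real.exp 1 := by
          have := Real.exp_one_gt_d9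
          linarith
        calc (100 : ℝ) ≤ 2.7 ^ 5 := by norm_num
          _ ≤ Real.exp 1 ^ 5 := pow_le_pow_left₀ (by norm_num) h7 5

/-- Existence of a good realisation. -/
theorem exists_good (c : ℝ) (hCP : ∀ᶠ n : ℕ in atTop, CP c n) (hB2 : ∀ᶠ n : ℕ in atTop, B2 n) :
    ∀ᶠ n : ℕ in atTop, 75 ≤ n ∧ ∃ t : Finset (Finset (EE n)), (∀ v ∈ t, 0 < pp n (GG n) v) ∧
      VB n / 60 ≤ volume.real (KB n t) ∧
      ∀ X ∈ Adm n c, ∃ y ∈ YX n c X, ∀ x ∈ X, ‖y - x‖ ≤ 1 + eta n → ∃ v ∈ t, y - x ∈ v := by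
  filter_upwards [hCP, hB2, num1, num2, eventually_ge_atTop 75] with n hCP hB2 h1 h2 hn
  refine ⟨hn, ?_⟩
  have hn0 : 0 < n := by omega
  have hVB := VB_pos n
  have hlt2 : (3 / 5 : ℝ) ≤ 2 := by norm_num
  -- the bad indicator
  set ind : Finset (EE n) → Finset (Finset (EE n)) → ℝ := fun X t =>
    if ∀ y ∈ YX n c X, ∃ x ∈ X, ‖y - x‖ ≤ 1 + eta n ∧ ∀ v ∈ t, y - x ∉ v then 1 else 0 with hind
  have hind0 : ∀ X t, 0 ≤ ind X t := by
    intro X t
    simp only [hind]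
    split_ifs <;> norm_num
  have hbad : ∀ X ∈ Adm n c, Ex (pp n (GG n)) (GG n).powerset (ind X) ≤
      Real.exp (-(4 : ℝ) ^ n) := by
    intro X hX
    unfold Adm at hX
    rw [mem_filter, mem_powerset] at hX
    obtain ⟨hXs, hX3, hXY⟩ := hX
    have hYne : (YX n c X).Nonempty := by
      rw [← card_pos]
      have := (Y0_nonempty hn).card_pos
      omega
    refine hCP X (YX n c X) (GG n) hX3 hYne (fun y hy => (mem_filter.1 hy).2) ?_ ?_
    · intro y hy x hx hxy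
      obtain ⟨⟨k, hk⟩, _⟩ := (mem_GB hlt2).1 (mem_filter.1 hy).1
      obtain ⟨⟨k', hk'⟩, _⟩ := (mem_GB le_rfl).1 (hXs hx)
      rw [mem_GG hn0]
      exact ⟨⟨k - k', by rw [← gp_sub, hk, hk']⟩, hxy⟩
    · intro p r hr
      exact ball_count hn (filter_subset _ _) hXY p hr
  have hEx : 1 / 60 < Ex (pp n (GG n)) (GG n).powerset
      (fun t => volume.real (KB n t) / VB n - ∑ X ∈ Adm n c, ind X t) := by
    rw [Ex_sub]
    have h3 : Ex (pp n (GG n)) (GG n).powerset (fun t => ∑ X ∈ Adm n c, ind X t) ≤ 1 / 100 := by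
      rw [Ex_sum]
      calc ∑ X ∈ Adm n c, Ex (pp n (GG n)) (GG n).powerset (ind X)
          ≤ ∑ X ∈ Adm n c, Real.exp (-(4 : ℝ) ^ n) := sum_le_sum hbad
        _ = ((Adm n c).card : ℝ) * Real.exp (-(4 : ℝ) ^ n) := by rw [sum_const, nsmul_eq_mul]
        _ ≤ ((((4 * n ^ 4 + 1) ^ n + 1) ^ (3 ^ n) : ℕ) : ℝ) * Real.exp (-(4 : ℝ) ^ n) := by
            refine mul_le_mul_of_nonneg_right ?_ (Real.exp_pos _).le
            exact_mod_cast card_Adm_le n c
        _ ≤ 1 / 100 := h2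
    have h4 : 1 / 30 ≤ Ex (pp n (GG n)) (GG n).powerset
        (fun t => volume.real (KB n t) / VB n) := by
      have h5 : (fun t : Finset (Finset (EE n)) => volume.real (KB n t) / VB n) =
          (fun t => (VB n)⁻¹ * volume.real (KB n t)) := by
        funext t; rw [div_eq_inv_mul]
      rw [h5, Ex_mul_left]
      have h6 := Ex_vol_ge hn hB2 h1
      calc (1 : ℝ) / 30 = (VB n)⁻¹ * (VB n / 30) := by field_simp
        _ ≤ _ := mul_le_mul_of_nonneg_left h6 (by positivity)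
    linarith
  obtain ⟨t, _, htpos, ht⟩ := exists_of_lt_Ex (pp_nonneg n _) (pp_le_one n _) _ hEx
  have hvol1 : volume.real (KB n t) / VB n ≤ 1 := by
    rw [div_le_one hVB]
    exact measureReal_mono (KB_subset_ball n t) measure_closedBall_lt_top.ne
  have hsum0 : 0 ≤ ∑ X ∈ Adm n c, ind X t := sum_nonneg fun X _ => hind0 X t
  refine ⟨t, htpos, ?_, ?_⟩
  · have h7 : 1 / 60 < volume.real (KB n t) / VB n := by linarith
    rw [lt_div_iff₀ hVB] at h7
    linarith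
  · intro X hX
    by_contra hcon
    push Not at hcon
    have h8 : ind X t = 1 := by
      simp only [hind]
      rw [if_pos]
      intro y hy
      obtain ⟨x, hx, hxy, hv⟩ := hcon y hy
      exact ⟨x, hx, hxy, hv⟩
    have h9 : ind X t ≤ ∑ X ∈ Adm n c, ind X t :=
      single_le_sum (f := fun X => ind X t) (fun X _ => hind0 X t) hX
    linarith

end Crest.Agent.R225.LB.Body
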