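import Crest.Agent.R225.LB.Defs

/-!
Interface of the S0348 development (statements with sorry; NEVER import this file in a proof).
-/

set_option autoImplicit false

namespace Crest.Agent.R225.LB.Iface

open MeasureTheory ProbabilityTheory Finset Filter Crest.Agent.R225.LB

/-! ### A. abstract Janson inequality for hitting events (module `Janson`) -/

theorem janson_hit {α ι κ : Type*} [DecidableEq α] [DecidableEq κ]
    (p : α → ℝ) (hp0 : ∀ a, 0 ≤ p a) (hp1 : ∀ a, p a ≤ 1)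
    (s : Finset α) (Y : Finset ι) (hY : Y.Nonempty)
    (T : ι → Finset κ) (U : ι → κ → Finset α) (hU : ∀ y ∈ Y, ∀ j ∈ T y, U y j ⊆ s)
    (π a Δ : ℝ) (k : ℕ) (hπ : 0 < π) (hπ1 : π ≤ 1)
    (hhit : ∀ y ∈ Y, ∀ j ∈ T y, π ≤ 1 - ∏ v ∈ U y j, (1 - p v))
    (hk : ∀ y ∈ Y, ∀ v ∈ s, ((T y).filter (fun j => v ∈ U y j)).card ≤ k)
    (ha : 0 < a)
    (hA : ∀ y ∈ Y, a ≤ ∏ j ∈ T y, (1 - ∏ v ∈ U y j, (1 - p v)))
    (D : ι → ι → ℝ)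
    (hD : ∀ y ∈ Y, ∀ y' ∈ Y, 1 / a ≤ D y y' ∨
      Real.exp ((1 / π) ^ (2 * k) * ∑ v ∈ (T y).biUnion (U y) ∩ (T y').biUnion (U y'), p v) - 1
        ≤ D y y')
    (hΔ : 0 < Δ) (hDΔ : ∀ y ∈ Y, ∑ y' ∈ Y, D y y' ≤ Δ * Y.card) :
    Ex p s (fun t => if ∀ y ∈ Y, ∃ j ∈ T y, t ∩ U y j = ∅ then 1 else 0)
      ≤ Real.exp (-(1 / (2 * Δ))) := by
  sorry

/-! ### B. Gaussian estimates (module `Gauss1`, `Gauss2`) -/

/-- B1: lower bound for the kill intensity -/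
theorem nu_kill_ge : ∃ C : ℝ, 0 < C ∧ ∀ᶠ n : ℕ in atTop, ∀ z : EE n, ‖z‖ ≤ 1 + eta n →
    qw n z ≤ (n : ℝ) ^ 2 →
      1 ≤ qw n z → Real.exp (-C * qw n z) ≤ nu n (kill n z) ∧
      Real.exp (-C * Real.log n) ≤ nu n (kill n z) := by
  sorry

/-- B2: upper bound (used for the volume of the body) -/
theorem nu_kill_le : ∀ᶠ n : ℕ in atTop, ∀ z : EE n, ‖z‖ ≤ 1 - 1 / n →
    nu n {u | s0 n - 1 / s0 n ≤ inner ℝ u z} ≤ 1 / 8 := by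
  sorry

/-- B3: joint kill intensity -/
theorem nu_kill_inter_le : ∃ C : ℝ, 0 < C ∧ ∀ᶠ n : ℕ in atTop, ∀ z z' : EE n,
    ‖z‖ ≤ 1 + eta n → ‖z'‖ ≤ 1 + eta n →
    nu n (kill n z ∩ kill n z') ≤
      C * Real.sqrt n * Real.exp (-((25600 / 9) * n * ‖z - z'‖ ^ 2)) := by
  sorry

/-- B4: one facet kills a whole small cluster -/
theorem nu_kill_cluster_ge (A : ℝ) (hA : 0 < A) : ∃ C : ℝ, 0 < C ∧ ∀ᶠ n : ℕ in atTop,
    ∀ F : Finset (EE n), (F.card : ℝ) ≤ (n : ℝ) ^ 2 →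
    (∀ z ∈ F, ‖z‖ ≤ 1 + eta n ∧ 1 ≤ qw n z ∧ qw n z ≤ (n : ℝ) ^ 2) →
    (∃ z₀ ∈ F, ∀ z ∈ F, ‖z - z₀‖ ≤ A * Real.sqrt (Real.log n / n)) →
    Real.exp (-C * Real.log n) ≤ nu n {u | ∀ z ∈ F, u ∈ kill n z} := by
  sorry

/-! ### C. combinatorial cluster lemma (module `Cluster`) -/

theorem cluster {E : Type*} [PseudoMetricSpace E] [DecidableEq E] (I : Finset E) (ε : ℝ)
    (k : ℕ) (hk : 1 ≤ k) :
    ∃ C : Finset (Finset E), (∀ S ∈ C, S ⊆ I ∧ k ≤ S.card ∧ ∃ x ∈ S, ∀ x' ∈ S, dist x' x ≤ ε) ∧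
      C.card * k ≤ I.card ∧
      ∀ x ∈ I \ C.biUnion id, ((I \ C.biUnion id).filter (fun x' => dist x' x ≤ ε)).card < k := by
  sorry

/-! ### D. probability estimate for one configuration (module `Config`) -/

theorem config_prob : ∃ c : ℝ, 0 < c ∧ ∀ᶠ n : ℕ in atTop,
    ∀ (X Y G : Finset (EE n)), X.card ≤ 3 ^ n → Y.Nonempty →
    (∀ y ∈ Y, ∑ x ∈ X, qw n (y - x) ≤ c * n * Real.log n) →
    (∀ y ∈ Y, ∀ x ∈ X, ‖y - x‖ ≤ 1 + eta n → y - x ∈ G) →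
    (∀ p : EE n, ∀ r : ℝ, (r = (n : ℝ) ^ (-(1 / 5 : ℝ)) ∨ r = 1 / 40) →
      ((Y.filter (fun y => dist y p ≤ r)).card : ℝ) ≤ (2 * r) ^ n * Y.card) →
    Ex (pp n G) G.powerset
      (fun t => if ∀ y ∈ Y, ∃ x ∈ X, ‖y - x‖ ≤ 1 + eta n ∧ ∀ v ∈ t, y - x ∉ v then 1 else 0)
      ≤ Real.exp (-(4 : ℝ) ^ n) := by
  sorry

/-! ### F. averaging (module `Avg`) -/

/-- If the upper density (with respect to cubes) of the locally finite set `X` is `< ρ`, then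
some translate sees at most twice the average in finitely many weighted ball counts. -/
theorem exists_translate {n : ℕ} (hn : 0 < n) (X : Set (EE n))
    (hX : ∀ R : ℝ, (X ∩ {x | ∀ i, |x i| ≤ R}).Finite) (ρ : ℝ) (hρ : 0 < ρ)
    (hlim : limsup (fun R : ℝ => ((X ∩ {x | ∀ i, |x i| ≤ R}).ncard : ENNReal) /
              ENNReal.ofReal ((2 * R) ^ n)) atTop < ENNReal.ofReal ρ)
    {ι : Type*} (J : Finset ι) (c : ι → ℝ) (hc : ∀ j ∈ J, 0 ≤ c j) (w : ι → EE n) (r : ι → ℝ)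
    (hr : ∀ j ∈ J, 0 ≤ r j) :
    ∃ v : EE n, ∑ j ∈ J, c j * ((X ∩ Metric.closedBall (v + w j) (r j)).ncard : ℝ) ≤
      2 * ρ * ∑ j ∈ J, c j * (volume (Metric.closedBall (0 : EE n) (r j))).toReal := by
  sorry

end Crest.Agent.R225.LB.Iface
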