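import Crest.Agent.R225.LB.Window

/-!
A good body is not a cell of a thin covering (S0348-E).
-/

set_option autoImplicit false

namespace Crest.Agent.R225.LB.Body

open MeasureTheory ProbabilityTheory Finset Filter Crest.Agent.R225.LB
open Crest.Agent.R225.LB.ExLib Crest.Agent.R225.LB.Grid

theorem finite_inter_closedBall {n : ℕ} {X : Set (EE n)}
    (hX : ∀ R : ℝ, (X ∩ {x | ∀ i, |x i| ≤ R}).Finite) (p : EE n) (r : ℝ) :
    (X ∩ Metric.closedBall p r).Finite := by
  refine (hX (‖p‖ + r)).subset ?_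
  rintro x ⟨hx, hxp⟩
  refine ⟨hx, fun i => (abs_apply_le x i).trans ?_⟩
  rw [Metric.mem_closedBall, dist_eq_norm] at hxp
  calc ‖x‖ = ‖p + (x - p)‖ := by congr 1; abel
    _ ≤ ‖p‖ + ‖x - p‖ := norm_add_le _ _
    _ ≤ _ := by linarith

/-- Key: a locally finite set of small density cannot cover with a good body. -/
theorem le_density {c : ℝ} (hc : 0 < c) : ∀ᶠ n : ℕ in atTop, ∀ t : Finset (Finset (EE n)),
    (∀ v ∈ t, 0 < pp n (GG n) v) →
    (∀ X ∈ Adm n c, ∃ y ∈ YX n c X, ∀ x ∈ X, ‖y - x‖ ≤ 1 + eta n → ∃ v ∈ t, y - x ∈ v) →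
    ∀ X : Set (EE n), (∀ R : ℝ, (X ∩ {x | ∀ i, |x i| ≤ R}).Finite) →
      (∀ y : EE n, ∃ x ∈ X, y - x ∈ KB n t) →
      ENNReal.ofReal (c / 40 * n * Real.log n / VB n) ≤
        limsup (fun R : ℝ => ((X ∩ {x | ∀ i, |x i| ≤ R}).ncard : ENNReal) /
              ENNReal.ofReal ((2 * R) ^ n)) atTop := by
  filter_upwards [num3 (c / 40), eventually_ge_atTop 75] with n hnum hn t htpos hgood X hX hcov
  classical
  have hn0 : 0 < n := by omega
  have hn' : (75 : ℝ) ≤ n := by exact_mod_cast hn
  have hVB := VB_pos n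
  have hlog : 0 < Real.log n := Real.log_pos (by linarith)
  have hlt2 : (3 / 5 : ℝ) ≤ 2 := by norm_num
  by_contra hcon
  rw [not_le] at hcon
  set L : ℝ := c / 40 * n * Real.log n with hL
  have hLpos : 0 < L := by positivity
  have hfin := finite_inter_closedBall hX
  have hY0pos : (0 : ℝ) < (Y0 n).card := by
    exact_mod_cast (Y0_nonempty hn).card_pos
  -- the translate
  set cc : Option (EE n × ℕ) → ℝ := fun o => match o with
    | none => (1 / (17 / 10 : ℝ)) ^ n
    | some q => Real.exp ((q.2 : ℝ) / 2) / (Y0 n).card with hcc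
  set ww : Option (EE n × ℕ) → EE n := fun o => match o with
    | none => 0
    | some q => q.1 with hww
  set rr : Option (EE n × ℕ) → ℝ := fun o => match o with
    | none => 17 / 10
    | some q => rad n q.2 with hrr
  obtain ⟨v, hv⟩ := exists_translate hn0 X hX (L / VB n) (by positivity) hcon
    (insertNone (Y0 n ×ˢ range n)) cc (by
      intro o _
      cases o with
      | none => simp only [hcc]; positivity
      | some q => simp only [hcc]; positivity) ww rr (by
      intro o ho
      cases o with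
      | none => simp only [hrr]; norm_num
      | some q =>
        rw [mem_insertNone] at ho
        have := ho q rfl
        rw [mem_product, mem_range] at this
        exact rad_nonneg hn0 this.2)
  rw [sum_insertNone, sum_insertNone, sum_product, sum_product] at hv
  simp only [hcc, hww, hrr, add_zero] at hv
  -- right hand side
  have hvol17 : (volume (Metric.closedBall (0 : EE n) (17 / 10))).toReal =
      (17 / 10 : ℝ) ^ n * VB n := volume_real_closedBall 0 (by norm_num)
  have hvolr : ∀ j ∈ range n, (volume (Metric.closedBall (0 : EE n) (rad n j))).toReal =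
      rad n j ^ n * VB n := fun j hj => volume_real_closedBall 0 (rad_nonneg hn0 (mem_range.1 hj))
  have hR : (1 / (17 / 10 : ℝ)) ^ n * (volume (Metric.closedBall (0 : EE n) (17 / 10))).toReal +
      ∑ x ∈ Y0 n, ∑ j ∈ range n, Real.exp ((j : ℝ) / 2) / (Y0 n).card *
        (volume (Metric.closedBall (0 : EE n) (rad n j))).toReal ≤ 10 * VB n := by
    have h1 : (1 / (17 / 10 : ℝ)) ^ n *
        (volume (Metric.closedBall (0 : EE n) (17 / 10))).toReal = VB n := by
      rw [hvol17, ← mul_assoc, ← mul_pow]; norm_num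
    have h2 : ∑ x ∈ Y0 n, ∑ j ∈ range n, Real.exp ((j : ℝ) / 2) / (Y0 n).card *
        (volume (Metric.closedBall (0 : EE n) (rad n j))).toReal =
        (∑ j ∈ range n, Real.exp (j / 2) * rad n j ^ n) * VB n := by
      rw [sum_const, nsmul_eq_mul, sum_mul, mul_sum]
      refine sum_congr rfl fun j hj => ?_
      rw [hvolr j hj]
      field_simp
    rw [h1, h2]
    have h3 := mul_le_mul_of_nonneg_right (sum_exp_le n (by omega)) hVB.le
    linarith
  have hRHS : 2 * (L / VB n) * ((1 / (17 / 10 : ℝ)) ^ n *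
      (volume (Metric.closedBall (0 : EE n) (17 / 10))).toReal +
      ∑ x ∈ Y0 n, ∑ j ∈ range n, Real.exp ((j : ℝ) / 2) / (Y0 n).card *
        (volume (Metric.closedBall (0 : EE n) (rad n j))).toReal) ≤ 20 * L := by
    calc _ ≤ 2 * (L / VB n) * (10 * VB n) := mul_le_mul_of_nonneg_left hR (by positivity)
      _ = 20 * L := by field_simp; ring
  have hmain := hv.trans hRHS
  -- the weighted counts
  set S : EE n → ℝ := fun y => ∑ j ∈ range n, Real.exp (j / 2) *
        ((X ∩ Metric.closedBall (v + y) (rad n j)).ncard : ℝ) with hS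
  have hS0 : ∀ y, 0 ≤ S y := fun y => sum_nonneg fun j _ => by positivity
  have hsum : ∑ x ∈ Y0 n, ∑ j ∈ range n, Real.exp ((j : ℝ) / 2) / (Y0 n).card *
      ((X ∩ Metric.closedBall (v + x) (rad n j)).ncard : ℝ) = (∑ y ∈ Y0 n, S y) / (Y0 n).card := by
    rw [sum_div]
    refine sum_congr rfl fun y _ => ?_
    simp only [hS]
    rw [sum_div]
    exact sum_congr rfl fun j _ => by ring
  have hsum0 : 0 ≤ (∑ y ∈ Y0 n, S y) / (Y0 n).card :=
    div_nonneg (sum_nonneg fun y _ => hS0 y) hY0pos.le
  have hpow : (0 : ℝ) < (1 / (17 / 10 : ℝ)) ^ n := by positivity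
  rw [hsum] at hmain
  have ha : ((X ∩ Metric.closedBall v (17 / 10)).ncard : ℝ) ≤ 3 ^ n := by
    have h1 : (1 / (17 / 10 : ℝ)) ^ n * ((X ∩ Metric.closedBall v (17 / 10)).ncard : ℝ) ≤
        20 * L := by linarith
    have h2 : ((1 / (17 / 10 : ℝ)) ^ n) * (17 / 10 : ℝ) ^ n = 1 := by
      rw [← mul_pow]; norm_num
    calc ((X ∩ Metric.closedBall v (17 / 10)).ncard : ℝ)
        = ((1 / (17 / 10 : ℝ)) ^ n * ((X ∩ Metric.closedBall v (17 / 10)).ncard : ℝ)) *
          (17 / 10 : ℝ) ^ n := by
          calc ((X ∩ Metric.closedBall v (17 / 10)).ncard : ℝ)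
              = (((1 / (17 / 10 : ℝ)) ^ n) * (17 / 10 : ℝ) ^ n) *
                ((X ∩ Metric.closedBall v (17 / 10)).ncard : ℝ) := by rw [h2, one_mul]
            _ = _ := by ring
      _ ≤ (20 * L) * (17 / 10 : ℝ) ^ n := mul_le_mul_of_nonneg_right h1 (by positivity)
      _ = 20 * (c / 40) * n * Real.log n * (17 / 10) ^ n := by rw [hL]; ring
      _ ≤ 3 ^ n := hnum
  have hb : ∑ y ∈ Y0 n, S y ≤ 20 * L * (Y0 n).card := by
    have h1 : (∑ y ∈ Y0 n, S y) / (Y0 n).card ≤ 20 * L := by
      have h2 : 0 ≤ (1 / (17 / 10 : ℝ)) ^ n *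
          ((X ∩ Metric.closedBall v (17 / 10)).ncard : ℝ) := by positivity
      linarith
    rwa [div_le_iff₀ hY0pos] at h1
  -- the configuration
  set F : Finset (EE n) := (hfin v (17 / 10)).toFinset with hF
  have hFX : ∀ x ∈ F, x ∈ X := fun x hx => ((hfin v (17 / 10)).mem_toFinset.1 hx).1
  have hFcard : F.card ≤ 3 ^ n := by
    have h1 : F.card = (X ∩ Metric.closedBall v (17 / 10)).ncard := by
      rw [hF, Set.ncard_eq_toFinset_card _ (hfin v (17 / 10))]
    rw [h1]
    exact_mod_cast ha
  set X' : Finset (EE n) := F.image (fun x => rd n (x - v)) with hX'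
  have hδ := mesh_sqrt_le hn0
  have hη : eta n ≤ 1 / 10 := by
    unfold eta
    refine one_div_le_one_div_of_le (by norm_num) ?_
    calc (10 : ℝ) ≤ n := by linarith
      _ = (n : ℝ) ^ 1 := (pow_one _).symm
      _ ≤ (n : ℝ) ^ 3 := pow_le_pow_right₀ (by linarith) (by norm_num)
  have hXadm : X' ∈ Adm n c := by
    unfold Adm
    rw [mem_filter, mem_powerset]
    refine ⟨?_, card_image_le.trans hFcard, ?_⟩
    · intro x' hx'
      rw [hX', mem_image] at hx'
      obtain ⟨x, hx, rfl⟩ := hx'
      rw [mem_GB le_rfl]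
      refine ⟨⟨_, rfl⟩, ?_⟩
      have h1 := ((hfin v (17 / 10)).mem_toFinset.1 hx).2
      rw [Metric.mem_closedBall, dist_eq_norm] at h1
      have h2 := norm_sub_rd_le hn0 (x - v)
      have h3 : rd n (x - v) = (x - v) - ((x - v) - rd n (x - v)) := by abel
      rw [h3]
      refine (norm_sub_le _ _).trans ?_
      linarith
    · -- Markov
      have hsub : (Y0 n).filter (fun y => S y ≤ c * n * Real.log n) ⊆ YX n c X' := by
        intro y hy
        rw [mem_filter] at hy
        unfold YX
        rw [mem_filter]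
        refine ⟨hy.1, le_trans ?_ hy.2⟩
        convert sum_qw_le hn0 X F hFX hfin v y
      have h1 : ((Y0 n).filter (fun y => ¬ S y ≤ c * n * Real.log n)).card *
          (c * n * Real.log n) ≤ 20 * L * (Y0 n).card := by
        refine le_trans ?_ hb
        calc ((Y0 n).filter (fun y => ¬ S y ≤ c * n * Real.log n)).card * (c * n * Real.log n)
            = ∑ y ∈ (Y0 n).filter (fun y => ¬ S y ≤ c * n * Real.log n), (c * n * Real.log n) := by
              rw [sum_const, nsmul_eq_mul]
          _ ≤ ∑ y ∈ (Y0 n).filter (fun y => ¬ S y ≤ c * n * Real.log n), S y :=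
              sum_le_sum fun y hy => (not_le.1 (mem_filter.1 hy).2).le
          _ ≤ ∑ y ∈ Y0 n, S y :=
              sum_le_sum_of_subset_of_nonneg (filter_subset _ _) fun y _ _ => hS0 y
      have h2 : (((Y0 n).filter (fun y => ¬ S y ≤ c * n * Real.log n)).card : ℝ) ≤
          (Y0 n).card / 2 := by
        have h3 : 0 < c * n * Real.log n := by positivity
        have h4 : 20 * L * (Y0 n).card = ((Y0 n).card / 2 : ℝ) * (c * n * Real.log n) := by
          rw [hL]; ring
        rw [h4] at h1
        exact le_of_mul_le_mul_right h1 h3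
      have h5 := card_filter_add_card_filter_not (s := Y0 n)
        (fun y => S y ≤ c * n * Real.log n)
      have h6 := card_le_card hsub
      have h7 : ((Y0 n).filter (fun y => ¬ S y ≤ c * n * Real.log n)).card * 2 ≤
          (Y0 n).card := by
        have : ((((Y0 n).filter (fun y => ¬ S y ≤ c * n * Real.log n)).card * 2 : ℕ) : ℝ) ≤
            ((Y0 n).card : ℝ) := by push_cast; linarith
        exact_mod_cast this
      omega
  obtain ⟨y, hy, hyx⟩ := hgood X' hXadm
  have hy0 : y ∈ Y0 n := (mem_filter.1 hy).1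
  have hynorm : ‖y‖ ≤ 3 / 5 := ((mem_GB hlt2).1 hy0).2
  obtain ⟨x, hx, hxK⟩ := hcov (v + y)
  have hxF : x ∈ F := by
    rw [hF, Set.Finite.mem_toFinset]
    refine ⟨hx, ?_⟩
    rw [Metric.mem_closedBall, dist_eq_norm]
    have h1 := hxK.1
    have h3 : x - v = y - (v + y - x) := by abel
    rw [h3]
    refine (norm_sub_le _ _).trans ?_
    linarith
  have hx' : rd n (x - v) ∈ X' := mem_image_of_mem _ hxF
  have h2 := norm_sub_rd_le hn0 (x - v)
  have h4 : (v + y - x) - (y - rd n (x - v)) = -((x - v) - rd n (x - v)) := by abel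
  have hclose : ‖(v + y - x) - (y - rd n (x - v))‖ ≤ mesh n * √n := by
    rw [h4, norm_neg]; exact h2
  have hnorm : ‖y - rd n (x - v)‖ ≤ 1 + eta n := by
    have h5 : y - rd n (x - v) = (v + y - x) - ((v + y - x) - (y - rd n (x - v))) := by abel
    rw [h5]
    refine (norm_sub_le _ _).trans ?_
    have := hxK.1
    linarith
  obtain ⟨w, hw, hmem⟩ := hyx _ hx' hnorm
  exact not_mem_KB hn hw (htpos w hw) hmem hclose hxK

end Crest.Agent.R225.LB.Body
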