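import Crest.Agent.R225.LB.Good2
import Crest.Agent.R225.LB.Window2

/-!
S0348 from `config_prob` (hypothesis) and `nu_kill_le` (hypothesis).
-/

set_option autoImplicit false

namespace Crest.Agent.R225.LB.Body

open MeasureTheory ProbabilityTheory Filter Crest.Agent.R225.LB
open Crest.Agent.R225.LB.Grid
open scoped ENNReal

/-- The statement in Euclidean space. -/
theorem main_EE (c : ℝ) (hc : 0 < c) (hCP : ∀ᶠ n : ℕ in atTop, CP c n)
    (hB2 : ∀ᶠ n : ℕ in atTop, B2 n) :
    ∀ᶠ n : ℕ in atTop, ∃ K : Set (EE n), IsCompact K ∧ Convex ℝ K ∧ (interior K).Nonempty ∧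
      (∀ x ∈ K, -x ∈ K) ∧
      ∀ X : Set (EE n), (∀ R : ℝ, (X ∩ {x | ∀ i, |x i| ≤ R}).Finite) →
        (∀ y : EE n, ∃ x ∈ X, y - x ∈ K) →
        ENNReal.ofReal (c / 2400 * n * Real.log n) ≤
          volume K * limsup (fun R : ℝ => ((X ∩ {x | ∀ i, |x i| ≤ R}).ncard : ℝ≥0∞) /
            ENNReal.ofReal ((2 * R) ^ n)) atTop := by
  filter_upwards [exists_good c hCP hB2, le_density hc] with n h1 h2
  obtain ⟨hn, t, htpos, hvol, hgood⟩ := h1
  have hVB := VB_pos n
  refine ⟨KB n t, isCompact_KB n t, convex_KB n t, interior_KB_nonempty hn t,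
    fun x hx => neg_mem_KB hx, fun X hX hcov => ?_⟩
  have h3 := h2 t htpos hgood X hX hcov
  have h4 : ENNReal.ofReal (VB n / 60) ≤ volume (KB n t) := by
    rw [← ofReal_measureReal (volume_KB_lt_top n t).ne]
    exact ENNReal.ofReal_le_ofReal hvol
  calc ENNReal.ofReal (c / 2400 * n * Real.log n)
      = ENNReal.ofReal (VB n / 60) * ENNReal.ofReal (c / 40 * n * Real.log n / VB n) := by
        rw [← ENNReal.ofReal_mul (by positivity)]
        congr 1
        field_simp
        ring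
    _ ≤ _ := mul_le_mul' h4 h3

/-- The statement in `Fin n → ℝ`. -/
theorem main_pi (c : ℝ) (hc : 0 < c) (hCP : ∀ᶠ n : ℕ in atTop, CP c n)
    (hB2 : ∀ᶠ n : ℕ in atTop, B2 n) :
    ∃ c : ℝ, 0 < c ∧ ∃ n₀ : ℕ, ∀ n : ℕ, n₀ ≤ n →
      ∃ K : Set (Fin n → ℝ), IsCompact K ∧ Convex ℝ K ∧ (interior K).Nonempty ∧
        (∀ x ∈ K, -x ∈ K) ∧
        ∀ X : Set (Fin n → ℝ), (∀ R : ℝ, (X ∩ {x | ∀ i, |x i| ≤ R}).Finite) →
          (∀ y : Fin n → ℝ, ∃ x ∈ X, y - x ∈ K) →
          ENNReal.ofReal (c * n * Real.log n) ≤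
            volume K * limsup (fun R : ℝ => ((X ∩ {x | ∀ i, |x i| ≤ R}).ncard : ℝ≥0∞) /
              ENNReal.ofReal ((2 * R) ^ n)) atTop := by
  refine ⟨c / 2400, by positivity, ?_⟩
  obtain ⟨n₀, h⟩ := eventually_atTop.1 (main_EE c hc hCP hB2)
  refine ⟨n₀, fun n hn => ?_⟩
  obtain ⟨K, hK1, hK2, hK3, hK4, hK5⟩ := h n hn
  set e : EE n ≃L[ℝ] (Fin n → ℝ) := EuclideanSpace.equiv (Fin n) ℝ with he
  have hpre : e '' K = e.symm ⁻¹' K := by
    exact e.image_eq_preimage_symm K
  refine ⟨e '' K, hK1.image e.continuous, hK2.linear_image e.toLinearMap, ?_, ?_, ?_⟩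
  · obtain ⟨x, hx⟩ := hK3
    refine ⟨e x, ?_⟩
    have := e.toHomeomorph.image_interior K
    have h2 : e x ∈ e '' interior K := Set.mem_image_of_mem _ hx
    have h3 : (e : EE n → (Fin n → ℝ)) '' interior K = interior ((e : EE n → (Fin n → ℝ)) '' K) :=
      this
    rwa [h3] at h2
  · rintro _ ⟨x, hx, rfl⟩
    exact ⟨-x, hK4 x hx, map_neg e x⟩
  · intro X hX hcov
    have happ : ∀ (x : EE n) (i : Fin n), e x i = x i := fun x i => rfl
    have hset : ∀ R : ℝ, (e ⁻¹' X) ∩ {x : EE n | ∀ i, |x i| ≤ R} =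
        e ⁻¹' (X ∩ {x | ∀ i, |x i| ≤ R}) := by
      intro R
      ext x
      simp only [Set.mem_inter_iff, Set.mem_preimage, Set.mem_setOf_eq, happ]
    have hinj : Function.Injective e := e.injective
    have hncard : ∀ R : ℝ, ((e ⁻¹' X) ∩ {x : EE n | ∀ i, |x i| ≤ R}).ncard =
        (X ∩ {x | ∀ i, |x i| ≤ R}).ncard := by
      intro R
      rw [hset R]
      exact Set.ncard_preimage_of_injective_subset_range hinj
        (fun x _ => e.surjective x)
    have h5 := hK5 (e ⁻¹' X) (fun R => by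
      rw [hset R]
      exact (hX R).preimage hinj.injOn) (fun y => by
      obtain ⟨x, hx, k, hk, hkx⟩ := hcov (e y)
      refine ⟨e.symm x, by simpa using hx, ?_⟩
      have : y - e.symm x = k := by
        apply hinj
        rw [map_sub, e.apply_symm_apply, hkx]
      rwa [this])
    simp only [hncard] at h5
    have hvol : volume (e '' K) = volume K := by
      rw [hpre]
      exact (PiLp.volume_preserving_toLp (Fin n)).measure_preimage
        hK1.measurableSet.nullMeasurableSet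
    rw [hvol]
    exact h5

end Crest.Agent.R225.LB.Body
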