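import Crest.Agent.R225.LB.Cluster

/-!
Row 225, S0348, module D1: the family of targets of one test point `y`.
-/

set_option autoImplicit false

namespace Crest.Agent.R225.LB.Tgt

open MeasureTheory ProbabilityTheory Finset Filter

/-! ### elementary facts about `nu`, `pat`, `pp` -/

lemma Q_nonneg (s : ℝ) : 0 ≤ Q s := measureReal_nonneg

lemma nu_nonneg (n : ℕ) (S : Set (EE n)) : 0 ≤ nu n S :=
  div_nonneg measureReal_nonneg (Q_nonneg _)

lemma nu_mono (n : ℕ) {S S' : Set (EE n)} (h : S ⊆ S') : nu n S ≤ nu n S' := by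
  unfold nu
  exact div_le_div_of_nonneg_right
    (measureReal_mono (Set.inter_subset_inter_left _ h)) (Q_nonneg _)

lemma nu_union_le (n : ℕ) (S S' : Set (EE n)) : nu n (S ∪ S') ≤ nu n S + nu n S' := by
  unfold nu
  rw [← add_div, Set.union_inter_distrib_right]
  exact div_le_div_of_nonneg_right (measureReal_union_le _ _) (Q_nonneg _)

lemma nu_biUnion_le {n : ℕ} {ι : Type*} (F : Finset ι) (S : ι → Set (EE n)) :
    nu n (⋃ i ∈ F, S i) ≤ ∑ i ∈ F, nu n (S i) := by
  unfold nu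
  rw [← Finset.sum_div, Set.iUnion₂_inter]
  exact div_le_div_of_nonneg_right (measureReal_biUnion_finset_le _ _) (Q_nonneg _)

lemma measurableSet_kill (n : ℕ) (z : EE n) : MeasurableSet (kill n z) := by
  unfold kill
  exact measurableSet_le measurable_const (by fun_prop)

lemma measurableSet_box (n : ℕ) : MeasurableSet (box n) := by
  have : box n = ⋂ i, {u : EE n | |u i| ≤ n} := by
    ext u; simp [box]
  rw [this]
  refine MeasurableSet.iInter fun i => ?_
  have h : Measurable (fun u : EE n => u i) := by fun_prop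
  exact measurableSet_le h.abs measurable_const

open scoped Classical in
lemma measurableSet_pat (n : ℕ) (G : Finset (EE n)) (v : Finset (EE n)) :
    MeasurableSet {u | pat n G u = v} := by
  by_cases hv : v ⊆ G
  · have : {u | pat n G u = v} =
        (⋂ z ∈ v, kill n z) ∩ (⋂ z ∈ G \ v, (kill n z)ᶜ) := by
      ext u
      simp only [Set.mem_ofPred_eq, Set.mem_inter_iff, Set.mem_iInter, Finset.mem_sdiff,
        Set.mem_compl_iff, pat]
      constructor
      · intro h
        subst h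
        refine ⟨fun z hz => (Finset.mem_filter.mp hz).2, fun z hz hk => hz.2 ?_⟩
        exact Finset.mem_filter.mpr ⟨hz.1, hk⟩
      · rintro ⟨h1, h2⟩
        ext z
        rw [Finset.mem_filter]
        constructor
        · rintro ⟨hz, hk⟩
          by_contra hzv
          exact h2 z ⟨hz, hzv⟩ hk
        · intro hz
          exact ⟨hv hz, h1 z hz⟩
    rw [this]
    refine MeasurableSet.inter ?_ ?_
    · exact Finset.measurableSet_biInter _ fun z _ => measurableSet_kill n z
    · exact Finset.measurableSet_biInter _ fun z _ => (measurableSet_kill n z).compl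
  · have : {u | pat n G u = v} = ∅ := by
      ext u
      simp only [Set.mem_ofPred_eq, Set.mem_empty_iff_false, iff_false]
      intro h
      exact hv (h ▸ Finset.filter_subset _ _)
    rw [this]
    exact MeasurableSet.empty

open scoped Classical in
lemma sum_nu_pat (n : ℕ) (G : Finset (EE n)) (U : Finset (Finset (EE n))) :
    ∑ v ∈ U, nu n {u | pat n G u = v} = nu n {u | pat n G u ∈ U} := by
  unfold nu
  rw [← Finset.sum_div]
  congr 1
  have h1 : {u | pat n G u ∈ U} ∩ box n = ⋃ v ∈ U, ({u | pat n G u = v} ∩ box n) := by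
    ext u
    simp
  rw [h1, measureReal_biUnion_finset]
  · intro a _ b _ hab
    refine Set.disjoint_left.mpr ?_
    rintro u ⟨hu, _⟩ ⟨hu', _⟩
    exact hab (hu.symm.trans hu')
  · intro v _
    exact (measurableSet_pat n G v).inter (measurableSet_box n)

lemma pp_nonneg (n : ℕ) (G v : Finset (EE n)) : 0 ≤ pp n G v := by
  unfold pp
  have := nu_nonneg n {u | pat n G u = v}
  have h2 : Real.exp (- nu n {u | pat n G u = v}) ≤ 1 := Real.exp_le_one_iff.mpr (by linarith)
  linarith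

lemma pp_le_one (n : ℕ) (G v : Finset (EE n)) : pp n G v ≤ 1 := by
  unfold pp
  have := Real.exp_pos (- nu n {u | pat n G u = v})
  linarith

lemma pp_le_nu (n : ℕ) (G v : Finset (EE n)) : pp n G v ≤ nu n {u | pat n G u = v} := by
  unfold pp
  have := Real.add_one_le_exp (- nu n {u | pat n G u = v})
  linarith

open scoped Classical in
lemma one_sub_prod_pp (n : ℕ) (G : Finset (EE n)) (U : Finset (Finset (EE n))) :
    1 - ∏ v ∈ U, (1 - pp n G v) = 1 - Real.exp (- nu n {u | pat n G u ∈ U}) := by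
  rw [← sum_nu_pat, ← Finset.sum_neg_distrib, Real.exp_sum]
  congr 1
  refine Finset.prod_congr rfl fun v _ => ?_
  unfold pp
  ring

open scoped Classical in
lemma sum_pp_le (n : ℕ) (G : Finset (EE n)) (U : Finset (Finset (EE n))) :
    ∑ v ∈ U, pp n G v ≤ nu n {u | pat n G u ∈ U} := by
  rw [← sum_nu_pat]
  exact Finset.sum_le_sum fun v _ => pp_le_nu n G v

/-- `1 - e^{-a} ≥ b/2` for `0 ≤ b ≤ a`, `b ≤ 1`. -/
lemma one_sub_exp_ge {a b : ℝ} (hb : 0 ≤ b) (hb1 : b ≤ 1) (hab : b ≤ a) :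
    b / 2 ≤ 1 - Real.exp (-a) := by
  have h1 : Real.exp (-a) ≤ Real.exp (-b) := Real.exp_le_exp.mpr (by linarith)
  have h2 : Real.exp (-b) ≤ 1 - b / 2 := by
    have h3 : Real.exp (-b) = 1 / Real.exp b := by rw [Real.exp_neg]; simp
    rw [h3, div_le_iff₀ (Real.exp_pos b)]
    have h4 : 1 + b ≤ Real.exp b := by
      have := Real.add_one_le_exp b
      linarith
    nlinarith
  linarith

lemma one_le_qw {n : ℕ} (hn : 1 ≤ n) {z : EE n} (hz : ‖z‖ ≤ 1 + eta n) : 1 ≤ qw n z := by
  unfold qw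
  have h0 : (0 : ℕ) ∈ Finset.range n := Finset.mem_range.mpr hn
  have h1 : (1 : ℝ) ≤ Real.exp (((0 : ℕ) : ℝ) / 2) *
      (if ‖z‖ ≤ 1 + eta n - ((0 : ℕ) : ℝ) / n then 1 else 0) := by
    rw [if_pos (by simpa using hz)]
    simp
  refine h1.trans ?_
  refine Finset.single_le_sum (f := fun j : ℕ => Real.exp ((j : ℝ) / 2) *
      (if ‖z‖ ≤ 1 + eta n - (j : ℝ) / n then (1 : ℝ) else 0)) ?_ h0
  intro j _
  split_ifs
  · positivity
  · simp

lemma qw_nonneg (n : ℕ) (z : EE n) : 0 ≤ qw n z := by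
  unfold qw
  refine Finset.sum_nonneg fun j _ => ?_
  split_ifs
  · positivity
  · simp


/-! ### intensity estimates as hypotheses -/

/-- B1 -/
def HB1 (C : ℝ) (n : ℕ) : Prop := ∀ z : EE n, ‖z‖ ≤ 1 + eta n →
    qw n z ≤ (n : ℝ) ^ 2 →
      1 ≤ qw n z → Real.exp (-C * qw n z) ≤ nu n (kill n z) ∧
      Real.exp (-C * Real.log n) ≤ nu n (kill n z)

/-- B3 -/
def HB3 (C : ℝ) (n : ℕ) : Prop := ∀ z z' : EE n,
    ‖z‖ ≤ 1 + eta n → ‖z'‖ ≤ 1 + eta n →
    nu n (kill n z ∩ kill n z') ≤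
      C * Real.sqrt n * Real.exp (-((25600 / 9) * n * ‖z - z'‖ ^ 2))

/-- B4 -/
def HB4 (A C : ℝ) (n : ℕ) : Prop := ∀ F : Finset (EE n), (F.card : ℝ) ≤ (n : ℝ) ^ 2 →
    (∀ z ∈ F, ‖z‖ ≤ 1 + eta n ∧ 1 ≤ qw n z ∧ qw n z ≤ (n : ℝ) ^ 2) →
    (∃ z₀ ∈ F, ∀ z ∈ F, ‖z - z₀‖ ≤ A * Real.sqrt (Real.log n / n)) →
    Real.exp (-C * Real.log n) ≤ nu n {u | ∀ z ∈ F, u ∈ kill n z}

/-- numerical facts valid for large `n` -/
structure NumD1 (C1 C3 : ℝ) (n : ℕ) : Prop where
  three_le : 3 ≤ n
  log_le : Real.log n ≤ n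
  small : (n * Real.log n) * (C3 * Real.sqrt n * Real.exp (-((C1 + 3) * Real.log n))) ≤
    Real.exp (-C1 * Real.log n) / 2

open scoped Classical in
theorem target_family_of {C1 C3 C4 : ℝ} {n : ℕ} (hC1 : 0 < C1) (hC3 : 0 < C3) (hC4 : 0 < C4)
    (h1 : HB1 C1 n) (h3 : HB3 C3 n) (h4 : HB4 (C1 + 3) C4 n) (hN : NumD1 C1 C3 n)
    (G : Finset (EE n)) (y : EE n) (I : Finset (EE n))
    (hI : ∀ x ∈ I, ‖y - x‖ ≤ 1 + eta n ∧ y - x ∈ G)
    (hq : ∑ x ∈ I, qw n (y - x) ≤ n * Real.log n) :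
    ∃ (T : Finset (Finset (EE n))) (U : Finset (EE n) → Finset (Finset (EE n))),
      (∀ j ∈ T, U j ⊆ G.powerset) ∧
      (∀ j ∈ T, Real.exp (-((C1 + C4 + 2) * Real.log n)) ≤ 1 - ∏ v ∈ U j, (1 - pp n G v)) ∧
      (∀ v, (T.filter (fun j => v ∈ U j)).card ≤ ⌊3 * Real.sqrt n * Real.log n + 3⌋₊) ∧
      Real.exp (-((C1 + C4 + 2) * (∑ x ∈ I, qw n (y - x)) +
          (C1 + C4 + 2) * Real.sqrt n * Real.log n ^ 2)) ≤
        ∏ j ∈ T, (1 - ∏ v ∈ U j, (1 - pp n G v)) ∧
      (∀ t : Finset (Finset (EE n)), (∀ j ∈ T, (t ∩ U j).Nonempty) →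
        ∀ x ∈ I, ∃ v ∈ t, y - x ∈ v) ∧
      (∀ j ∈ T, ∀ v ∈ U j, ∃ x ∈ I, y - x ∈ v) := by
  have hn3 : 3 ≤ n := hN.three_le
  have hn3r : (3 : ℝ) ≤ n := by exact_mod_cast hn3
  have hnpos : (0 : ℝ) < n := by linarith
  have hlog1 : 1 ≤ Real.log n := by
    rw [Real.le_log_iff_exp_le hnpos]
    exact (Real.exp_one_lt_d9.le.trans (by norm_num)).trans hn3r
  have hlog0 : 0 ≤ Real.log n := by linarith
  have hsq1 : 1 < Real.sqrt n := by
    rw [Real.lt_sqrt (by norm_num)]; nlinarith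
  have hsqsq : Real.sqrt n * Real.sqrt n = n := Real.mul_self_sqrt hnpos.le
  set C : ℝ := C1 + C4 + 2 with hC
  have hCpos : 0 < C := by positivity
  set ε : ℝ := (C1 + 3) * Real.sqrt (Real.log n / n) with hε
  set k : ℕ := ⌈Real.sqrt n⌉₊ with hk
  have hk2 : 2 ≤ k := by
    have : 1 < k := by
      rw [hk, Nat.lt_ceil]; exact_mod_cast hsq1
    omega
  have hk1 : (k : ℝ) ≤ Real.sqrt n + 1 := (Nat.ceil_lt_add_one (Real.sqrt_nonneg _)).le
  have hk0 : Real.sqrt n ≤ k := Nat.le_ceil _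
  -- facts on I
  have hqw1 : ∀ x ∈ I, 1 ≤ qw n (y - x) := fun x hx => one_le_qw (by omega) (hI x hx).1
  have hqwle : ∀ x ∈ I, qw n (y - x) ≤ (n : ℝ) ^ 2 := by
    intro x hx
    have h5 : qw n (y - x) ≤ ∑ x ∈ I, qw n (y - x) :=
      Finset.single_le_sum (f := fun x => qw n (y - x)) (fun i _ => qw_nonneg n _) hx
    calc qw n (y - x) ≤ n * Real.log n := h5.trans hq
      _ ≤ n * n := by gcongr; exact hN.log_le
      _ = (n : ℝ) ^ 2 := by ring
  have hIcard : (I.card : ℝ) ≤ n * Real.log n := by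
    calc (I.card : ℝ) = ∑ _x ∈ I, (1 : ℝ) := by simp
      _ ≤ ∑ x ∈ I, qw n (y - x) := Finset.sum_le_sum hqw1
      _ ≤ _ := hq
  obtain ⟨Cl, hCl1, hCl2, hCl3⟩ := cluster I ε k (by omega)
  set S0 : Finset (EE n) := I \ Cl.biUnion id with hS0
  have hS0I : S0 ⊆ I := Finset.sdiff_subset
  have hClcard : (Cl.card : ℝ) ≤ Real.sqrt n * Real.log n := by
    have h5 : (Cl.card : ℝ) * k ≤ n * Real.log n := by
      refine le_trans ?_ hIcard
      exact_mod_cast hCl2
    have h6 : (Cl.card : ℝ) * Real.sqrt n ≤ n * Real.log n :=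
      (mul_le_mul_of_nonneg_left hk0 (Nat.cast_nonneg _)).trans h5
    have h7 : (Cl.card : ℝ) * Real.sqrt n ≤ (Real.sqrt n * Real.log n) * Real.sqrt n := by
      refine h6.trans (le_of_eq ?_)
      rw [mul_right_comm, hsqsq]
    exact le_of_mul_le_mul_right h7 (by linarith)
  -- singletons are not clusters
  have hsing : ∀ x : EE n, ({x} : Finset (EE n)) ∉ Cl := by
    intro x hx
    have := (hCl1 _ hx).2.1
    simp at this
    omega
  -- targets
  set T : Finset (Finset (EE n)) := S0.image (fun x => ({x} : Finset (EE n))) ∪ Cl with hT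
  set U : Finset (EE n) → Finset (Finset (EE n)) := fun j =>
    if j ∈ Cl then G.powerset.filter (fun v => ∀ x ∈ j, y - x ∈ v)
    else G.powerset.filter (fun v => (∀ x ∈ j, y - x ∈ v) ∧
      (S0.filter (fun x' => y - x' ∈ v)).card ≤ k) with hU
  have hUCl : ∀ j ∈ Cl, ∀ v, v ∈ U j ↔ v ⊆ G ∧ ∀ x ∈ j, y - x ∈ v := by
    intro j hj v
    simp only [hU, if_pos hj, Finset.mem_filter, Finset.mem_powerset]
  have hUs : ∀ x : EE n, ∀ v, v ∈ U {x} ↔ v ⊆ G ∧ y - x ∈ v ∧
      (S0.filter (fun x' => y - x' ∈ v)).card ≤ k := by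
    intro x v
    simp only [hU, if_neg (hsing x), Finset.mem_singleton, forall_eq, Finset.mem_filter,
      Finset.mem_powerset]
  have hTmem : ∀ j, j ∈ T ↔ (∃ x ∈ S0, {x} = j) ∨ j ∈ Cl := by
    intro j
    simp only [hT, Finset.mem_union, Finset.mem_image]
  -- hitting probability of a cluster
  have hhitCl : ∀ j ∈ Cl, Real.exp (-(C * Real.log n)) ≤ 1 - ∏ v ∈ U j, (1 - pp n G v) := by
    intro j hj
    rw [one_sub_prod_pp]
    obtain ⟨hjI, hjk, x0, hx0, hx0'⟩ := hCl1 j hj
    have h5 := h4 (j.image (fun x => y - x)) ?_ ?_ ?_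
    · have h6 : Real.exp (-C4 * Real.log n) ≤
          nu n {u | pat n G u ∈ U j} := by
        refine h5.trans (nu_mono n ?_)
        intro u hu
        simp only [Set.mem_ofPred_eq, Finset.mem_image, forall_exists_index, and_imp,
          forall_apply_eq_imp_iff₂] at hu
        simp only [Set.mem_ofPred_eq, hUCl j hj]
        refine ⟨Finset.filter_subset _ _, fun x hx => ?_⟩
        exact Finset.mem_filter.mpr ⟨(hI x (hjI hx)).2, hu x hx⟩
      have h7 := one_sub_exp_ge (Real.exp_pos (-C4 * Real.log n)).le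
        (Real.exp_le_one_iff.mpr (by nlinarith)) h6
      refine le_trans ?_ h7
      have h8 : Real.exp (-(C * Real.log n)) ≤ Real.exp (-C4 * Real.log n + -1) := by
        apply Real.exp_le_exp.mpr
        rw [hC]; nlinarith
      refine h8.trans ?_
      rw [Real.exp_add]
      have h9 : Real.exp (-1) ≤ 1 / 2 := by
        have := Real.exp_neg_one_lt_d9
        linarith
      have := Real.exp_pos (-C4 * Real.log n)
      nlinarith
    · refine le_trans ?_ ?_ (b := (I.card : ℝ))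
      · exact_mod_cast Finset.card_image_le.trans (Finset.card_le_card hjI)
      · calc (I.card : ℝ) ≤ n * Real.log n := hIcard
          _ ≤ n * n := by gcongr; exact hN.log_le
          _ = (n : ℝ) ^ 2 := by ring
    · intro z hz
      obtain ⟨x, hx, rfl⟩ := Finset.mem_image.mp hz
      exact ⟨(hI x (hjI hx)).1, hqw1 x (hjI hx), hqwle x (hjI hx)⟩
    · refine ⟨y - x0, Finset.mem_image_of_mem _ hx0, ?_⟩
      intro z hz
      obtain ⟨x, hx, rfl⟩ := Finset.mem_image.mp hz
      have h6 := hx0' x hx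
      rw [dist_eq_norm] at h6
      have h7 : y - x - (y - x0) = -(x - x0) := by abel
      rw [h7, norm_neg]
      exact h6
  -- hitting probability of a single point
  have hgood : ∀ x ∈ S0, Real.exp (-C1 * qw n (y - x)) / 2 ≤ nu n {u | pat n G u ∈ U {x}} ∧
      Real.exp (-C1 * Real.log n) / 2 ≤ nu n {u | pat n G u ∈ U {x}} := by
    intro x hx
    have hxI := hS0I hx
    obtain ⟨h5, h6⟩ := h1 (y - x) (hI x hxI).1 (hqwle x hxI) (hqw1 x hxI)
    set B := S0.filter (fun x' => ε < dist x' x) with hB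
    have h7 : kill n (y - x) ⊆ {u | pat n G u ∈ U {x}} ∪
        ⋃ x' ∈ B, (kill n (y - x) ∩ kill n (y - x')) := by
      intro u hu
      by_cases h8 : ∃ x' ∈ B, u ∈ kill n (y - x')
      · obtain ⟨x', hx', hux'⟩ := h8
        right
        simp only [Set.mem_iUnion]
        exact ⟨x', hx', hu, hux'⟩
      · left
        push Not at h8
        rw [Set.mem_ofPred_eq, hUs]
        refine ⟨Finset.filter_subset _ _, Finset.mem_filter.mpr ⟨(hI x hxI).2, hu⟩, ?_⟩
        refine le_trans (Finset.card_le_card ?_) (hCl3 x hx).le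
        intro x' hx'
        rw [Finset.mem_filter] at hx' ⊢
        refine ⟨hx'.1, ?_⟩
        by_contra h9
        push Not at h9
        exact h8 x' (Finset.mem_filter.mpr ⟨hx'.1, h9⟩) (Finset.mem_filter.mp hx'.2).2
    have h8 : nu n (kill n (y - x)) ≤ nu n {u | pat n G u ∈ U {x}} +
        ∑ x' ∈ B, nu n (kill n (y - x) ∩ kill n (y - x')) :=
      (nu_mono n h7).trans ((nu_union_le n _ _).trans (by gcongr; exact nu_biUnion_le _ _))
    have h9 : ∑ x' ∈ B, nu n (kill n (y - x) ∩ kill n (y - x')) ≤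
        Real.exp (-C1 * Real.log n) / 2 := by
      calc ∑ x' ∈ B, nu n (kill n (y - x) ∩ kill n (y - x'))
          ≤ ∑ _x' ∈ B, (C3 * Real.sqrt n * Real.exp (-((C1 + 3) * Real.log n))) := by
            refine Finset.sum_le_sum fun x' hx' => ?_
            have hx'2 := Finset.mem_filter.mp hx'
            refine (h3 (y - x) (y - x') (hI x hxI).1 (hI x' (hS0I hx'2.1)).1).trans ?_
            refine mul_le_mul_of_nonneg_left (Real.exp_le_exp.mpr (neg_le_neg ?_))
              (by positivity)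
            have h10 : y - x - (y - x') = x' - x := by abel
            rw [h10]
            have h11 : ε < ‖x' - x‖ := by rw [← dist_eq_norm]; exact hx'2.2
            have hε0 : 0 ≤ ε := by positivity
            have h12 : ε ^ 2 ≤ ‖x' - x‖ ^ 2 := by gcongr
            have h13 : ε ^ 2 = (C1 + 3) ^ 2 * (Real.log n / n) := by
              rw [hε, mul_pow, Real.sq_sqrt (by positivity)]
            have h14 : (n : ℝ) * ε ^ 2 = (C1 + 3) ^ 2 * Real.log n := by
              rw [h13]; field_simp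
            have h15 : (C1 + 3) * Real.log n ≤ (n : ℝ) * ε ^ 2 := by
              rw [h14]
              gcongr
              nlinarith
            calc (C1 + 3) * Real.log n ≤ (n : ℝ) * ε ^ 2 := h15
              _ ≤ (n : ℝ) * ‖x' - x‖ ^ 2 := by gcongr
              _ ≤ 25600 / 9 * ((n : ℝ) * ‖x' - x‖ ^ 2) := by
                have : 0 ≤ (n : ℝ) * ‖x' - x‖ ^ 2 := by positivity
                linarith
              _ = 25600 / 9 * n * ‖x' - x‖ ^ 2 := by ring
        _ = (B.card : ℝ) * (C3 * Real.sqrt n * Real.exp (-((C1 + 3) * Real.log n))) := by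
            rw [Finset.sum_const, nsmul_eq_mul]
        _ ≤ (n * Real.log n) * (C3 * Real.sqrt n * Real.exp (-((C1 + 3) * Real.log n))) := by
            gcongr
            refine le_trans ?_ hIcard
            exact_mod_cast Finset.card_le_card ((Finset.filter_subset _ _).trans hS0I)
        _ ≤ _ := hN.small
    constructor
    · -- uses exp(-C1 log n)/2 ≤ nu(kill)/2
      linarith
    · linarith
  have hhitS : ∀ x ∈ S0, Real.exp (-(C * qw n (y - x))) ≤ 1 - ∏ v ∈ U {x}, (1 - pp n G v) ∧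
      Real.exp (-(C * Real.log n)) ≤ 1 - ∏ v ∈ U {x}, (1 - pp n G v) := by
    intro x hx
    have hxI := hS0I hx
    obtain ⟨h5, h6⟩ := hgood x hx
    rw [one_sub_prod_pp]
    have hq1 := hqw1 x hxI
    have e2 : Real.exp (-2) ≤ 1 / 4 := by
      have h9 : Real.exp (-1) ≤ 1 / 2 := by
        have := Real.exp_neg_one_lt_d9
        linarith
      have : Real.exp (-2) = Real.exp (-1) * Real.exp (-1) := by
        rw [← Real.exp_add]; norm_num
      rw [this]
      have := Real.exp_pos (-1)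
      nlinarith
    constructor
    · have h7 := one_sub_exp_ge (by positivity) (by
          have : Real.exp (-C1 * qw n (y - x)) ≤ 1 := Real.exp_le_one_iff.mpr (by nlinarith)
          linarith) h5
      refine le_trans ?_ h7
      calc Real.exp (-(C * qw n (y - x))) ≤ Real.exp (-C1 * qw n (y - x) + -2) := by
            apply Real.exp_le_exp.mpr
            rw [hC]; nlinarith
        _ = Real.exp (-C1 * qw n (y - x)) * Real.exp (-2) := Real.exp_add _ _
        _ ≤ Real.exp (-C1 * qw n (y - x)) * (1 / 4) := by gcongr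
        _ = _ := by ring
    · have h7 := one_sub_exp_ge (by positivity) (by
          have : Real.exp (-C1 * Real.log n) ≤ 1 := Real.exp_le_one_iff.mpr (by nlinarith)
          linarith) h6
      refine le_trans ?_ h7
      calc Real.exp (-(C * Real.log n)) ≤ Real.exp (-C1 * Real.log n + -2) := by
            apply Real.exp_le_exp.mpr
            rw [hC]; nlinarith
        _ = Real.exp (-C1 * Real.log n) * Real.exp (-2) := Real.exp_add _ _
        _ ≤ Real.exp (-C1 * Real.log n) * (1 / 4) := by gcongr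
        _ = _ := by ring
  refine ⟨T, U, ?_, ?_, ?_, ?_, ?_, ?_⟩
  · intro j _
    simp only [hU]
    split_ifs
    · exact Finset.filter_subset _ _
    · exact Finset.filter_subset _ _
  · intro j hj
    rcases (hTmem j).mp hj with ⟨x, hx, rfl⟩ | hj
    · exact (hhitS x hx).2
    · exact hhitCl j hj
  · intro v
    have h5 : T.filter (fun j => v ∈ U j) ⊆
        (S0.filter (fun x => v ∈ U {x})).image (fun x => ({x} : Finset (EE n))) ∪ Cl := by
      intro j hj
      rw [Finset.mem_filter] at hj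
      rw [Finset.mem_union, Finset.mem_image]
      rcases (hTmem j).mp hj.1 with ⟨x, hx, rfl⟩ | hj'
      · left
        exact ⟨x, Finset.mem_filter.mpr ⟨hx, hj.2⟩, rfl⟩
      · right; exact hj'
    have h6 : (S0.filter (fun x => v ∈ U {x})).card ≤ k := by
      by_cases hne : (S0.filter (fun x => v ∈ U {x})).Nonempty
      · obtain ⟨x, hx⟩ := hne
        have h7 := (Finset.mem_filter.mp hx).2
        rw [hUs] at h7
        refine le_trans (Finset.card_le_card ?_) h7.2.2
        intro x' hx'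
        rw [Finset.mem_filter] at hx' ⊢
        refine ⟨hx'.1, ?_⟩
        have h8 := hx'.2
        rw [hUs] at h8
        exact h8.2.1
      · rw [Finset.not_nonempty_iff_eq_empty.mp hne]
        simp
    have h7 : (T.filter (fun j => v ∈ U j)).card ≤ k + Cl.card :=
      (Finset.card_le_card h5).trans ((Finset.card_union_le _ _).trans
        (Nat.add_le_add_right (Finset.card_image_le.trans h6) _))
    refine h7.trans (Nat.le_floor ?_)
    push_cast
    nlinarith [Real.sqrt_nonneg (n : ℝ)]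
  · have hdisj : Disjoint (S0.image (fun x => ({x} : Finset (EE n)))) Cl := by
      rw [Finset.disjoint_left]
      intro j hj hj'
      obtain ⟨x, _, rfl⟩ := Finset.mem_image.mp hj
      exact hsing x hj'
    rw [hT, Finset.prod_union hdisj, Finset.prod_image (fun a _ b _ h => by simpa using h)]
    have h5 : Real.exp (-(C * ∑ x ∈ I, qw n (y - x))) ≤
        ∏ x ∈ S0, (1 - ∏ v ∈ U {x}, (1 - pp n G v)) := by
      calc Real.exp (-(C * ∑ x ∈ I, qw n (y - x)))
          ≤ Real.exp (∑ x ∈ S0, (-(C * qw n (y - x)))) := by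
            apply Real.exp_le_exp.mpr
            rw [Finset.sum_neg_distrib, ← Finset.mul_sum]
            have := Finset.sum_le_sum_of_subset_of_nonneg (f := fun x => qw n (y - x)) hS0I
              (fun i _ _ => qw_nonneg n _)
            have := mul_le_mul_of_nonneg_left this hCpos.le
            linarith
        _ = ∏ x ∈ S0, Real.exp (-(C * qw n (y - x))) := Real.exp_sum _ _
        _ ≤ _ := Finset.prod_le_prod (fun _ _ => (Real.exp_pos _).le)
            (fun x hx => (hhitS x hx).1)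
    have h6 : Real.exp (-(C * Real.sqrt n * Real.log n ^ 2)) ≤
        ∏ j ∈ Cl, (1 - ∏ v ∈ U j, (1 - pp n G v)) := by
      calc Real.exp (-(C * Real.sqrt n * Real.log n ^ 2))
          ≤ Real.exp (∑ _j ∈ Cl, (-(C * Real.log n))) := by
            apply Real.exp_le_exp.mpr
            rw [Finset.sum_const, nsmul_eq_mul]
            have h7 := mul_le_mul_of_nonneg_right hClcard (mul_nonneg hCpos.le hlog0)
            nlinarith
        _ = ∏ _j ∈ Cl, Real.exp (-(C * Real.log n)) := Real.exp_sum _ _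
        _ ≤ _ := Finset.prod_le_prod (fun _ _ => (Real.exp_pos _).le)
            (fun x hx => hhitCl x hx)
    rw [neg_add, Real.exp_add]
    exact mul_le_mul h5 h6 (Real.exp_pos _).le ((Real.exp_pos _).le.trans h5)
  · intro t ht x hx
    by_cases hx0 : x ∈ S0
    · obtain ⟨v, hv⟩ := ht {x} ((hTmem _).mpr (Or.inl ⟨x, hx0, rfl⟩))
      rw [Finset.mem_inter, hUs] at hv
      exact ⟨v, hv.1, hv.2.2.1⟩
    · have h5 : x ∈ Cl.biUnion id := by
        by_contra h6
        exact hx0 (Finset.mem_sdiff.mpr ⟨hx, h6⟩)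
      obtain ⟨S, hS, hxS⟩ := Finset.mem_biUnion.mp h5
      obtain ⟨v, hv⟩ := ht S ((hTmem _).mpr (Or.inr hS))
      rw [Finset.mem_inter, hUCl S hS] at hv
      exact ⟨v, hv.1, hv.2.2 x hxS⟩
  · intro j hj v hv
    rcases (hTmem j).mp hj with ⟨x, hx, rfl⟩ | hj
    · rw [hUs] at hv
      exact ⟨x, hS0I hx, hv.2.1⟩
    · obtain ⟨hjI, hjk, x0, hx0, _⟩ := hCl1 j hj
      rw [hUCl j hj] at hv
      exact ⟨x0, hjI hx0, hv.2 x0 hx0⟩

lemma numD1 (C1 C3 : ℝ) (hC3 : 0 < C3) : ∀ᶠ n : ℕ in atTop, NumD1 C1 C3 n := by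
  filter_upwards [eventually_ge_atTop (max 3 ⌈4 * C3 ^ 2⌉₊)] with n hn
  have hn3 : 3 ≤ n := (le_max_left _ _).trans hn
  have hnC : 4 * C3 ^ 2 ≤ n :=
    (Nat.le_ceil _).trans (by exact_mod_cast (le_max_right _ _).trans hn)
  have hn3r : (3 : ℝ) ≤ n := by exact_mod_cast hn3
  have hnpos : (0 : ℝ) < n := by linarith
  have hlog : Real.log n ≤ n := (Real.log_le_sub_one_of_pos hnpos).trans (by linarith)
  have hlog0 : 0 ≤ Real.log n := Real.log_nonneg (by linarith)
  refine ⟨hn3, hlog, ?_⟩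
  have h1 : Real.exp (-((C1 + 3) * Real.log n)) = Real.exp (-C1 * Real.log n) / (n : ℝ) ^ 3 := by
    have h2 : (n : ℝ) ^ 3 = Real.exp (3 * Real.log n) := by
      have := Real.exp_log (pow_pos hnpos 3)
      rw [Real.log_pow] at this
      rw [← this]; norm_num
    rw [h2, ← Real.exp_sub]
    congr 1; ring
  rw [h1]
  set L := Real.exp (-C1 * Real.log n) with hL
  have hLpos : 0 < L := Real.exp_pos _
  have hs : Real.sqrt n * Real.sqrt n = n := Real.mul_self_sqrt hnpos.le
  have hsC : 2 * C3 ≤ Real.sqrt n := by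
    rw [Real.le_sqrt (by positivity) hnpos.le]
    nlinarith
  have hspos : 0 < Real.sqrt n := Real.sqrt_pos.mpr hnpos
  have h3 : (n * Real.log n) * (C3 * Real.sqrt n * (L / (n : ℝ) ^ 3)) ≤
      (n * n) * (C3 * Real.sqrt n * (L / (n : ℝ) ^ 3)) := by
    gcongr
  refine h3.trans ?_
  have h4 : (n * n : ℝ) * (C3 * Real.sqrt n * (L / (n : ℝ) ^ 3)) = L * (C3 * Real.sqrt n / n) := by
    field_simp
  rw [h4]
  have h5 : C3 * Real.sqrt n / n ≤ 1 / 2 := by
    rw [div_le_iff₀ hnpos]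
    nlinarith
  nlinarith

open scoped Classical in
/-- D1. The family of targets of one point `y`. -/
theorem target_family (hB1 : ∃ C : ℝ, 0 < C ∧ ∀ᶠ n : ℕ in atTop, HB1 C n)
    (hB3 : ∃ C : ℝ, 0 < C ∧ ∀ᶠ n : ℕ in atTop, HB3 C n)
    (hB4 : ∀ A : ℝ, 0 < A → ∃ C : ℝ, 0 < C ∧ ∀ᶠ n : ℕ in atTop, HB4 A C n) :
    ∃ C : ℝ, 0 < C ∧ ∀ᶠ n : ℕ in atTop,
    ∀ (G : Finset (EE n)) (y : EE n) (I : Finset (EE n)),
    (∀ x ∈ I, ‖y - x‖ ≤ 1 + eta n ∧ y - x ∈ G) →
    (∑ x ∈ I, qw n (y - x) ≤ n * Real.log n) →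
    ∃ (T : Finset (Finset (EE n))) (U : Finset (EE n) → Finset (Finset (EE n))),
      (∀ j ∈ T, U j ⊆ G.powerset) ∧
      (∀ j ∈ T, Real.exp (-(C * Real.log n)) ≤ 1 - ∏ v ∈ U j, (1 - pp n G v)) ∧
      (∀ v, (T.filter (fun j => v ∈ U j)).card ≤ ⌊3 * Real.sqrt n * Real.log n + 3⌋₊) ∧
      Real.exp (-(C * (∑ x ∈ I, qw n (y - x)) + C * Real.sqrt n * Real.log n ^ 2)) ≤
        ∏ j ∈ T, (1 - ∏ v ∈ U j, (1 - pp n G v)) ∧
      (∀ t : Finset (Finset (EE n)), (∀ j ∈ T, (t ∩ U j).Nonempty) →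
        ∀ x ∈ I, ∃ v ∈ t, y - x ∈ v) ∧
      (∀ j ∈ T, ∀ v ∈ U j, ∃ x ∈ I, y - x ∈ v) := by
  obtain ⟨C1, hC1, h1⟩ := hB1
  obtain ⟨C3, hC3, h3⟩ := hB3
  obtain ⟨C4, hC4, h4⟩ := hB4 (C1 + 3) (by linarith)
  refine ⟨C1 + C4 + 2, by linarith, ?_⟩
  filter_upwards [h1, h3, h4, numD1 C1 C3 hC3] with n h1 h3 h4 hN G y I hI hq
  exact target_family_of hC1 hC3 hC4 h1 h3 h4 hN G y I hI hq

end Crest.Agent.R225.LB.Tgt
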