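import Crest.Agent.R225.LB.Target
import Crest.Agent.R225.LB.Gauss2
import Crest.Agent.R225.LB.B4

/-!
Row 225, S0348, module D1: unconditional version of the target family.
-/

set_option autoImplicit false

namespace Crest.Agent.R225.LB

open MeasureTheory ProbabilityTheory Finset Filter

open scoped Classical in
/-- D1. The family of targets of one point `y`. -/
theorem target_family :
    ∃ C : ℝ, 0 < C ∧ ∀ᶠ n : ℕ in atTop,
    ∀ (G : Finset (EE n)) (y : EE n) (I : Finset (EE n)),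
    (∀ x ∈ I, ‖y - x‖ ≤ 1 + eta n ∧ y - x ∈ G) →
    (∑ x ∈ I, qw n (y - x) ≤ n * Real.log n) →
    ∃ (T : Finset (Finset (EE n))) (U : Finset (EE n) → Finset (Finset (EE n))),
      (∀ j ∈ T, U j ⊆ G.powerset) ∧
      (∀ j ∈ T, Real.exp (-(C * Real.log n)) ≤ 1 - ∏ v ∈ U j, (1 - pp n G v)) ∧
      (∀ v, (T.filter (fun j => v ∈ U j)).card ≤ ⌊3 * Real.sqrt n * Real.log n + 3⌋₊) ∧
      Real.exp (-(C * (∑ x ∈ I, qw n (y - x)) + C * Real.sqrt n * Real.log n ^ 2)) ≤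
        ∏ j ∈ T, (1 - ∏ v ∈ U j, (1 - pp n G v)) ∧
      (∀ t : Finset (Finset (EE n)), (∀ j ∈ T, (t ∩ U j).Nonempty) →
        ∀ x ∈ I, ∃ v ∈ t, y - x ∈ v) ∧
      (∀ j ∈ T, ∀ v ∈ U j, ∃ x ∈ I, y - x ∈ v) :=
  Tgt.target_family nu_kill_ge nu_kill_inter_le nu_kill_cluster_ge

end Crest.Agent.R225.LB
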