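import Crest.Agent.R225.LB.Good
import Crest.Agent.R225.LB.Avg

/-!
From a sparse locally finite set to an admissible grid configuration (S0348-E).
-/

set_option autoImplicit false

namespace Crest.Agent.R225.LB.Body

open MeasureTheory ProbabilityTheory Finset Filter Crest.Agent.R225.LB
open Crest.Agent.R225.LB.ExLib Crest.Agent.R225.LB.Grid

/-- radii -/
noncomputable def rad (n j : ℕ) : ℝ := 1 + 2 * eta n - j / n

theorem rad_nonneg {n j : ℕ} (hn : 0 < n) (hj : j < n) : 0 ≤ rad n j := by
  have h1 : (j : ℝ) / n ≤ 1 := by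
    rw [div_le_one (by exact_mod_cast hn)]; exact_mod_cast hj.le
  have := eta_pos hn
  unfold rad; linarith

theorem rad_pow_le {n j : ℕ} (hn : 2 ≤ n) (hj : j < n) : rad n j ^ n ≤ Real.exp (1 - j) := by
  have hn0 : 0 < n := by omega
  have hn' : (2 : ℝ) ≤ n := by exact_mod_cast hn
  have h1 : rad n j ≤ Real.exp (2 * eta n - j / n) := by
    have := Real.add_one_le_exp (2 * eta n - j / n)
    unfold rad; linarith
  calc rad n j ^ n ≤ Real.exp (2 * eta n - j / n) ^ n :=
        pow_le_pow_left₀ (rad_nonneg hn0 hj) h1 n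
    _ = Real.exp (n * (2 * eta n - j / n)) := (Real.exp_nat_mul _ n).symm
    _ ≤ Real.exp (1 - j) := by
        apply Real.exp_le_exp.2
        have h2 : (n : ℝ) * (2 * eta n - j / n) = 2 / (n : ℝ) ^ 2 - j := by
          unfold eta
          field_simp
        rw [h2]
        have h3 : 2 / (n : ℝ) ^ 2 ≤ 1 := by
          rw [div_le_one (by positivity)]; nlinarith
        linarith

theorem sum_exp_le (n : ℕ) (hn : 2 ≤ n) :
    ∑ j ∈ range n, Real.exp (j / 2) * rad n j ^ n ≤ 9 := by
  have hq : Real.exp (-(1 / 2)) ≤ 2 / 3 := by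
    have h1 : (3 / 2 : ℝ) ≤ Real.exp (1 / 2) := by
      have := Real.add_one_le_exp (1 / 2 : ℝ)
      linarith
    rw [Real.exp_neg]
    calc (Real.exp (1 / 2))⁻¹ ≤ (3 / 2 : ℝ)⁻¹ := inv_anti₀ (by norm_num) h1
      _ = 2 / 3 := by norm_num
  calc ∑ j ∈ range n, Real.exp (j / 2) * rad n j ^ n
      ≤ ∑ j ∈ range n, Real.exp 1 * (2 / 3) ^ j := by
        refine sum_le_sum fun j hj => ?_
        rw [mem_range] at hj
        calc Real.exp (j / 2) * rad n j ^ n ≤ Real.exp (j / 2) * Real.exp (1 - j) :=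
              mul_le_mul_of_nonneg_left (rad_pow_le hn hj) (Real.exp_pos _).le
          _ = Real.exp 1 * Real.exp (-(1 / 2)) ^ j := by
              rw [← Real.exp_nat_mul, ← Real.exp_add, ← Real.exp_add]
              congr 1; ring
          _ ≤ Real.exp 1 * (2 / 3) ^ j := by
              refine mul_le_mul_of_nonneg_left ?_ (Real.exp_pos _).le
              exact pow_le_pow_left₀ (Real.exp_pos _).le hq j
    _ = Real.exp 1 * ∑ j ∈ range n, (2 / 3 : ℝ) ^ j := by rw [mul_sum]
    _ ≤ Real.exp 1 * 3 := by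
        refine mul_le_mul_of_nonneg_left ?_ (Real.exp_pos _).le
        rw [geom_sum_eq (by norm_num)]
        have : (0 : ℝ) ≤ (2 / 3) ^ n := by positivity
        rw [div_le_iff_of_neg (by norm_num)]
        linarith
    _ ≤ 9 := by
        have := Real.exp_one_lt_d9
        linarith

theorem num3 (a : ℝ) : ∀ᶠ n : ℕ in atTop,
    20 * a * n * Real.log n * (17 / 10) ^ n ≤ 3 ^ n := by
  have := tendsto_pow_const_mul_const_pow_of_abs_lt_one 2 (r := (17 / 30 : ℝ))
      (by rw [abs_of_pos (by norm_num)]; norm_num)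
  have hpos : (0 : ℝ) < 1 / (20 * |a| + 1) := by positivity
  filter_upwards [this.eventually (gt_mem_nhds hpos), eventually_ge_atTop 1] with n hn hn1
  have hn' : (1 : ℝ) ≤ n := by exact_mod_cast hn1
  have hlog : Real.log n ≤ n := (Real.log_le_sub_one_of_pos (by linarith)).trans (by linarith)
  have hlog0 : 0 ≤ Real.log n := Real.log_nonneg hn'
  have h1 : 20 * a * n * Real.log n ≤ (20 * |a| + 1) * (n : ℝ) ^ 2 := by
    calc 20 * a * n * Real.log n = 20 * a * (n * Real.log n) := by ring
      _ ≤ (20 * |a| + 1) * (n * Real.log n) := by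
        refine mul_le_mul_of_nonneg_right ?_ (by positivity)
        have := le_abs_self a
        linarith
      _ ≤ (20 * |a| + 1) * (n * n) := by
        refine mul_le_mul_of_nonneg_left ?_ (by positivity)
        exact mul_le_mul_of_nonneg_left hlog (by positivity)
      _ = _ := by ring
  have h2 : ((17 : ℝ) / 30) ^ n * 3 ^ n = (17 / 10) ^ n := by
    rw [← mul_pow]; norm_num
  rw [lt_div_iff₀ (by positivity)] at hn
  calc 20 * a * n * Real.log n * (17 / 10) ^ n
      ≤ (20 * |a| + 1) * (n : ℝ) ^ 2 * (17 / 10) ^ n :=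
        mul_le_mul_of_nonneg_right h1 (by positivity)
    _ = ((n : ℝ) ^ 2 * (17 / 30) ^ n * (20 * |a| + 1)) * 3 ^ n := by rw [← h2]; ring
    _ ≤ 1 * 3 ^ n := mul_le_mul_of_nonneg_right hn.le (by positivity)
    _ = 3 ^ n := one_mul _

open scoped Classical in
theorem qw_eq {n : ℕ} (z : EE n) : qw n z =
    ∑ j ∈ Finset.range n, Real.exp (j / 2) * (if ‖z‖ ≤ 1 + eta n - j / n then 1 else 0) := by
  unfold qw
  refine sum_congr rfl fun j _ => ?_
  congr

theorem qw_nonneg (n : ℕ) (z : EE n) : 0 ≤ qw n z := by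
  unfold qw
  exact sum_nonneg fun j _ => mul_nonneg (Real.exp_pos _).le (by split_ifs <;> norm_num)

/-- The weighted count after rounding is bounded by the true count. -/
theorem sum_qw_le {n : ℕ} (hn : 0 < n) (X : Set (EE n)) (F : Finset (EE n))
    (hF : ∀ x ∈ F, x ∈ X) (hfin : ∀ p r, (X ∩ Metric.closedBall p r).Finite) (v y : EE n)
    [DecidableEq (EE n)] :
    ∑ x' ∈ F.image (fun x => rd n (x - v)), qw n (y - x') ≤
      ∑ j ∈ range n, Real.exp (j / 2) *
        ((X ∩ Metric.closedBall (v + y) (rad n j)).ncard : ℝ) := by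
  classical
  calc ∑ x' ∈ F.image (fun x => rd n (x - v)), qw n (y - x')
      ≤ ∑ x ∈ F, qw n (y - rd n (x - v)) :=
        sum_image_le_of_nonneg fun x _ => qw_nonneg n _
    _ = ∑ j ∈ range n, Real.exp (j / 2) *
        ∑ x ∈ F, (if ‖y - rd n (x - v)‖ ≤ 1 + eta n - j / n then (1 : ℝ) else 0) := by
        simp only [qw_eq]
        rw [sum_comm]
        exact sum_congr rfl fun j _ => by rw [mul_sum]
    _ ≤ _ := by
        refine sum_le_sum fun j _ => mul_le_mul_of_nonneg_left ?_ (Real.exp_pos _).le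
        rw [sum_boole]
        norm_cast
        rw [← Set.ncard_coe_finset]
        refine Set.ncard_le_ncard ?_ (hfin _ _)
        intro x hx
        rw [mem_coe, mem_filter] at hx
        refine ⟨hF x hx.1, ?_⟩
        rw [Metric.mem_closedBall, dist_eq_norm]
        have h1 := norm_sub_rd_le hn (x - v)
        have h2 := mesh_sqrt_le hn
        have h3 : x - (v + y) = (x - v - rd n (x - v)) - (y - rd n (x - v)) := by abel
        rw [h3]
        refine (norm_sub_le _ _).trans ?_
        unfold rad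
        linarith [hx.2]

end Crest.Agent.R225.LB.Body
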